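import Mathlib
import Vale.Agent.P146.Bd3.B1
import Vale.Agent.P146.Bd3.B6
import Vale.Agent.P146.Bdl.B10
import Vale.Agent.P146.Bdl.B28

set_option linter.all false

section

/-!
# P146, Sh: the sharp constant of the exponential moments: definitions

`x → 0`: the first block of the constrained minimiser and its competitor.
-/

open MeasureTheory ProbabilityTheory Filter Topology Set

namespace Vale.Agent.P146.Sh

open Vale.Agent.P157.Par
open Vale.Agent.P146.Gap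
open Vale.Agent.P146.Pw2
open Vale.Agent.P146.Lb
open Vale.Agent.P367.Cl

/-- The second derivative at the origin of the function of the level `0`. -/
noncomputable def vv (n : ℕ) (r : ℕ → ℝ) : ℝ := iteratedDeriv 2 (Fl n (gm n) r 0) 0

/-- Minus the fourth derivative at the origin of the function of the level `0`. -/
noncomputable def kk (n : ℕ) (r : ℕ → ℝ) : ℝ := -iteratedDeriv 4 (Fl n (gm n) r 0) 0

/-- The integral over `[u, R]` of the exponents of the path `ρ` (levels `< L` below `R`). -/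
noncomputable def Aw (n L : ℕ) (R : ℝ) (ρ : ℕ → ℝ) (u : ℝ) : ℝ :=
  ∑ j ∈ Finset.range L, 1 / ((n : ℝ) + 1) * (R - max u (ρ j))

/-- The quadratic model of the functional. -/
noncomputable def Nw (n L : ℕ) (R v a : ℝ) (ρ : ℕ → ℝ) : ℝ :=
  v ^ 3 / 2 * ∫ u in (0 : ℝ)..R, (Aw n L R ρ u - a * (R ^ 2 - u ^ 2)) ^ 2

/-- The paths which vary only below the level `L`, where they are at most `R`. -/
structure Fam (b : ℝ) (n L : ℕ) (R : ℝ) (q ρ : ℕ → ℝ) : Prop where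
  path : BPath b n ρ
  le : ∀ l < L, ρ l ≤ R
  ge : R ≤ ρ L
  top : ∀ l, L ≤ l → ρ l = q l

/-- The Parisi value with exponents at least `x`. -/
noncomputable def Vx (b x : ℝ) : ℝ :=
  sInf {y | ∃ (K : ℕ) (m q : ℕ → ℝ), Exponents K m ∧ Path K q ∧ q 0 = 0 ∧ q K ≤ 1 ∧ x ≤ m 1 ∧
    y = SKpar b K m q}

/-- The Parisi value. -/
noncomputable def P0 (b : ℝ) : ℝ :=
  sInf {y | ∃ (K : ℕ) (m q : ℕ → ℝ), Exponents K m ∧ Path K q ∧ q K ≤ 1 ∧ y = SKpar b K m q}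

end Vale.Agent.P146.Sh
end

section

/-!
# P146, Sh: the derivatives at the origin along the recursion, from their inputs
-/

open MeasureTheory ProbabilityTheory Filter Topology Set

namespace Vale.Agent.P146.Sh

open Vale.Agent.P157.Par
open Vale.Agent.P146.Gap
open Vale.Agent.P146.Pw2
open Vale.Agent.P146.Lb
open Vale.Agent.P367.Cl

variable {n l : ℕ} {m r : ℕ → ℝ} {t : ℝ}

/-- the family of the fourth derivatives -/
theorem kv_P4 {C g : ℝ} {F : ℝ → ℝ} (h : Adm C F) (hg : 0 < g) (s₁ : ℝ) :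
    first_P s₁ (first_f g s₁ F 4) (first_f g s₁ F 5) (first_f g s₁ F 6)
      (fun s x => -(1 / 2 * first_f g s₁ F 6 s x
        + g * (3 * first_f g s₁ F 3 s x ^ 2 + 4 * first_f g s₁ F 2 s x * first_f g s₁ F 4 s x
          + first_f g s₁ F 1 s x * first_f g s₁ F 5 s x))) := by
  have b1 := first_f_bc h hg s₁ 0
  have b2 := first_f_bc h hg s₁ 1
  have b3 := first_f_bc h hg s₁ 2
  have b4 := first_f_bc h hg s₁ 3
  have b5 := first_f_bc h hg s₁ 4
  have b6 := first_f_bc h hg s₁ 5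
  refine ⟨fun s x => first_f_x h hg s₁ 4 s x, fun s x => first_f_x h hg s₁ 5 s x,
    fun s hs x => first_comp (fj_s4 h.smb hg (s := s₁ - s) (by linarith [hs.2]) x),
    b4, b5, b6, ?_⟩
  have := ((b6.smul (1 / 2)).add (((((b3.mul b3).smul 3).add ((b2.mul b4).smul 4)).add
    (b1.mul b5)).smul g)).smul (-1)
  convert this using 3
  ring

/-! ### Linearity of the averages -/

theorem kv_add (hm : Exponents n m) (hr : Path n r) (hl : l < n)
    (ht : t ∈ Icc 0 (r (l + 1) - r l)) {ψ φ : ℝ → ℝ} (hψ : Sp7Cb ψ) (hφ : Sp7Cb φ) :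
    Bt n m r l t (fun x => ψ x + φ x) = Bt n m r l t ψ + Bt n m r l t φ := by
  obtain ⟨C, hG⟩ := blk2_adm hm hr hl ht
  unfold Bt
  rw [← ee_add hm hr hl.le (sp7_cb_tlt (adm_ec hG) hψ _ _) (sp7_cb_tlt (adm_ec hG) hφ _ _)]
  congr 1
  funext x
  obtain ⟨hc, K, hK⟩ := hψ
  obtain ⟨hc', K', hK'⟩ := hφ
  exact (adm_ec hG).sm.tlt_add hc hK hc' hK' _ _ x

theorem kv_smul (c : ℝ) (ψ : ℝ → ℝ) :
    Bt n m r l t (fun x => c * ψ x) = c * Bt n m r l t ψ := by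
  unfold Bt
  rw [← ee_smul]
  congr 1
  funext x
  exact tlt_const_mul _ _ _ _ _ x

/-- the average of a function which is close to a constant -/
theorem kv_dev (hm : Exponents n m) (hr : Path n r) (hl : l < n)
    (ht : t ∈ Icc 0 (r (l + 1) - r l)) {ψ φ : ℝ → ℝ} (hψ : Sp7Cb ψ) (hφ : Sp7Cb φ) {c : ℝ}
    (h : ∀ x, |ψ x - c| ≤ φ x) : |Bt n m r l t ψ - c| ≤ Bt n m r l t φ := by
  have h1 := blk2_mono hm hr hl ht hψ (sp7_cb_add (sp7_cb_const c) hφ) fun x => by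
    have := (abs_le.1 (h x)).2
    linarith
  rw [kv_add hm hr hl ht (sp7_cb_const c) hφ, blk2_const hm hr hl ht] at h1
  have h2 := blk2_mono hm hr hl ht (sp7_cb_const c) (sp7_cb_add hψ hφ) fun x => by
    have := (abs_le.1 (h x)).1
    linarith
  rw [kv_add hm hr hl ht hψ hφ, blk2_const hm hr hl ht] at h2
  rw [abs_le]
  constructor <;> linarith

/-! ### Averages along the path -/

theorem kv_slope {f : ℝ → ℝ} {T B : ℝ} (hc : ContinuousOn f (Icc 0 T))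
    (hd : ∀ t ∈ Ioo 0 T, ∃ d, HasDerivAt f d t ∧ |d| ≤ B) {t : ℝ} (ht : t ∈ Icc 0 T) :
    |f t - f 0| ≤ B * t := by
  rcases ht.1.eq_or_lt with h0 | h0
  · rw [← h0]
    simp
  · have hd' : ∀ s ∈ Ioo 0 t, HasDerivAt f (deriv f s) s ∧ |deriv f s| ≤ B := fun s hs => by
      obtain ⟨d, h1, h2⟩ := hd s ⟨hs.1, hs.2.trans_le ht.2⟩
      rw [h1.deriv]
      exact ⟨h1, h2⟩
    obtain ⟨c, hcm, hce⟩ := exists_hasDerivAt_eq_slope f (deriv f) h0
      (hc.mono (Icc_subset_Icc le_rfl ht.2)) (fun s hs => (hd' s hs).1)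
    have h3 := (hd' c hcm).2
    rw [hce, sub_zero, abs_div, abs_of_pos h0, div_le_iff₀ h0] at h3
    exact h3

theorem kv_track (hm : Exponents n m) (hr : Path n r) (h0 : r 0 = 0) {B : ℝ} (j : ℕ)
    (hc : ∀ l < n, ContinuousOn (fun t => Bt n m r l t (iteratedDeriv j (Gb n m r l t)))
      (Icc 0 (r (l + 1) - r l)))
    (hd : ∀ l < n, ∀ t ∈ Ioo 0 (r (l + 1) - r l), ∃ d,
      HasDerivAt (fun t => Bt n m r l t (iteratedDeriv j (Gb n m r l t))) d t ∧ |d| ≤ B) :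
    ∀ l < n, ∀ t ∈ Icc 0 (r (l + 1) - r l),
      |Bt n m r l t (iteratedDeriv j (Gb n m r l t)) - iteratedDeriv j (Fl n m r 0) 0| ≤
        B * (r l + t) := by
  have key : ∀ l < n, |Bt n m r l 0 (iteratedDeriv j (Gb n m r l 0))
      - iteratedDeriv j (Fl n m r 0) 0| ≤ B * r l → ∀ t ∈ Icc 0 (r (l + 1) - r l),
      |Bt n m r l t (iteratedDeriv j (Gb n m r l t)) - iteratedDeriv j (Fl n m r 0) 0| ≤
        B * (r l + t) := fun l hl h1 t ht => by
    have h2 := kv_slope (hc l hl) (hd l hl) ht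
    have h3 := abs_add_le (Bt n m r l t (iteratedDeriv j (Gb n m r l t)) -
      Bt n m r l 0 (iteratedDeriv j (Gb n m r l 0)))
      (Bt n m r l 0 (iteratedDeriv j (Gb n m r l 0)) - iteratedDeriv j (Fl n m r 0) 0)
    rw [sub_add_sub_cancel] at h3
    linarith
  intro l
  induction l with
  | zero =>
    intro hl
    refine key 0 hl ?_
    rw [Bt_zero, Gb_zero hl, ee_zero h0, h0]
    simp
  | succ l ih =>
    intro hl
    refine key (l + 1) hl ?_
    have hl' : l < n := by omega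
    have h1 := ih hl' (r (l + 1) - r l) ⟨sub_nonneg.2 (hr.2 l hl'), le_rfl⟩
    rw [Bt_last hm hl', Gb_last hm hl'] at h1
    rw [Bt_zero, Gb_zero hl]
    refine h1.trans_eq ?_
    ring

theorem kv_two (hm : Exponents n m) (hr : Path n r) (h0 : r 0 = 0) :
    ∀ l < n, ∀ t ∈ Icc 0 (r (l + 1) - r l),
      |Bt n m r l t (iteratedDeriv 2 (Gb n m r l t)) - iteratedDeriv 2 (Fl n m r 0) 0| ≤
        1 * (r l + t) := by
  refine kv_track hm hr h0 2 (fun l hl => Ab_cont hm hr hl) fun l hl t ht => ?_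
  obtain ⟨C, hC⟩ := fblk_adm hm hr hl
  obtain ⟨g0, g1⟩ := sp7_exp_of hm l hl
  refine ⟨-m (l + 1) * Mb n m r l t, ?_, ?_⟩
  · refine (bt_deriv hm hr hl (first_P2 hC g0 (r (l + 1) - r l)) ht).congr_deriv ?_
    rw [Mb, ← kv_smul]
    congr 1
    funext x
    change _ + _ + m (l + 1) * first_f (m (l + 1)) (r (l + 1) - r l) (Fl n m r (l + 1)) 1 t x * _ =
      -m (l + 1) * first_f (m (l + 1)) (r (l + 1) - r l) (Fl n m r (l + 1)) 2 t x ^ 2
    ring
  · obtain ⟨h1, h2⟩ := Mb_mem hm hr hl (Ioo_subset_Icc_self ht)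
    rw [abs_mul, abs_neg, abs_of_pos g0, abs_of_nonneg h1]
    exact mul_le_one₀ g1 h1 h2

theorem kv_four (hm : Exponents n m) (hr : Path n r) (h0 : r 0 = 0) {K : ℝ} (hK : 1 ≤ K)
    (hAK : ∀ l < n, ∀ t ∈ Icc 0 (r (l + 1) - r l), AK K (Gb n m r l t)) :
    ∀ l < n, ∀ t ∈ Icc 0 (r (l + 1) - r l),
      |Bt n m r l t (iteratedDeriv 4 (Gb n m r l t)) - iteratedDeriv 4 (Fl n m r 0) 0| ≤
        (3 * K ^ 2 + 4 * K) * (r l + t) := by
  refine kv_track hm hr h0 4 (fun l hl => ?_) fun l hl t ht => ?_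
  · obtain ⟨C, hC⟩ := fblk_adm hm hr hl
    obtain ⟨g0, g1⟩ := sp7_exp_of hm l hl
    exact bt_contOn hm hr hl (first_f_bc hC g0 (r (l + 1) - r l) 3)
  obtain ⟨C, hC⟩ := fblk_adm hm hr hl
  obtain ⟨g0, g1⟩ := sp7_exp_of hm l hl
  have hG := hAK l hl t (Ioo_subset_Icc_self ht)
  refine ⟨-m (l + 1) * Bt n m r l t (fun x => 3 * iteratedDeriv 3 (Gb n m r l t) x ^ 2 +
    4 * (iteratedDeriv 2 (Gb n m r l t) x * iteratedDeriv 4 (Gb n m r l t) x)), ?_, ?_⟩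
  · refine (bt_deriv hm hr hl (kv_P4 hC g0 (r (l + 1) - r l)) ht).congr_deriv ?_
    rw [← kv_smul]
    congr 1
    funext x
    change _ + _ + m (l + 1) * first_f (m (l + 1)) (r (l + 1) - r l) (Fl n m r (l + 1)) 1 t x * _ =
      -m (l + 1) * (3 * first_f (m (l + 1)) (r (l + 1) - r l) (Fl n m r (l + 1)) 3 t x ^ 2 +
        4 * (first_f (m (l + 1)) (r (l + 1) - r l) (Fl n m r (l + 1)) 2 t x *
          first_f (m (l + 1)) (r (l + 1) - r l) (Fl n m r (l + 1)) 4 t x))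
    ring
  · have hcb : Sp7Cb (fun x => 3 * iteratedDeriv 3 (Gb n m r l t) x ^ 2 +
        4 * (iteratedDeriv 2 (Gb n m r l t) x * iteratedDeriv 4 (Gb n m r l t) x)) :=
      sp7_cb_add (nest_cb_smul 3 (sp7_cb_sq (blk2_cb ⟨K, hG.adm⟩ 2)))
        (nest_cb_smul 4 (nest_cb_mul (blk2_cb ⟨K, hG.adm⟩ 1) (blk2_cb ⟨K, hG.adm⟩ 3)))
    have h1 := blk2_bd hm hr hl (Ioo_subset_Icc_self ht) hcb (a := -(3 * K ^ 2 + 4 * K))
      (b := 3 * K ^ 2 + 4 * K) fun x => by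
        have h2 := vari_d2_01 hG.adm x
        have h3 : |iteratedDeriv 3 (Gb n m r l t) x| ≤ K :=
          (hG.k3 x).trans (mul_le_of_le_one_right (by linarith) (vari_abs1 hG.adm x))
        have h4 : |iteratedDeriv 4 (Gb n m r l t) x| ≤ K :=
          (hG.k4 x).trans (mul_le_of_le_one_right (by linarith) h2.2)
        have h5 : iteratedDeriv 3 (Gb n m r l t) x ^ 2 ≤ K ^ 2 := by
          rw [← sq_abs]
          exact pow_le_pow_left₀ (abs_nonneg _) h3 2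
        have h6 : |iteratedDeriv 2 (Gb n m r l t) x * iteratedDeriv 4 (Gb n m r l t) x| ≤ K := by
          rw [abs_mul, abs_of_pos h2.1]
          calc iteratedDeriv 2 (Gb n m r l t) x * |iteratedDeriv 4 (Gb n m r l t) x|
              ≤ 1 * K := mul_le_mul h2.2 h4 (abs_nonneg _) zero_le_one
            _ = K := one_mul K
        have h7 := abs_le.1 h6
        have h8 := sq_nonneg (iteratedDeriv 3 (Gb n m r l t) x)
        constructor <;> nlinarith [sq_nonneg K]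
    rw [abs_mul, abs_neg, abs_of_pos g0]
    calc m (l + 1) * _ ≤ 1 * (3 * K ^ 2 + 4 * K) :=
          mul_le_mul g1 (abs_le.2 h1) (abs_nonneg _) zero_le_one
      _ = 3 * K ^ 2 + 4 * K := one_mul _

theorem kv_min_cb (k : ℕ) : Sp7Cb (fun x : ℝ => (min 1 |x|) ^ k) := by
  refine ⟨by fun_prop, 1, fun x => ?_⟩
  have h0 : 0 ≤ min 1 |x| := le_min zero_le_one (abs_nonneg x)
  rw [abs_of_nonneg (pow_nonneg h0 k)]
  exact pow_le_one₀ h0 (min_le_left _ _)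

/-- `kv` from its inputs -/
theorem kv_of (b : ℝ)
    (gb_class : ∃ K : ℝ, 1 ≤ K ∧ ∀ (n : ℕ) (r : ℕ → ℝ), BPath b n r → ∀ l < n,
      ∀ t ∈ Icc 0 (r (l + 1) - r l), AK K (Gb n (gm n) r l t) ∧
        ∀ x, |iteratedDeriv 5 (Gb n (gm n) r l t) x| ≤ K)
    (tay : ∀ {K : ℝ}, 1 ≤ K → ∃ C : ℝ, 1 ≤ C ∧ ∀ G : ℝ → ℝ, AK K G →
      (∀ x, |iteratedDeriv 5 G x| ≤ K) → ∀ x,
        |iteratedDeriv 2 G x - iteratedDeriv 2 G 0| ≤ C * (min 1 |x|) ^ 2 ∧
        |iteratedDeriv 4 G x - iteratedDeriv 4 G 0| ≤ C * min 1 |x| ∧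
        |iteratedDeriv 3 G x * iteratedDeriv 2 G 0 - iteratedDeriv 4 G 0 * iteratedDeriv 1 G x| ≤
          C * (min 1 |x|) ^ 2)
    (mom : ∃ C : ℝ, 1 ≤ C ∧ ∀ (n : ℕ) (r : ℕ → ℝ), BPath b n r → ∀ l < n,
      ∀ t ∈ Icc 0 (r (l + 1) - r l),
        Bt n (gm n) r l t (fun x => min 1 |x|) ≤ C * √(r l + t) ∧
        Bt n (gm n) r l t (fun x => (min 1 |x|) ^ 2) ≤ C * (r l + t) ∧
        Bt n (gm n) r l t (fun x => (min 1 |x|) ^ 3) ≤ C * ((r l + t) * √(r l + t))) :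
    ∃ C : ℝ, 1 ≤ C ∧ ∀ (n : ℕ) (r : ℕ → ℝ), BPath b n r → ∀ l < n,
      ∀ t ∈ Icc 0 (r (l + 1) - r l),
        |iteratedDeriv 2 (Gb n (gm n) r l t) 0 - vv n r| ≤ C * (r l + t) ∧
        |iteratedDeriv 4 (Gb n (gm n) r l t) 0 + kk n r| ≤ C * √(r l + t) := by
  obtain ⟨K, hK, hcl⟩ := gb_class
  obtain ⟨C1, hC1, htay⟩ := tay hK
  obtain ⟨C2, hC2, hmom⟩ := mom
  have hK3 : 0 ≤ 3 * K ^ 2 + 4 * K := by positivity
  have hC0 : 1 ≤ C1 * C2 + (3 * K ^ 2 + 4 * K) * (1 + b ^ 2) := by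
    have h1 : 1 ≤ C1 * C2 := one_le_mul_of_one_le_of_one_le hC1 hC2
    have h2 : 0 ≤ (3 * K ^ 2 + 4 * K) * (1 + b ^ 2) := by positivity
    linarith
  refine ⟨C1 * C2 + (3 * K ^ 2 + 4 * K) * (1 + b ^ 2), hC0, fun n r hr l hl t ht => ?_⟩
  have hm := gm_exponents n
  have hp := hr.2.1
  obtain ⟨hAK, h5⟩ := hcl n r hr l hl t ht
  obtain ⟨M1, M2, -⟩ := hmom n r hr l hl t ht
  have hrl : 0 ≤ r l := len_nonneg hr hl.le
  have hs0 : 0 ≤ r l + t := add_nonneg hrl ht.1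
  have hs1 : r l + t ≤ b ^ 2 := by
    have h1 := len_mono hr (show l + 1 ≤ n from hl) le_rfl
    have h2 := hr.2.2
    have h3 := ht.2
    linarith only [h3, h2, h1]
  have hsq : r l + t ≤ (1 + b ^ 2) * √(r l + t) := by
    have h1 : √(r l + t) ≤ 1 + b ^ 2 := by
      refine Real.sqrt_le_iff.2 ⟨by positivity, ?_⟩
      linarith only [sq_nonneg (b ^ 2), sq_nonneg b, hs1]
    calc r l + t = √(r l + t) * √(r l + t) := (Real.mul_self_sqrt hs0).symm
      _ ≤ (1 + b ^ 2) * √(r l + t) := mul_le_mul_of_nonneg_right h1 (Real.sqrt_nonneg _)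
  have hg0 := Real.sqrt_nonneg (r l + t)
  constructor
  · have h1 := kv_dev hm hp hl ht (blk2_cb ⟨K, hAK.adm⟩ 1) (nest_cb_smul C1 (kv_min_cb 2))
      (c := iteratedDeriv 2 (Gb n (gm n) r l t) 0) fun x => (htay _ hAK h5 x).1
    rw [kv_smul] at h1
    have h2 := kv_two hm hp hr.1 l hl t ht
    have h3 := mul_le_mul_of_nonneg_left M2 (show 0 ≤ C1 by linarith)
    have h4 : |iteratedDeriv 2 (Gb n (gm n) r l t) 0 - vv n r| ≤
        C1 * (C2 * (r l + t)) + 1 * (r l + t) := by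
      unfold vv
      have h5 := abs_sub_comm (Bt n (gm n) r l t (iteratedDeriv (1 + 1) (Gb n (gm n) r l t)))
        (iteratedDeriv 2 (Gb n (gm n) r l t) 0)
      have h6 := abs_add_le (iteratedDeriv 2 (Gb n (gm n) r l t) 0 -
        Bt n (gm n) r l t (iteratedDeriv (1 + 1) (Gb n (gm n) r l t)))
        (Bt n (gm n) r l t (iteratedDeriv (1 + 1) (Gb n (gm n) r l t)) -
          iteratedDeriv 2 (Fl n (gm n) r 0) 0)
      rw [sub_add_sub_cancel] at h6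
      change |Bt n (gm n) r l t (iteratedDeriv (1 + 1) (Gb n (gm n) r l t)) -
          iteratedDeriv 2 (Fl n (gm n) r 0) 0| ≤ _ at h2
      linarith only [h2, h6, h5, h3, h1]
    refine h4.trans ?_
    have h5 : (1 : ℝ) ≤ (3 * K ^ 2 + 4 * K) * (1 + b ^ 2) := by
      (by_contra nlg; linarith only [nlg, mul_nonneg (sub_nonneg.2 hK3) (sub_nonneg.2 (mul_nonneg (zero_le_one.trans hK) (sq_nonneg b))), mul_nonneg (sub_nonneg.2 hK) (sub_nonneg.2 (mul_nonneg (zero_le_one.trans hK) (sq_nonneg b))), mul_nonneg (sub_nonneg.2 hK) (sub_nonneg.2 (mul_nonneg (sq_nonneg K) (sq_nonneg b))), mul_nonneg (sub_nonneg.2 hK) (sub_nonneg.2 hK3), mul_nonneg (sub_nonneg.2 hK) (sub_nonneg.2 hK), mul_nonneg (le_of_lt (sub_pos.2 (not_le.1 nlg))) (sub_nonneg.2 (mul_nonneg (zero_le_one.trans hK) (sq_nonneg b))), mul_nonneg (le_of_lt (sub_pos.2 (not_le.1 nlg))) (sub_nonneg.2 (mul_nonneg (sq_nonneg K) (sq_nonneg b))), mul_nonneg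 (le_of_lt (sub_pos.2 (not_le.1 nlg))) (sub_nonneg.2 hK3), mul_nonneg (le_of_lt (sub_pos.2 (not_le.1 nlg))) (sub_nonneg.2 hK), mul_pos (sub_pos.2 (not_le.1 nlg)) (sub_pos.2 (not_le.1 nlg))])
    have h6 := mul_le_mul_of_nonneg_right h5 hs0
    linarith only [h6]
  · have h1 := kv_dev hm hp hl ht (blk2_cb ⟨K, hAK.adm⟩ 3) (nest_cb_smul C1 (kv_min_cb 1))
      (c := iteratedDeriv 4 (Gb n (gm n) r l t) 0) fun x => by
        rw [pow_one]
        exact (htay _ hAK h5 x).2.1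
    rw [kv_smul] at h1
    simp only [pow_one] at h1
    have h2 := kv_four hm hp hr.1 hK (fun l hl t ht => (hcl n r hr l hl t ht).1) l hl t ht
    have h3 := mul_le_mul_of_nonneg_left M1 (show 0 ≤ C1 by linarith)
    have h4 : |iteratedDeriv 4 (Gb n (gm n) r l t) 0 + kk n r| ≤
        C1 * (C2 * √(r l + t)) + (3 * K ^ 2 + 4 * K) * (r l + t) := by
      unfold kk
      rw [← sub_eq_add_neg]
      have h5 := abs_sub_comm (Bt n (gm n) r l t (iteratedDeriv (3 + 1) (Gb n (gm n) r l t)))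
        (iteratedDeriv 4 (Gb n (gm n) r l t) 0)
      have h6 := abs_add_le (iteratedDeriv 4 (Gb n (gm n) r l t) 0 -
        Bt n (gm n) r l t (iteratedDeriv (3 + 1) (Gb n (gm n) r l t)))
        (Bt n (gm n) r l t (iteratedDeriv (3 + 1) (Gb n (gm n) r l t)) -
          iteratedDeriv 4 (Fl n (gm n) r 0) 0)
      rw [sub_add_sub_cancel] at h6
      change |Bt n (gm n) r l t (iteratedDeriv (3 + 1) (Gb n (gm n) r l t)) -
          iteratedDeriv 4 (Fl n (gm n) r 0) 0| ≤ _ at h2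
      linarith only [h2, h6, h5, h3, h1]
    refine h4.trans ?_
    have h6 := mul_le_mul_of_nonneg_left hsq hK3
    linarith only [h6]

end Vale.Agent.P146.Sh
end

section

/-!
# P146, Sh: the time derivative of the fifth space derivative (brick ShK5a)
-/

set_option linter.all false

open MeasureTheory ProbabilityTheory Filter Topology Set

namespace Vale.Agent.P146.Sh

open Vale.Agent.P157.Par
open Vale.Agent.P146.Gap

section Poly

variable {a1 a2 a3 a4 a5 a6 : ℝ → ℝ} {b1 b2 b3 b4 b5 b6 t : ℝ}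

theorem jets_k6 (h1 : HasDerivAt a1 b1 t) (h2 : HasDerivAt a2 b2 t) (h3 : HasDerivAt a3 b3 t)
    (h4 : HasDerivAt a4 b4 t) (h5 : HasDerivAt a5 b5 t) (h6 : HasDerivAt a6 b6 t) :
    HasDerivAt (fun t => a6 t - 6 * (a1 t * a5 t) - 15 * (a2 t * a4 t) +
      30 * (a1 t ^ 2 * a4 t) - 10 * a3 t ^ 2 + 120 * (a1 t * a2 t * a3 t) -
      120 * (a1 t ^ 3 * a3 t) + 30 * a2 t ^ 3 - 270 * (a1 t ^ 2 * a2 t ^ 2) +
      360 * (a1 t ^ 4 * a2 t) - 120 * a1 t ^ 6)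
      (b6 - 6 * (b1 * a5 t + a1 t * b5) - 15 * (b2 * a4 t + a2 t * b4) +
        30 * (2 * a1 t * b1 * a4 t + a1 t ^ 2 * b4) - 20 * a3 t * b3 +
        120 * ((b1 * a2 t + a1 t * b2) * a3 t + a1 t * a2 t * b3) -
        120 * (3 * a1 t ^ 2 * b1 * a3 t + a1 t ^ 3 * b3) + 90 * a2 t ^ 2 * b2 -
        270 * (2 * a1 t * b1 * a2 t ^ 2 + a1 t ^ 2 * (2 * a2 t * b2)) +
        360 * (4 * a1 t ^ 3 * b1 * a2 t + a1 t ^ 4 * b2) - 720 * a1 t ^ 5 * b1) t := by
  refine ((((((((((h6.sub ((h1.mul h5).const_mul 6)).sub ((h2.mul h4).const_mul 15)).add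
    (((h1.pow 2).mul h4).const_mul 30)).sub ((h3.pow 2).const_mul 10)).add
    (((h1.mul h2).mul h3).const_mul 120)).sub (((h1.pow 3).mul h3).const_mul 120)).add
    ((h2.pow 3).const_mul 30)).sub (((h1.pow 2).mul (h2.pow 2)).const_mul 270)).add
    (((h1.pow 4).mul h2).const_mul 360)).sub ((h1.pow 6).const_mul 120)).congr_deriv ?_
  norm_num
  ring

end Poly

variable {g : ℝ} {F : ℝ → ℝ}

theorem jets_f7 (h : SmB F) (hg : 0 < g) (s x : ℝ) :
    fj g F 7 s x = 1 / g * (jetsR (jetsPsi g F) 7 s x -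
      7 * (jetsR (jetsPsi g F) 1 s x * jetsR (jetsPsi g F) 6 s x) -
      21 * (jetsR (jetsPsi g F) 2 s x * jetsR (jetsPsi g F) 5 s x) +
      42 * (jetsR (jetsPsi g F) 1 s x ^ 2 * jetsR (jetsPsi g F) 5 s x) -
      35 * (jetsR (jetsPsi g F) 3 s x * jetsR (jetsPsi g F) 4 s x) +
      210 * (jetsR (jetsPsi g F) 1 s x * jetsR (jetsPsi g F) 2 s x * jetsR (jetsPsi g F) 4 s x) -
      210 * (jetsR (jetsPsi g F) 1 s x ^ 3 * jetsR (jetsPsi g F) 4 s x) +
      140 * (jetsR (jetsPsi g F) 1 s x * jetsR (jetsPsi g F) 3 s x ^ 2) +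
      210 * (jetsR (jetsPsi g F) 2 s x ^ 2 * jetsR (jetsPsi g F) 3 s x) -
      1260 * (jetsR (jetsPsi g F) 1 s x ^ 2 * jetsR (jetsPsi g F) 2 s x *
        jetsR (jetsPsi g F) 3 s x) +
      840 * (jetsR (jetsPsi g F) 1 s x ^ 4 * jetsR (jetsPsi g F) 3 s x) -
      630 * (jetsR (jetsPsi g F) 1 s x * jetsR (jetsPsi g F) 2 s x ^ 3) +
      2520 * (jetsR (jetsPsi g F) 1 s x ^ 3 * jetsR (jetsPsi g F) 2 s x ^ 2) -
      2520 * (jetsR (jetsPsi g F) 1 s x ^ 5 * jetsR (jetsPsi g F) 2 s x) +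
      720 * jetsR (jetsPsi g F) 1 s x ^ 7) := by
  have hp : PosF (jetsPsi g F) := posF_exp h g
  rw [jets_next h hg 6 s (jets_f6 h hg s)
    (fun x => jets_k6 (jetsR_x hp 1 s x) (jetsR_x hp 2 s x) (jetsR_x hp 3 s x)
      (jetsR_x hp 4 s x) (jetsR_x hp 5 s x) (jetsR_x hp 6 s x)) x]
  simp only [Nat.reduceAdd]
  ring

theorem fj_s5 (h : SmB F) (hg : 0 < g) {s : ℝ} (hs : 0 < s) (x : ℝ) :
    HasDerivAt (fun s => fj g F 5 s x)
      (1 / 2 * fj g F 7 s x + g * (10 * fj g F 3 s x * fj g F 4 s x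
        + 5 * fj g F 2 s x * fj g F 5 s x + fj g F 1 s x * fj g F 6 s x)) s := by
  have hp : PosF (jetsPsi g F) := posF_exp h g
  refine jets_time 5 (fun s => jets_f5 h hg s x)
    (jets_k5 (jetsR_s hp 1 hs x) (jetsR_s hp 2 hs x) (jetsR_s hp 3 hs x) (jetsR_s hp 4 hs x)
      (jetsR_s hp 5 hs x)) ?_
  rw [jets_f1 h hg, jets_f2 h hg, jets_f3 h hg, jets_f4 h hg, jets_f5 h hg, jets_f6 h hg,
    jets_f7 h hg]
  simp only [Nat.reduceAdd]
  generalize jetsR (jetsPsi g F) 1 s x = c1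
  generalize jetsR (jetsPsi g F) 2 s x = c2
  generalize jetsR (jetsPsi g F) 3 s x = c3
  generalize jetsR (jetsPsi g F) 4 s x = c4
  generalize jetsR (jetsPsi g F) 5 s x = c5
  generalize jetsR (jetsPsi g F) 6 s x = c6
  generalize jetsR (jetsPsi g F) 7 s x = c7
  field_simp
  ring

end Vale.Agent.P146.Sh
end

section

/-!
# P146, Sh: the fifth derivative of the functions of the recursion
-/

open MeasureTheory ProbabilityTheory Filter Topology Set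

namespace Vale.Agent.P146.Sh

open Vale.Agent.P157.Par
open Vale.Agent.P146.Gap
open Vale.Agent.P146.Pw2
open Vale.Agent.P146.Lb
open Vale.Agent.P367.Cl

/-- fifth derivative of `log cosh` -/
theorem shk5_lc : iteratedDeriv 5 lc =
    fun x => Real.tanh x * (1 - Real.tanh x ^ 2) * (16 - 24 * Real.tanh x ^ 2) := by
  refine adm_its adm_lc_it4 fun x => ?_
  have h1 := ec_logcosh.d2 x
  refine (((h1.pow 2).const_sub 1).mul (((h1.pow 2).const_mul 6).sub_const 2)).congr_deriv ?_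
  simp only [Nat.cast_ofNat, Nat.add_one_sub_one, pow_one, Pi.pow_apply]
  ring

theorem shk5_lc_le (x : ℝ) : |iteratedDeriv 5 lc x| ≤ 120 * iteratedDeriv 2 lc x := by
  rw [shk5_lc, adm_lc_it2]
  have h1 := adm_tanh_sq x
  have h2 : |Real.tanh x| ≤ 1 := ec_logcosh.abs_M x
  have h3 : |16 - 24 * Real.tanh x ^ 2| ≤ 120 := by
    rw [abs_le]
    constructor <;> nlinarith [sq_nonneg (Real.tanh x)]
  simp only [abs_mul, abs_of_pos h1]
  calc |Real.tanh x| * (1 - Real.tanh x ^ 2) * |16 - 24 * Real.tanh x ^ 2|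
      ≤ 1 * (1 - Real.tanh x ^ 2) * 120 := by
        refine mul_le_mul (mul_le_mul_of_nonneg_right h2 h1.le) h3 (abs_nonneg _) ?_
        positivity
    _ = 120 * (1 - Real.tanh x ^ 2) := by ring

/-- The fifth derivative along one step. -/
theorem shk5_unif {s v g : ℝ} {F : ℝ → ℝ} (h : AKs s F)
    (h5 : ∀ x, |iteratedDeriv 5 F x| ≤ 120 * Real.exp (6 * s) * iteratedDeriv 2 F x)
    (hg : 0 < g) (hg1 : g ≤ 1) (hv : 0 < v) :
    ∀ τ ∈ Icc 0 v, ∀ x, |fj g F 5 τ x| ≤ 120 * Real.exp (6 * (s + τ)) * fj g F 2 τ x := by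
  have key : ∀ σ : ℝ, σ = 1 ∨ σ = -1 → ∀ τ ∈ Icc 0 v, ∀ x,
      σ * fj g F 5 τ x ≤ 120 * Real.exp (6 * (s + τ)) * fj g F 2 τ x := by
    intro σ hσ
    refine adm_flow (j := 4) (κ := 5) (σ := σ) (Λ := 120 * Real.exp (6 * (s + v)))
      (E := fun τ x => 10 * fj g F 3 τ x * fj g F 4 τ x)
      (lam := fun τ => 120 * Real.exp (6 * (s + τ)))
      (lam' := fun τ => 720 * Real.exp (6 * (s + τ))) h.adm.smb hg hv (by norm_num)
      ?_ ?_ ?_ ?_ ?_
    · intro τ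
      have h1 : HasDerivAt (fun τ : ℝ => 6 * (s + τ)) 6 τ := by
        simpa using ((hasDerivAt_id τ).const_add s).const_mul 6
      refine (h1.exp.const_mul 120).congr_deriv ?_
      ring
    · intro τ hτ
      rw [abs_of_nonneg (by positivity)]
      refine mul_le_mul_of_nonneg_left (Real.exp_le_exp.2 ?_) (by norm_num)
      linarith [hτ.2]
    · intro τ hτ x
      refine (fj_s5 h.adm.smb hg hτ.1 x).congr_deriv ?_
      ring
    · intro τ hτ x
      have hx3 := adm_r3_unif h.adm hg hg1 hv τ ⟨hτ.1.le, hτ.2.le⟩ x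
      have hx4 := aks_unif h hg hg1 hv τ ⟨hτ.1.le, hτ.2.le⟩ x
      have h1 : 0 < fj g F 2 τ x := adm_fj2_pos h.adm hg hg1 τ x
      have h2 := adm_fj2_le h.adm hg hg1 τ x
      have h4 : fj g F 2 τ x ≤ 1 := by linarith [sq_nonneg (fj g F 1 τ x)]
      have hx3' : |fj g F 3 τ x| ≤ 2 * Real.exp (2 * (s + τ)) * 1 := by
        refine hx3.trans ?_
        refine mul_le_mul ?_ h4 h1.le (by positivity)
        rw [mul_assoc, ← Real.exp_add]
        refine mul_le_mul_of_nonneg_left (Real.exp_le_exp.2 ?_) (by norm_num)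
        have := mul_le_of_le_one_left hτ.1.le hg1
        linarith
      have hE : |10 * fj g F 3 τ x * fj g F 4 τ x| ≤
          240 * Real.exp (6 * (s + τ)) * fj g F 2 τ x := by
        rw [abs_mul, abs_mul]
        have e1 : |(10 : ℝ)| = 10 := by norm_num
        rw [e1]
        calc 10 * |fj g F 3 τ x| * |fj g F 4 τ x|
            ≤ 10 * (2 * Real.exp (2 * (s + τ)) * 1) *
              (12 * Real.exp (4 * (s + τ)) * fj g F 2 τ x) :=
              mul_le_mul (mul_le_mul_of_nonneg_left hx3' (by norm_num)) hx4 (abs_nonneg _)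
                (by positivity)
          _ = 240 * (Real.exp (2 * (s + τ)) * Real.exp (4 * (s + τ))) * fj g F 2 τ x := by ring
          _ = 240 * Real.exp (6 * (s + τ)) * fj g F 2 τ x := by
              rw [← Real.exp_add]
              congr 3
              ring
      obtain ⟨a, ha⟩ : ∃ a : ℝ, a = fj g F 2 τ x := ⟨_, rfl⟩
      obtain ⟨c, hc⟩ : ∃ c : ℝ, c = 10 * fj g F 3 τ x * fj g F 4 τ x := ⟨_, rfl⟩
      obtain ⟨e, he⟩ : ∃ e : ℝ, e = Real.exp (6 * (s + τ)) := ⟨_, rfl⟩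
      have he0 : 0 < e := he ▸ Real.exp_pos _
      rw [← ha, ← he, ← hc] at hE
      rw [← ha] at h1 h4
      rw [← ha, ← he, ← hc]
      have h8 : σ * (g * c) ≤ 240 * e * a := by
        have h9 : |g * c| ≤ 240 * e * a := by
          rw [abs_mul, abs_of_pos hg]
          calc g * |c| ≤ 1 * |c| := mul_le_mul_of_nonneg_right hg1 (abs_nonneg _)
            _ ≤ 240 * e * a := by rw [one_mul]; exact hE
        rcases hσ with rfl | rfl
        · linarith [le_abs_self (g * c)]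
        · linarith [neg_abs_le (g * c)]
      have h9 : 0 ≤ 480 * e * a * (1 - g * a) := by
        have : g * a ≤ 1 := mul_le_one₀ hg1 h1.le h4
        exact mul_nonneg (by positivity) (by linarith)
      have h10 : a * (720 * e - (5 - 1) * g * a * (120 * e)) =
          240 * e * a + 480 * e * a * (1 - g * a) := by ring
      rw [h10]
      linarith
    · intro x
      rw [fj_zero hg.ne', fj_zero hg.ne']
      have h1 := abs_le.1 (h5 x)
      simp only [add_zero]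
      rcases hσ with rfl | rfl
      · linarith [h1.2]
      · linarith [h1.1]
  intro τ hτ x
  have h1 := key 1 (Or.inl rfl) τ hτ x
  have h2 := key (-1) (Or.inr rfl) τ hτ x
  rw [abs_le]
  constructor <;> linarith

theorem shk5_step {s v g : ℝ} {F : ℝ → ℝ} (h : AKs s F)
    (h5 : ∀ x, |iteratedDeriv 5 F x| ≤ 120 * Real.exp (6 * s) * iteratedDeriv 2 F x)
    (hg : 0 < g) (hg1 : g ≤ 1) (hv : 0 ≤ v) :
    ∀ x, |iteratedDeriv 5 (gstep g v F) x| ≤
      120 * Real.exp (6 * (s + v)) * iteratedDeriv 2 (gstep g v F) x := by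
  rcases hv.eq_or_lt with rfl | hv'
  · rw [gstep_zero hg.ne', add_zero]
    exact h5
  · exact fun x => shk5_unif h h5 hg hg1 hv' v ⟨hv, le_rfl⟩ x

theorem shk5_fl {n : ℕ} {m r : ℕ → ℝ} (hm : Exponents n m) (hr : Path n r) {l : ℕ} (hl : l ≤ n) :
    ∀ x, |iteratedDeriv 5 (Fl n m r l) x| ≤
      120 * Real.exp (6 * (r n - r l)) * iteratedDeriv 2 (Fl n m r l) x := by
  induction hl using Nat.decreasingInduction with
  | self =>
    rw [sub_self, fl_last, mul_zero, Real.exp_zero, mul_one]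
    exact shk5_lc_le
  | of_succ l hl ih =>
    obtain ⟨g0, g1⟩ := sp7_exp_of hm l hl
    have h1 : 0 ≤ r n - r (l + 1) := sub_nonneg.2 (minb_mono hr.2 hl le_rfl)
    have h2 := shk5_step (fl_aks hm hr hl) ih g0 g1 (sub_nonneg.2 (hr.2 l hl))
    rw [fl_succ hl]
    have e : r n - r (l + 1) + (r (l + 1) - r l) = r n - r l := by ring
    rwa [e] at h2

theorem shk5_mono {K K' : ℝ} (hKK : K ≤ K') {F : ℝ → ℝ} (h : AK K F) : AK K' F where
  adm := h.adm.mono_C hKK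
  k3 := fun x => (h.k3 x).trans (mul_le_mul_of_nonneg_right hKK (abs_nonneg _))
  k4 := fun x => (h.k4 x).trans (mul_le_mul_of_nonneg_right hKK (h.adm.pos x).le)
  low := fun x => (h.low x).trans (mul_le_mul_of_nonneg_right hKK (abs_nonneg _))
  low0 := h.low0.trans (mul_le_mul_of_nonneg_right hKK (h.adm.pos 0).le)

theorem gb_class (b : ℝ) : ∃ K : ℝ, 1 ≤ K ∧ ∀ (n : ℕ) (r : ℕ → ℝ), BPath b n r → ∀ l < n,
    ∀ t ∈ Icc 0 (r (l + 1) - r l), AK K (Gb n (gm n) r l t) ∧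
      ∀ x, |iteratedDeriv 5 (Gb n (gm n) r l t) x| ≤ K := by
  obtain ⟨K, hK1, hK⟩ := AKs.ak (b ^ 2)
  refine ⟨max K (120 * Real.exp (6 * b ^ 2)), le_max_of_le_left hK1, fun n r hr l hl t ht => ?_⟩
  obtain ⟨h0, hp, hb⟩ := hr
  have hm := gm_exponents n
  have hpos : ∀ l ≤ n, 0 ≤ r l := fun l hl => by
    have := minb_mono hp.2 (Nat.zero_le l) hl
    rwa [h0] at this
  obtain ⟨g0, g1⟩ := sp7_exp_of hm l hl
  have h1 : 0 ≤ r n - r (l + 1) := sub_nonneg.2 (minb_mono hp.2 hl le_rfl)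
  have hv : 0 ≤ r (l + 1) - r l - t := by linarith only [ht.2]
  have ha := (fl_aks hm hp (show l + 1 ≤ n from hl)).step h1 g0 g1 hv
  have h5 := shk5_step (fl_aks hm hp (show l + 1 ≤ n from hl)) (shk5_fl hm hp hl) g0 g1 hv
  have hs : r n - r (l + 1) + (r (l + 1) - r l - t) ≤ b ^ 2 := by
    linarith [hpos l hl.le, ht.1]
  have hak : AK K (Gb n (gm n) r l t) := hK _ _ (add_nonneg h1 hv) hs ha
  refine ⟨shk5_mono (le_max_left _ _) hak, fun x => ?_⟩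
  refine le_trans (h5 x) ?_
  refine le_trans ?_ (le_max_right _ _)
  have h2 := ha.adm.le1 x
  have h3 : iteratedDeriv 2 (gstep (gm n (l + 1)) (r (l + 1) - r l - t)
      (Fl n (gm n) r (l + 1))) x ≤ 1 := by
    linarith only [sq_nonneg (iteratedDeriv 1 (gstep (gm n (l + 1)) (r (l + 1) - r l - t) (Fl n (gm n) r (l + 1))) x), h2]
  have h4 : Real.exp (6 * (r n - r (l + 1) + (r (l + 1) - r l - t))) ≤
      Real.exp (6 * b ^ 2) := Real.exp_le_exp.2 (by linarith)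
  calc 120 * Real.exp (6 * (r n - r (l + 1) + (r (l + 1) - r l - t))) *
        iteratedDeriv 2 (gstep (gm n (l + 1)) (r (l + 1) - r l - t)
          (Fl n (gm n) r (l + 1))) x
      ≤ 120 * Real.exp (6 * b ^ 2) * 1 :=
        mul_le_mul (mul_le_mul_of_nonneg_left h4 (by norm_num)) h3 (ha.adm.pos x).le
          (by positivity)
    _ = 120 * Real.exp (6 * b ^ 2) := mul_one _

end Vale.Agent.P146.Sh
end

section

/-!
# P146, Sh: Taylor expansions at the origin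
-/

open MeasureTheory ProbabilityTheory Filter Topology Set

namespace Vale.Agent.P146.Sh

open Vale.Agent.P157.Par
open Vale.Agent.P146.Gap
open Vale.Agent.P146.Pw2
open Vale.Agent.P146.Lb
open Vale.Agent.P367.Cl

theorem tay_lip {f f' : ℝ → ℝ} (hf : ∀ y, HasDerivAt f (f' y) y) {B x : ℝ}
    (hB : ∀ y, |y| ≤ |x| → |f' y| ≤ B) : |f x - f 0| ≤ B * |x| := by
  have h := Convex.norm_image_sub_le_of_norm_hasDerivWithin_le (s := Icc (-|x|) |x|)
    (f := f) (f' := f') (C := B) (x := 0) (y := x) (fun y _ => (hf y).hasDerivWithinAt)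
    (fun y hy => by
      rw [Real.norm_eq_abs]
      exact hB y (abs_le.2 hy)) (convex_Icc _ _)
    ⟨neg_nonpos.2 (abs_nonneg x), abs_nonneg x⟩ ⟨neg_abs_le x, le_abs_self x⟩
  rwa [Real.norm_eq_abs, Real.norm_eq_abs, sub_zero] at h

theorem tay_min {A B C y x : ℝ} (h1 : A ≤ B * y ^ 2) (h2 : A ≤ C) (hy : y = |x|) (hB : 0 ≤ B)
    (hC : 0 ≤ C) : A ≤ (B + C) * (min 1 |x|) ^ 2 := by
  subst hy
  rcases le_total 1 |x| with h | h
  · rw [min_eq_left h]
    linarith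
  · rw [min_eq_right h]
    have h3 := mul_nonneg hC (sq_nonneg |x|)
    linarith

theorem tay {K : ℝ} (hK : 1 ≤ K) : ∃ C : ℝ, 1 ≤ C ∧ ∀ G : ℝ → ℝ, AK K G →
    (∀ x, |iteratedDeriv 5 G x| ≤ K) → ∀ x,
      |iteratedDeriv 2 G x - iteratedDeriv 2 G 0| ≤ C * (min 1 |x|) ^ 2 ∧
      |iteratedDeriv 4 G x - iteratedDeriv 4 G 0| ≤ C * min 1 |x| ∧
      |iteratedDeriv 3 G x * iteratedDeriv 2 G 0 - iteratedDeriv 4 G 0 * iteratedDeriv 1 G x| ≤
        C * (min 1 |x|) ^ 2 := by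
  refine ⟨K + K ^ 2 + 2 * K, by nlinarith, fun G hG h5 x => ?_⟩
  have hK0 : 0 ≤ K := by linarith
  have hsm := hG.adm.smb.smooth
  have hd : ∀ j y, HasDerivAt (iteratedDeriv j G) (iteratedDeriv (j + 1) G y) y :=
    fun j y => GoodX.good_hd hsm j y
  have h30 : iteratedDeriv 3 G 0 = 0 := GoodX.good_odd hG.adm.even (by decide)
  have h10 : iteratedDeriv 1 G 0 = 0 := GoodX.good_odd hG.adm.even (by decide)
  have b2 : ∀ y, |iteratedDeriv 2 G y| ≤ 1 := fun y => by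
    rw [abs_of_pos (vari_d2_01 hG.adm y).1]
    exact (vari_d2_01 hG.adm y).2
  have b1 : ∀ y, |iteratedDeriv 1 G y| ≤ 1 := vari_abs1 hG.adm
  have b4 : ∀ y, |iteratedDeriv 4 G y| ≤ K := fun y =>
    (hG.k4 y).trans (mul_le_of_le_one_right hK0 (vari_d2_01 hG.adm y).2)
  have b3 : ∀ y, |iteratedDeriv 3 G y| ≤ K := fun y =>
    (hG.k3 y).trans (mul_le_of_le_one_right hK0 (b1 y))
  have b3' : ∀ y, |iteratedDeriv 3 G y| ≤ K * |y| := fun y => by
    have h := tay_lip (hd 3) (B := K) (x := y) fun z _ => b4 z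
    rwa [h30, sub_zero] at h
  have hm0 : 0 ≤ min 1 |x| := le_min zero_le_one (abs_nonneg x)
  refine ⟨?_, ?_, ?_⟩
  · have h1 := tay_lip (hd 2) (B := K * |x|) (x := x) fun z hz =>
      (b3' z).trans (mul_le_mul_of_nonneg_left hz hK0)
    have h2 : |iteratedDeriv 2 G x - iteratedDeriv 2 G 0| ≤ 1 := by
      have h3 := vari_d2_01 hG.adm x
      have h4 := vari_d2_01 hG.adm 0
      rw [abs_le]
      constructor <;> linarith [h3.1, h3.2, h4.1, h4.2]
    have h3 := tay_min (B := K) (C := 1) (y := |x|) (x := x) (by linarith only [h1]) h2 rfl hK0 zero_le_one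
    refine h3.trans (mul_le_mul_of_nonneg_right (by nlinarith) (sq_nonneg _))
  · have h1 := tay_lip (hd 4) (B := K) (x := x) fun z _ => h5 z
    have h2 : |iteratedDeriv 4 G x - iteratedDeriv 4 G 0| ≤ 2 * K := by
      have h3 := abs_le.1 (b4 x)
      have h4 := abs_le.1 (b4 0)
      rw [abs_le]
      constructor <;> linarith [h3.1, h3.2, h4.1, h4.2]
    rcases le_total 1 |x| with h | h
    · rw [min_eq_left h]
      nlinarith
    · rw [min_eq_right h]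
      refine h1.trans (mul_le_mul_of_nonneg_right (by (by_contra nlg; linarith only [nlg, mul_nonneg (le_of_lt (sub_pos.2 (not_le.1 nlg))) (sub_nonneg.2 hK0), mul_pos (sub_pos.2 (not_le.1 nlg)) (sub_pos.2 (not_le.1 nlg)), mul_nonneg (sq_nonneg (K : ℝ)) (le_of_lt (sub_pos.2 (not_le.1 nlg)))])) (abs_nonneg x))
  · set a2 := iteratedDeriv 2 G 0 with ha2
    set a4 := iteratedDeriv 4 G 0 with ha4
    have hq1 : ∀ y, HasDerivAt (fun y => iteratedDeriv 3 G y * a2 - a4 * iteratedDeriv 1 G y)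
        (iteratedDeriv 4 G y * a2 - a4 * iteratedDeriv 2 G y) y := fun y =>
      ((hd 3 y).mul_const a2).sub ((hd 1 y).const_mul a4)
    have hq2 : ∀ y, HasDerivAt (fun y => iteratedDeriv 4 G y * a2 - a4 * iteratedDeriv 2 G y)
        (iteratedDeriv 5 G y * a2 - a4 * iteratedDeriv 3 G y) y := fun y =>
      ((hd 4 y).mul_const a2).sub ((hd 2 y).const_mul a4)
    have ba2 : |a2| ≤ 1 := b2 0
    have ba4 : |a4| ≤ K := b4 0
    have c2 : ∀ y, |iteratedDeriv 5 G y * a2 - a4 * iteratedDeriv 3 G y| ≤ K + K ^ 2 := fun y => by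
      refine (abs_sub _ _).trans ?_
      rw [abs_mul, abs_mul]
      have h1 := mul_le_mul (h5 y) ba2 (abs_nonneg _) hK0
      have h2 := mul_le_mul ba4 (b3 y) (abs_nonneg _) hK0
      linarith only [h2, h1]
    have c1 : ∀ y, |iteratedDeriv 4 G y * a2 - a4 * iteratedDeriv 2 G y| ≤ (K + K ^ 2) * |y| :=
      fun y => by
        have h := tay_lip hq2 (x := y) fun z _ => c2 z
        simp only [← ha2, ← ha4, sub_self, mul_comm a4 a2, sub_zero] at h
        convert h using 3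
    have c0 := tay_lip hq1 (B := (K + K ^ 2) * |x|) (x := x) fun z hz =>
      (c1 z).trans (mul_le_mul_of_nonneg_left hz (by positivity))
    simp only [h30, h10, zero_mul, mul_zero, sub_zero] at c0
    have c0' : |iteratedDeriv 3 G x * a2 - a4 * iteratedDeriv 1 G x| ≤ 2 * K := by
      refine (abs_sub _ _).trans ?_
      rw [abs_mul, abs_mul]
      have h1 := mul_le_mul (b3 x) ba2 (abs_nonneg _) hK0
      have h2 := mul_le_mul ba4 (b1 x) (abs_nonneg _) hK0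
      linarith only [h2, h1]
    exact tay_min (B := K + K ^ 2) (C := 2 * K) (y := |x|) (x := x) (by linarith only [c0]) c0' rfl
      (by positivity) (by positivity)

end Vale.Agent.P146.Sh
end

section

/-!
# P146, Sh: moments of `min 1 |x|` under the block averages

`d/dt Bt (G'⁴) = 6 Bt (G'² G''²) ≤ 6 Rb ≤ 6 (r l + t)`, hence `Bt (G'⁴) ≤ 3 (r l + t)²`; then
`min 1 |x| ≤ K |G'|`.
-/

open MeasureTheory ProbabilityTheory Filter Topology Set

namespace Vale.Agent.P146.Sh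

open Vale.Agent.P157.Par
open Vale.Agent.P146.Gap
open Vale.Agent.P146.Pw2
open Vale.Agent.P146.Lb
open Vale.Agent.P367.Cl

variable {n l : ℕ} {m r : ℕ → ℝ} {t : ℝ}

/-- `E G'⁴`. -/
noncomputable def mom_Q (n : ℕ) (m r : ℕ → ℝ) (l : ℕ) (t : ℝ) : ℝ :=
  Bt n m r l t (fun x => iteratedDeriv 1 (Gb n m r l t) x ^ 4)

lemma mom_Q_eq (n : ℕ) (m r : ℕ → ℝ) (l : ℕ) : mom_Q n m r l = fun t => Bt n m r l t (fun x =>
    (first_f (m (l + 1)) (r (l + 1) - r l) (Fl n m r (l + 1)) 1 t x *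
      first_f (m (l + 1)) (r (l + 1) - r l) (Fl n m r (l + 1)) 1 t x) *
    (first_f (m (l + 1)) (r (l + 1) - r l) (Fl n m r (l + 1)) 1 t x *
      first_f (m (l + 1)) (r (l + 1) - r l) (Fl n m r (l + 1)) 1 t x)) := by
  funext t
  unfold mom_Q
  congr 1
  funext x
  change first_f (m (l + 1)) (r (l + 1) - r l) (Fl n m r (l + 1)) 1 t x ^ 4 = _
  ring

theorem mom_Q_deriv (hm : Exponents n m) (hr : Path n r) (hl : l < n)
    (ht : t ∈ Ioo 0 (r (l + 1) - r l)) : HasDerivAt (mom_Q n m r l)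
      (Bt n m r l t (fun x => 6 * (iteratedDeriv 1 (Gb n m r l t) x ^ 2 *
        iteratedDeriv 2 (Gb n m r l t) x ^ 2))) t := by
  obtain ⟨C, hC⟩ := fblk_adm hm hr hl
  obtain ⟨g0, g1⟩ := sp7_exp_of hm l hl
  have h1 := first_P1 hC g0 (r (l + 1) - r l)
  rw [mom_Q_eq]
  refine (bt_deriv hm hr hl ((h1.mul h1).mul (h1.mul h1)) ht).congr_deriv ?_
  congr 1
  funext x
  change _ + _ + m (l + 1) * first_f (m (l + 1)) (r (l + 1) - r l) (Fl n m r (l + 1)) 1 t x * _ =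
    6 * (first_f (m (l + 1)) (r (l + 1) - r l) (Fl n m r (l + 1)) 1 t x ^ 2 *
      first_f (m (l + 1)) (r (l + 1) - r l) (Fl n m r (l + 1)) 2 t x ^ 2)
  ring

theorem mom_Q_cont (hm : Exponents n m) (hr : Path n r) (hl : l < n) :
    ContinuousOn (mom_Q n m r l) (Icc 0 (r (l + 1) - r l)) := by
  obtain ⟨C, hC⟩ := fblk_adm hm hr hl
  obtain ⟨g0, g1⟩ := sp7_exp_of hm l hl
  have b1 := first_f_bc hC g0 (r (l + 1) - r l) 0
  rw [mom_Q_eq]
  exact bt_contOn hm hr hl ((b1.mul b1).mul (b1.mul b1))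

theorem mom_mul_cb {ψ φ : ℝ → ℝ} (h : Sp7Cb ψ) (h' : Sp7Cb φ) : Sp7Cb (fun x => ψ x * φ x) := by
  obtain ⟨hc, K, hK⟩ := h
  obtain ⟨hc', K', hK'⟩ := h'
  refine ⟨hc.mul hc', K * K', fun x => ?_⟩
  rw [abs_mul]
  exact mul_le_mul (hK x) (hK' x) (abs_nonneg _) ((abs_nonneg _).trans (hK x))

/-- the derivative of `E G'⁴` is at most `6 (r l + t)` -/
theorem mom_der_le (hm : Exponents n m) (hr : Path n r) (h0 : r 0 = 0) (hl : l < n)
    (ht : t ∈ Icc 0 (r (l + 1) - r l)) :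
    Bt n m r l t (fun x => 6 * (iteratedDeriv 1 (Gb n m r l t) x ^ 2 *
      iteratedDeriv 2 (Gb n m r l t) x ^ 2)) ≤ 6 * (r l + t) := by
  have hG := blk2_adm hm hr hl ht
  have c1 : Sp7Cb (fun x => iteratedDeriv 1 (Gb n m r l t) x ^ 2) := sp7_cb_sq (blk2_cb hG 0)
  have c2 : Sp7Cb (fun x => iteratedDeriv 2 (Gb n m r l t) x ^ 2) := sp7_cb_sq (blk2_cb hG 1)
  have h1 : Bt n m r l t (fun x => iteratedDeriv 1 (Gb n m r l t) x ^ 2 *
      iteratedDeriv 2 (Gb n m r l t) x ^ 2) ≤ Rb n m r l t := by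
    obtain ⟨C, hC⟩ := hG
    refine blk2_mono hm hr hl ht (mom_mul_cb c1 c2) c1 fun x => ?_
    have h2 := vari_d2_01 hC x
    have h3 := pow_le_one₀ (n := 2) h2.1.le h2.2
    exact mul_le_of_le_one_right (sq_nonneg _) h3
  rw [dec_Bt_smul]
  have h2 := dec_Rb_le hm hr h0 hl ht
  linarith only [h2, h1]

/-- `E G'⁴ ≤ 3 (r l + t)²` inside of a block, from the level `l` -/
theorem mom_Q_blk (hm : Exponents n m) (hr : Path n r) (h0 : r 0 = 0) (hl : l < n)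
    (h : mom_Q n m r l 0 ≤ 3 * r l ^ 2) (ht : t ∈ Icc 0 (r (l + 1) - r l)) :
    mom_Q n m r l t ≤ 3 * (r l + t) ^ 2 := by
  have hanti : AntitoneOn (fun t => mom_Q n m r l t - 3 * (r l + t) ^ 2)
      (Icc 0 (r (l + 1) - r l)) := by
    refine antitoneOn_of_deriv_nonpos (convex_Icc _ _)
      ((mom_Q_cont hm hr hl).sub (by fun_prop)) ?_ ?_
    · intro s hs
      rw [interior_Icc] at hs
      have h1 := mom_Q_deriv hm hr hl hs
      exact (h1.differentiableAt.sub (by fun_prop)).differentiableWithinAt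
    · intro s hs
      rw [interior_Icc] at hs
      have h1 := mom_Q_deriv hm hr hl hs
      have h2 : HasDerivAt (fun t : ℝ => 3 * (r l + t) ^ 2) (6 * (r l + s)) s := by
        have h3 := (((hasDerivAt_id s).const_add (r l)).pow 2).const_mul 3
        refine h3.congr_deriv ?_
        simp
        ring
      have h4 : deriv (fun t => mom_Q n m r l t - 3 * (r l + t) ^ 2) s = _ := (h1.sub h2).deriv
      rw [h4]
      have h3 := mom_der_le hm hr h0 hl (Ioo_subset_Icc_self hs)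
      linarith
  have h1 := hanti (left_mem_Icc.2 (ht.1.trans ht.2)) ht ht.1
  simp only [add_zero] at h1
  linarith

/-- `E G'⁴` at the levels -/
theorem mom_Q_lev (hm : Exponents n m) (hr : Path n r) (h0 : r 0 = 0) (hl : l ≤ n) :
    Ee n m r l (fun x => iteratedDeriv 1 (Fl n m r l) x ^ 4) ≤ 3 * r l ^ 2 := by
  induction l with
  | zero =>
    obtain ⟨C, hC⟩ := fl_good hm hr hl
    rw [Ee, chn_zero_def, h0, Real.sqrt_zero]
    have h1 : iteratedDeriv 1 (Fl n m r 0) 0 = 0 := (cint_odd_zero hC.adm).1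
    simp [h1]
  | succ l ih =>
    have h1 := ih (by omega)
    have hl' : l < n := hl
    have hle : r l ≤ r (l + 1) := hr.2 l hl'
    have h2 := mom_Q_blk (t := r (l + 1) - r l) hm hr h0 hl' (by
      rw [mom_Q, Bt_zero, Gb_zero hl']
      exact h1) ⟨by linarith only [hle], le_rfl⟩
    rw [mom_Q, Bt_last hm hl', Gb_last hm hl'] at h2
    have e : r l + (r (l + 1) - r l) = r (l + 1) := by ring
    rwa [e] at h2

theorem mom_Q_le (hm : Exponents n m) (hr : Path n r) (h0 : r 0 = 0) (hl : l < n)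
    (ht : t ∈ Icc 0 (r (l + 1) - r l)) : mom_Q n m r l t ≤ 3 * (r l + t) ^ 2 :=
  mom_Q_blk hm hr h0 hl (by
    rw [mom_Q, Bt_zero, Gb_zero hl]
    exact mom_Q_lev hm hr h0 hl.le) ht

/-- interpolation: `2 Bt (ψ) ≤ ε a + b / ε` for all `ε > 0` gives `Bt ψ ≤ √(a b)`, in the form
needed. -/
theorem mom_opt {y σ D : ℝ} (hσ : 0 ≤ σ) (hD : 0 ≤ D) (k : ℕ)
    (h : ∀ ε : ℝ, 0 < ε → 2 * y ≤ ε * σ ^ k + D * σ ^ (k + 1) / ε) :
    y ≤ (1 + D) * (σ ^ k * √σ) := by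
  rcases hσ.eq_or_lt with h0 | h0
  · rw [← h0, Real.sqrt_zero, mul_zero, mul_zero]
    refine le_of_forall_pos_le_add fun ε hε => ?_
    have h1 := h ε hε
    rw [← h0, zero_pow (Nat.succ_ne_zero k), mul_zero, zero_div, add_zero] at h1
    have h2 : (0 : ℝ) ^ k ≤ 1 := by
      rcases k with _ | k
      · simp
      · simp
    linarith only [mul_nonneg (le_of_lt (sub_pos.2 hε)) (sub_nonneg.2 h2), h1, hε]
  · have hs : 0 < √σ := Real.sqrt_pos.2 h0
    have h1 := h _ hs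
    have h2 : D * σ ^ (k + 1) / √σ = D * (σ ^ k * √σ) := by
      rw [div_eq_iff hs.ne', pow_succ]
      have : √σ * √σ = σ := Real.mul_self_sqrt hσ
      calc D * (σ ^ k * σ) = D * (σ ^ k * (√σ * √σ)) := by rw [this]
        _ = _ := by ring
    rw [h2] at h1
    have h3 : 0 ≤ σ ^ k * √σ := by positivity
    linarith only [mul_nonneg hD h3, h3, h1]

theorem mom (b : ℝ) : ∃ C : ℝ, 1 ≤ C ∧ ∀ (n : ℕ) (r : ℕ → ℝ), BPath b n r → ∀ l < n,
    ∀ t ∈ Icc 0 (r (l + 1) - r l),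
      Bt n (gm n) r l t (fun x => min 1 |x|) ≤ C * √(r l + t) ∧
      Bt n (gm n) r l t (fun x => (min 1 |x|) ^ 2) ≤ C * (r l + t) ∧
      Bt n (gm n) r l t (fun x => (min 1 |x|) ^ 3) ≤ C * ((r l + t) * √(r l + t)) := by
  obtain ⟨K, hK1, hK⟩ := fl_bk b
  have hK0 : 0 < K := by linarith
  refine ⟨4 * K ^ 3, by linarith only [one_le_pow₀ hK1 (n := 3)], fun n r hr l hl t ht => ?_⟩
  have hm := gm_exponents n
  have hp := hr.2.1
  obtain ⟨-, hB⟩ := hK n (gm n) r hm hr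
  have hG : AK K (Gb n (gm n) r l t) := hB l hl (r (l + 1) - r l - t) ⟨by linarith [ht.2],
    by linarith [ht.1]⟩
  have hG' : ∃ C, Adm C (Gb n (gm n) r l t) := ⟨K, hG.adm⟩
  have hσ : 0 ≤ r l + t := by
    have h1 : r 0 ≤ r l := minb_mono hp.2 (Nat.zero_le l) hl.le
    rw [hr.1] at h1
    linarith [ht.1]
  have hR := dec_Rb_le hm hp hr.1 hl ht
  have hQ := mom_Q_le hm hp hr.1 hl ht
  set σ := r l + t with hσd
  set G1 : ℝ → ℝ := iteratedDeriv 1 (Gb n (gm n) r l t) with hG1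
  have cG : Sp7Cb G1 := blk2_cb hG' 0
  have cA : Sp7Cb (fun x => |G1 x|) := by
    obtain ⟨hc, B, hB⟩ := cG
    exact ⟨hc.abs, B, fun x => by rw [abs_abs]; exact hB x⟩
  have cm : Sp7Cb (fun x : ℝ => min 1 |x|) := by
    refine ⟨by fun_prop, 1, fun x => ?_⟩
    rw [abs_of_nonneg (le_min zero_le_one (abs_nonneg _))]
    exact min_le_left _ _
  have hlow : ∀ x, min 1 |x| ≤ K * |G1 x| := hG.low
  have hmn : ∀ x : ℝ, 0 ≤ min 1 |x| := fun x => le_min zero_le_one (abs_nonneg _)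
  have c2 : Sp7Cb (fun x => |G1 x| ^ 2) := nest_cb_pow cA 2
  have c3 : Sp7Cb (fun x => |G1 x| ^ 3) := nest_cb_pow cA 3
  have c4 : Sp7Cb (fun x => |G1 x| ^ 4) := nest_cb_pow cA 4
  have e2 : Bt n (gm n) r l t (fun x => |G1 x| ^ 2) ≤ σ := by
    have : (fun x => |G1 x| ^ 2) = fun x => G1 x ^ 2 := by funext x; exact sq_abs _
    rw [this]
    exact hR
  have e4 : Bt n (gm n) r l t (fun x => |G1 x| ^ 4) ≤ 3 * σ ^ 2 := by
    have : (fun x => |G1 x| ^ 4) = fun x => G1 x ^ 4 := by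
      funext x
      exact (show Even 4 by decide).pow_abs _
    rw [this]
    exact hQ
  have e1 : Bt n (gm n) r l t (fun x => |G1 x|) ≤ 2 * √σ := by
    have h1 := mom_opt (y := Bt n (gm n) r l t (fun x => |G1 x|)) hσ zero_le_one 0 (by
      intro ε hε
      have h2 := blk2_mono hm hp hl ht (nest_cb_smul 2 cA)
        (sp7_cb_add (sp7_cb_const ε) (nest_cb_smul (1 / ε) c2)) (fun x => by
          have h3 : 0 ≤ (ε - |G1 x|) ^ 2 / ε := by (clear * - hε; positivity)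
          have h4 : (ε - |G1 x|) ^ 2 / ε = ε + 1 / ε * |G1 x| ^ 2 - 2 * |G1 x| := by
            field_simp
            ring
          linarith only [h4, h3])
      rw [dec_Bt_smul, dec_Bt_add hm hp hl ht (sp7_cb_const ε) (nest_cb_smul (1 / ε) c2),
        dec_Bt_smul, blk2_const hm hp hl ht] at h2
      have h5 : 1 / ε * Bt n (gm n) r l t (fun x => |G1 x| ^ 2) ≤ 1 / ε * σ :=
        mul_le_mul_of_nonneg_left e2 (by positivity)
      have h6 : 1 * σ ^ (0 + 1) / ε = 1 / ε * σ := by ring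
      rw [h6]
      linarith only [h5, h2])
    have h7 : (1 + 1) * (σ ^ 0 * √σ) = 2 * √σ := by ring
    rwa [h7] at h1
  have e3 : Bt n (gm n) r l t (fun x => |G1 x| ^ 3) ≤ 4 * (σ * √σ) := by
    have h1 := mom_opt (y := Bt n (gm n) r l t (fun x => |G1 x| ^ 3)) hσ
      (show (0 : ℝ) ≤ 3 by norm_num) 1 (by
      intro ε hε
      have h2 := blk2_mono hm hp hl ht (nest_cb_smul 2 c3)
        (sp7_cb_add (nest_cb_smul ε c2) (nest_cb_smul (1 / ε) c4)) (fun x => by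
          have h3 : 0 ≤ |G1 x| ^ 2 * (ε - |G1 x|) ^ 2 / ε := by (clear * - hε; positivity)
          have h4 : |G1 x| ^ 2 * (ε - |G1 x|) ^ 2 / ε =
              ε * |G1 x| ^ 2 + 1 / ε * |G1 x| ^ 4 - 2 * |G1 x| ^ 3 := by
            field_simp
            ring
          linarith only [h4, h3])
      rw [dec_Bt_smul, dec_Bt_add hm hp hl ht (nest_cb_smul ε c2) (nest_cb_smul (1 / ε) c4),
        dec_Bt_smul, dec_Bt_smul] at h2
      have h5 : 1 / ε * Bt n (gm n) r l t (fun x => |G1 x| ^ 4) ≤ 1 / ε * (3 * σ ^ 2) :=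
        mul_le_mul_of_nonneg_left e4 (by positivity)
      have h5' : ε * Bt n (gm n) r l t (fun x => |G1 x| ^ 2) ≤ ε * σ :=
        mul_le_mul_of_nonneg_left e2 hε.le
      have h6 : 3 * σ ^ (1 + 1) / ε = 1 / ε * (3 * σ ^ 2) := by ring
      rw [h6, pow_one]
      linarith only [h5', h5, h2])
    have h7 : (1 + 3) * (σ ^ 1 * √σ) = 4 * (σ * √σ) := by ring
    rwa [h7] at h1
  have hs : 0 ≤ √σ := Real.sqrt_nonneg _
  have hK3 : K ≤ K ^ 3 := by
    calc K = K ^ 1 := (pow_one K).symm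
      _ ≤ K ^ 3 := pow_le_pow_right₀ hK1 (by norm_num)
  have hK23 : K ^ 2 ≤ K ^ 3 := pow_le_pow_right₀ hK1 (by norm_num)
  refine ⟨?_, ?_, ?_⟩
  · have h1 := blk2_mono hm hp hl ht cm (nest_cb_smul K cA) hlow
    rw [dec_Bt_smul] at h1
    calc _ ≤ K * Bt n (gm n) r l t (fun x => |G1 x|) := h1
      _ ≤ K * (2 * √σ) := mul_le_mul_of_nonneg_left e1 hK0.le
      _ ≤ 4 * K ^ 3 * √σ := by (by_contra nlg; linarith only [nlg, mul_nonneg (le_of_lt (sub_pos.2 hK0)) (sub_nonneg.2 (mul_le_mul_of_nonneg_right hK3 hs)), mul_pos (sub_pos.2 (not_le.1 nlg)) (sub_pos.2 hK0), mul_nonneg (sq_nonneg (K : ℝ)) (sub_nonneg.2 hs)])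
  · have h1 := blk2_mono hm hp hl ht (nest_cb_pow cm 2) (nest_cb_smul (K ^ 2) c2) (fun x => by
      have := pow_le_pow_left₀ (hmn x) (hlow x) 2
      rwa [mul_pow] at this)
    rw [dec_Bt_smul] at h1
    calc _ ≤ K ^ 2 * Bt n (gm n) r l t (fun x => |G1 x| ^ 2) := h1
      _ ≤ K ^ 2 * σ := mul_le_mul_of_nonneg_left e2 (by positivity)
      _ ≤ 4 * K ^ 3 * σ := by (by_contra nlg; linarith only [nlg, mul_nonneg (sub_nonneg.2 hσ) (sub_nonneg.2 hK3), mul_nonneg (le_of_lt (sub_pos.2 hK0)) (sub_nonneg.2 (mul_le_mul_of_nonneg_right hK23 hσ)), mul_nonneg (le_of_lt (sub_pos.2 hK0)) (sub_nonneg.2 hσ), mul_pos (sub_pos.2 (not_le.1 nlg)) (sub_pos.2 hK0)])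
  · have h1 := blk2_mono hm hp hl ht (nest_cb_pow cm 3) (nest_cb_smul (K ^ 3) c3) (fun x => by
      have := pow_le_pow_left₀ (hmn x) (hlow x) 3
      rwa [mul_pow] at this)
    rw [dec_Bt_smul] at h1
    calc _ ≤ K ^ 3 * Bt n (gm n) r l t (fun x => |G1 x| ^ 3) := h1
      _ ≤ K ^ 3 * (4 * (σ * √σ)) := mul_le_mul_of_nonneg_left e3 (by positivity)
      _ = 4 * K ^ 3 * (σ * √σ) := by ring

end Vale.Agent.P146.Sh
end

section

/-!
# P146, Sh: the derivatives at the origin along the recursion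
-/

open MeasureTheory ProbabilityTheory Filter Topology Set

namespace Vale.Agent.P146.Sh

open Vale.Agent.P157.Par
open Vale.Agent.P146.Gap
open Vale.Agent.P146.Pw2
open Vale.Agent.P146.Lb
open Vale.Agent.P367.Cl

theorem kv (b : ℝ) : ∃ C : ℝ, 1 ≤ C ∧ ∀ (n : ℕ) (r : ℕ → ℝ), BPath b n r → ∀ l < n,
    ∀ t ∈ Icc 0 (r (l + 1) - r l),
      |iteratedDeriv 2 (Gb n (gm n) r l t) 0 - vv n r| ≤ C * (r l + t) ∧
      |iteratedDeriv 4 (Gb n (gm n) r l t) 0 + kk n r| ≤ C * √(r l + t) :=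
  kv_of b (gb_class b) tay (mom b)

end Vale.Agent.P146.Sh
end

section

/-!
# P146, Sh: the derivative of the second moment along the first blocks, from the bounds of `vv`, `kk`
-/

open MeasureTheory ProbabilityTheory Filter Topology Set

namespace Vale.Agent.P146.Sh

open Vale.Agent.P157.Par
open Vale.Agent.P146.Gap
open Vale.Agent.P146.Pw2
open Vale.Agent.P146.Lb
open Vale.Agent.P367.Cl

theorem m1b_track {n : ℕ} {r : ℕ → ℝ} (hr : Path n r) (h0 : r 0 = 0) {g : ℕ → ℝ → ℝ} {B : ℝ}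
    (hB : 0 ≤ B) (p : ℕ) (hc : ∀ l < n, ContinuousOn (g l) (Icc 0 (r (l + 1) - r l)))
    (hz : g 0 0 = 0) (hm : ∀ l, l + 1 < n → g l (r (l + 1) - r l) = g (l + 1) 0)
    (hd : ∀ l < n, ∀ t ∈ Ioo 0 (r (l + 1) - r l), ∃ d, HasDerivAt (g l) d t ∧
      |d| ≤ B * (r l + t) ^ p) :
    ∀ l < n, ∀ t ∈ Icc 0 (r (l + 1) - r l), |g l t| ≤ B * (r l + t) ^ (p + 1) := by
  have nn : ∀ l ≤ n, 0 ≤ r l := fun l hl => by
    induction l with
    | zero => exact h0.ge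
    | succ l ih => exact (ih (by omega)).trans (hr.2 l (by omega))
  have key : ∀ l < n, |g l 0| ≤ B * r l ^ (p + 1) → ∀ t ∈ Icc 0 (r (l + 1) - r l),
      |g l t| ≤ B * (r l + t) ^ (p + 1) := fun l hl h1 t ht => by
    have hl0 := nn l hl.le
    have h2 := kv_slope (f := g l) (T := t) (B := B * (r l + t) ^ p)
      ((hc l hl).mono (Icc_subset_Icc le_rfl ht.2)) (fun s hs => by
        obtain ⟨d, e1, e2⟩ := hd l hl s ⟨hs.1, hs.2.trans_le ht.2⟩
        refine ⟨d, e1, e2.trans (mul_le_mul_of_nonneg_left ?_ hB)⟩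
        exact pow_le_pow_left₀ (by linarith [hs.1]) (by linarith [hs.2]) p)
      (t := t) ⟨ht.1, le_rfl⟩
    have h3 : |g l t| ≤ |g l t - g l 0| + |g l 0| := by
      have := abs_add_le (g l t - g l 0) (g l 0)
      rwa [sub_add_cancel] at this
    have h4 : r l ^ (p + 1) ≤ (r l + t) ^ p * r l := by
      rw [pow_succ]
      exact mul_le_mul_of_nonneg_right (pow_le_pow_left₀ hl0 (by linarith [ht.1]) p) hl0
    have h5 := mul_le_mul_of_nonneg_left h4 hB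
    have h6 : B * (r l + t) ^ (p + 1) = B * (r l + t) ^ p * t + B * ((r l + t) ^ p * r l) := by
      ring
    linarith
  intro l
  induction l with
  | zero =>
    intro hl
    refine key 0 hl ?_
    rw [hz, h0]
    simp
  | succ l ih =>
    intro hl
    refine key (l + 1) hl ?_
    have hl' : l < n := by omega
    have h1 := ih hl' (r (l + 1) - r l) ⟨sub_nonneg.2 (hr.2 l hl'), le_rfl⟩
    rw [hm l hl, add_sub_cancel] at h1
    exact h1

/-- The algebra of the estimate. -/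
theorem m1b_alg {c K K' C1 C2 C3 C4 Ct X σ w S m P3 R Q v v' k k4 : ℝ} (hc : 0 < c)
    (hK : 1 ≤ K) (hK' : 1 ≤ K') (h3 : 0 ≤ C3) (h4 : 0 ≤ C4) (hCt : 0 ≤ Ct * C2)
    (h12 : 0 ≤ C1 * C2) (hX : 0 ≤ X) (hσ : 0 ≤ σ) (hσX : σ ≤ X) (hw : 0 ≤ w)
    (hS1 : σ * w ≤ S) (hS2 : X * X ≤ S) (hm : 0 ≤ m) (hmX : m ≤ X)
    (b1 : c ≤ v) (b2 : v ≤ 1) (b3 : c ≤ k) (b4 : k ≤ K') (b5 : 0 ≤ v') (b6 : v' ≤ 1)
    (b7 : |k4| ≤ K) (e1 : |v' ^ 2 * P3 - k4 ^ 2 * R| ≤ Ct * C2 * (σ * w))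
    (e2 : |Q - v' ^ 3| ≤ 3 * (C1 * C2) * σ) (e3 : |P3| ≤ K ^ 2 * σ) (e3' : 0 ≤ R) (e3'' : R ≤ σ)
    (e4 : |R - v ^ 2 * σ| ≤ C4 * σ ^ 2) (e5 : |v' - v| ≤ C3 * σ) (e6 : |k4 + k| ≤ C3 * w) :
    |P3 - 2 * m * Q - (k ^ 2 * σ - 2 * m * v ^ 3)| ≤
      ((2 * C3 * K ^ 2 + Ct * C2 + (K + K') * C3 + K' ^ 2 * C4) / c ^ 2 +
        6 * (C1 * C2 + C3)) * S := by
  have hc2 : 0 < c ^ 2 := by positivity
  have hv2 : c ^ 2 ≤ v ^ 2 := pow_le_pow_left₀ hc.le b1 2
  have hσ2 : σ * σ ≤ S := (mul_le_mul hσX hσX hσ hX).trans hS2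
  have hXσ : X * σ ≤ S := (mul_le_mul_of_nonneg_left hσX hX).trans hS2
  have hS : 0 ≤ S := (mul_nonneg hX hX).trans hS2
  have hv0 : 0 ≤ v := hc.le.trans b1
  have hk0 : 0 ≤ k := hc.le.trans b3
  -- the first part
  have f1 : |(v ^ 2 - v' ^ 2) * P3| ≤ 2 * C3 * K ^ 2 * S := by
    have : v ^ 2 - v' ^ 2 = -((v' - v) * (v + v')) := by ring
    rw [abs_mul, this, abs_neg, abs_mul, abs_of_nonneg (show 0 ≤ v + v' by linarith only [hv0, b5])]
    calc |v' - v| * (v + v') * |P3| ≤ C3 * σ * 2 * (K ^ 2 * σ) := by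
          refine mul_le_mul (mul_le_mul e5 (by linarith only [b6, b2]) (by linarith) (by positivity)) e3
            (abs_nonneg _) (by positivity)
      _ = 2 * C3 * K ^ 2 * (σ * σ) := by ring
      _ ≤ 2 * C3 * K ^ 2 * S := mul_le_mul_of_nonneg_left hσ2 (by positivity)
  have f2 : |v' ^ 2 * P3 - k4 ^ 2 * R| ≤ Ct * C2 * S :=
    e1.trans (mul_le_mul_of_nonneg_left hS1 hCt)
  have f3 : |(k4 ^ 2 - k ^ 2) * R| ≤ (K + K') * C3 * S := by
    have : k4 ^ 2 - k ^ 2 = (k4 + k) * (k4 - k) := by ring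
    rw [abs_mul, this, abs_mul, abs_of_nonneg e3']
    have g1 : |k4 - k| ≤ K + K' := (abs_sub _ _).trans (by
      rw [abs_of_nonneg hk0]
      linarith only [b7, b4])
    calc |k4 + k| * |k4 - k| * R ≤ C3 * w * (K + K') * σ := by
          refine mul_le_mul (mul_le_mul e6 g1 (abs_nonneg _) (by positivity)) e3'' e3'
            (by positivity)
      _ = (K + K') * C3 * (σ * w) := by ring
      _ ≤ (K + K') * C3 * S := mul_le_mul_of_nonneg_left hS1 (by positivity)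
  have f4 : |k ^ 2 * (R - v ^ 2 * σ)| ≤ K' ^ 2 * C4 * S := by
    rw [abs_mul, abs_of_nonneg (sq_nonneg k)]
    calc k ^ 2 * |R - v ^ 2 * σ| ≤ K' ^ 2 * (C4 * σ ^ 2) :=
          mul_le_mul (pow_le_pow_left₀ hk0 b4 2) e4 (abs_nonneg _) (by positivity)
      _ = K' ^ 2 * C4 * (σ * σ) := by ring
      _ ≤ K' ^ 2 * C4 * S := mul_le_mul_of_nonneg_left hσ2 (by positivity)
  set T := 2 * C3 * K ^ 2 + Ct * C2 + (K + K') * C3 + K' ^ 2 * C4 with hT
  have hT0 : 0 ≤ T := by (clear * - h3 hK hCt hK' h4; positivity)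
  have f5 : |v ^ 2 * (P3 - k ^ 2 * σ)| ≤ T * S := by
    have : v ^ 2 * (P3 - k ^ 2 * σ) = (v ^ 2 - v' ^ 2) * P3 + (v' ^ 2 * P3 - k4 ^ 2 * R) +
        (k4 ^ 2 - k ^ 2) * R + k ^ 2 * (R - v ^ 2 * σ) := by ring
    rw [this]
    have g1 := abs_add_le ((v ^ 2 - v' ^ 2) * P3 + (v' ^ 2 * P3 - k4 ^ 2 * R) +
        (k4 ^ 2 - k ^ 2) * R) (k ^ 2 * (R - v ^ 2 * σ))
    have g2 := abs_add_le ((v ^ 2 - v' ^ 2) * P3 + (v' ^ 2 * P3 - k4 ^ 2 * R))
      ((k4 ^ 2 - k ^ 2) * R)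
    have g3 := abs_add_le ((v ^ 2 - v' ^ 2) * P3) (v' ^ 2 * P3 - k4 ^ 2 * R)
    rw [hT]
    linarith only [g3, g2, g1, f4, f3, f2, f1]
  have f6 : |P3 - k ^ 2 * σ| ≤ T / c ^ 2 * S := by
    rw [abs_mul, abs_of_nonneg (sq_nonneg v)] at f5
    have : c ^ 2 * |P3 - k ^ 2 * σ| ≤ T * S :=
      (mul_le_mul_of_nonneg_right hv2 (abs_nonneg _)).trans f5
    rw [div_mul_eq_mul_div, le_div_iff₀ hc2]
    linarith only [this]
  -- the second part
  have f7 : |2 * m * (Q - v ^ 3)| ≤ 6 * (C1 * C2 + C3) * S := by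
    have g1 : |v' ^ 3 - v ^ 3| ≤ 3 * (C3 * σ) := by
      have : v' ^ 3 - v ^ 3 = (v' - v) * (v' ^ 2 + v' * v + v ^ 2) := by ring
      have g0 : 0 ≤ v' ^ 2 + v' * v + v ^ 2 := by (clear * - b5 hv0; positivity)
      rw [this, abs_mul, abs_of_nonneg g0, mul_comm 3]
      exact mul_le_mul e5 (by (by_contra nlg; linarith only [nlg, mul_nonneg (sub_nonneg.2 b6) (sub_nonneg.2 g0), mul_nonneg (sub_nonneg.2 b6) (sub_nonneg.2 hv0), mul_nonneg (sub_nonneg.2 b5) (sub_nonneg.2 b6), mul_nonneg (sub_nonneg.2 b2) (sub_nonneg.2 g0), mul_nonneg (sub_nonneg.2 b2) (sub_nonneg.2 hv0), mul_nonneg (le_of_lt (sub_pos.2 (not_le.1 nlg))) (sub_nonneg.2 b5), mul_nonneg (le_of_lt (sub_pos.2 (not_le.1 nlg))) (sub_nonneg.2 b1), mul_pos (sub_pos.2 (not_le.1 nlg)) (sub_pos.2 hc)])) g0 (by positivity)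
    have g2 : |Q - v ^ 3| ≤ 3 * (C1 * C2) * σ + 3 * (C3 * σ) := by
      have : Q - v ^ 3 = (Q - v' ^ 3) + (v' ^ 3 - v ^ 3) := by ring
      rw [this]
      exact (abs_add_le _ _).trans (add_le_add e2 g1)
    rw [abs_mul, abs_of_nonneg (show 0 ≤ 2 * m by linarith only [hm])]
    calc 2 * m * |Q - v ^ 3| ≤ 2 * X * (3 * (C1 * C2) * σ + 3 * (C3 * σ)) :=
          mul_le_mul (by linarith only [hmX]) g2 (abs_nonneg _) (by linarith only [hmX, hm])
      _ = 6 * (C1 * C2 + C3) * (X * σ) := by ring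
      _ ≤ 6 * (C1 * C2 + C3) * S := mul_le_mul_of_nonneg_left hXσ (by (clear * - h12 h3; positivity))
  have e : P3 - 2 * m * Q - (k ^ 2 * σ - 2 * m * v ^ 3) =
      (P3 - k ^ 2 * σ) - 2 * m * (Q - v ^ 3) := by ring
  rw [e]
  have := abs_sub (P3 - k ^ 2 * σ) (2 * m * (Q - v ^ 3))
  linarith only [this, f7, f6]

theorem m1e_of (b : ℝ)
    (hbd : ∃ c K : ℝ, 0 < c ∧ 1 ≤ K ∧ ∀ (n : ℕ) (r : ℕ → ℝ), BPath b n r →
      c ≤ vv n r ∧ vv n r ≤ 1 ∧ c ≤ kk n r ∧ kk n r ≤ K) :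
    ∃ C : ℝ, 1 ≤ C ∧ ∀ (n : ℕ) (X : ℝ) (r : ℕ → ℝ), BPath b n r → 0 < X →
    X ≤ 1 → ∀ l < n, gm n (l + 1) ≤ X → ∀ t ∈ Icc 0 (r (l + 1) - r l), r l + t ≤ X →
      |M1b n (gm n) r l t - (kk n r ^ 2 * (r l + t) - 2 * gm n (l + 1) * vv n r ^ 3)| ≤
        C * (X * √X) := by
  obtain ⟨K, hK, hcl⟩ := gb_class b
  obtain ⟨C1, hC1, htay⟩ := tay hK
  obtain ⟨C2, hC2, hmom⟩ := mom b
  obtain ⟨C3, hC3, hkv⟩ := kv b
  obtain ⟨c, K', hc, hK', hbd⟩ := hbd
  obtain ⟨C4, hC4, hM1⟩ := M1b_bd b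
  refine ⟨max ((2 * C3 * K ^ 2 + (C1 * (2 * K)) * C2 + (K + K') * C3 + K' ^ 2 * C4) / c ^ 2 +
        6 * (C1 * C2 + C3)) 1, le_max_right _ _, ?_⟩
  intro n X r hr hX hX1 l hl hgX t ht hσX
  have hm := gm_exponents n
  have hp := hr.2.1
  obtain ⟨g0, g1⟩ := sp7_exp_of hm l hl
  have hrl : 0 ≤ r l := len_nonneg hr hl.le
  have hσ : 0 ≤ r l + t := add_nonneg hrl ht.1
  obtain ⟨hAK, h5⟩ := hcl n r hr l hl t ht
  obtain ⟨-, m2, m3⟩ := hmom n r hr l hl t ht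
  obtain ⟨k1, k2⟩ := hkv n r hr l hl t ht
  obtain ⟨v1, v2, v3, v4⟩ := hbd n r hr
  have hT := htay _ hAK h5
  have hR := dec_Rb_le hm hp hr.1 hl ht
  -- the second moment
  have hM : ∀ l < n, ∀ t ∈ Icc 0 (r (l + 1) - r l),
      |Mb n (gm n) r l t - vv n r ^ 2| ≤ C4 * (r l + t) ^ (0 + 1) := by
    refine m1b_track hp hr.1 (g := fun l t => Mb n (gm n) r l t - vv n r ^ 2) (by linarith only [hC4]) 0
      (fun l hl => (Mb_cont hm hp hl).sub continuousOn_const) ?_ (fun l hl => ?_)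
      (fun l hl t ht => ⟨M1b n (gm n) r l t, (Mb_deriv hm hp hl ht).sub_const _, ?_⟩)
    · have hn : 0 < n := by omega
      change Mb n (gm n) r 0 0 - vv n r ^ 2 = 0
      rw [Mb_zero hm hp hn, Ml, ee_zero hr.1]
      simp only [vv, sub_self]
    · rw [Mb_last hm hp (by omega), Mb_zero hm hp hl]
    · rw [pow_zero, mul_one]
      exact hM1 n (gm n) r hm hr l hl t (Ioo_subset_Icc_self ht)
  have hR2 : ∀ l < n, ∀ t ∈ Icc 0 (r (l + 1) - r l),
      |Rb n (gm n) r l t - vv n r ^ 2 * (r l + t)| ≤ C4 * (r l + t) ^ (1 + 1) := by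
    refine m1b_track hp hr.1 (g := fun l t => Rb n (gm n) r l t - vv n r ^ 2 * (r l + t))
      (by linarith only [hC4]) 1
      (fun l hl => (Rb_cont hm hp hl).sub (by fun_prop)) ?_ (fun l hl => ?_)
      (fun l hl t ht => ⟨Mb n (gm n) r l t - vv n r ^ 2, ?_, ?_⟩)
    · have hn : 0 < n := by omega
      change Rb n (gm n) r 0 0 - vv n r ^ 2 * (r 0 + 0) = 0
      rw [Rb_zero hm hp hn, Lb.spR_zero hm hp hr.1 (Nat.zero_le n) hr.1, hr.1]
      ring
    · rw [Rb_last hm hp (by omega), Rb_zero hm hp hl]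
      ring
    · have h1 := Rb_deriv hm hp hl ht
      have h2 : HasDerivAt (fun t => vv n r ^ 2 * (r l + t)) (vv n r ^ 2) t := by
        simpa using ((hasDerivAt_id t).const_add (r l)).const_mul (vv n r ^ 2)
      exact h1.sub h2
    · simpa using hM l hl t (Ioo_subset_Icc_self ht)
  -- the pieces
  set G := Gb n (gm n) r l t with hG
  set P3 := Bt n (gm n) r l t (fun x => iteratedDeriv 3 G x ^ 2) with hP3
  set Q := Bt n (gm n) r l t (fun x => iteratedDeriv 2 G x ^ 3) with hQ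
  have c1 : Sp7Cb (iteratedDeriv 1 G) := blk2_cb ⟨K, hAK.adm⟩ 0
  have c2 : Sp7Cb (iteratedDeriv 2 G) := blk2_cb ⟨K, hAK.adm⟩ 1
  have c3 : Sp7Cb (iteratedDeriv 3 G) := blk2_cb ⟨K, hAK.adm⟩ 2
  have hmn : ∀ x : ℝ, 0 ≤ min 1 |x| := fun x => le_min zero_le_one (abs_nonneg x)
  have a1 : ∀ x, |iteratedDeriv 1 G x| ≤ min 1 |x| := fun x => by
    refine le_min (vari_abs1 hAK.adm x) ?_
    have hd : ∀ y, HasDerivAt (iteratedDeriv 1 G) (iteratedDeriv 2 G y) y := fun y =>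
      GoodX.good_hd hAK.adm.smb.smooth 1 y
    have h10 : iteratedDeriv 1 G 0 = 0 := GoodX.good_odd hAK.adm.even (by decide)
    have := tay_lip hd (B := 1) (x := x) fun z _ => by
      rw [abs_of_pos (vari_d2_01 hAK.adm z).1]
      exact (vari_d2_01 hAK.adm z).2
    rwa [h10, sub_zero, one_mul] at this
  have hM1e : M1b n (gm n) r l t = P3 - 2 * gm n (l + 1) * Q := by
    have e : (fun x => iteratedDeriv 3 G x ^ 2 - 2 * gm n (l + 1) * iteratedDeriv 2 G x ^ 3) =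
        fun x => iteratedDeriv 3 G x ^ 2 + -(2 * gm n (l + 1)) * iteratedDeriv 2 G x ^ 3 := by
      funext x
      ring
    rw [M1b, ← hG, e, kv_add hm hp hl ht (sp7_cb_sq c3) (nest_cb_smul _ (nest_cb_pow c2 3)),
      kv_smul]
    ring
  have e1 : |iteratedDeriv 2 G 0 ^ 2 * P3 - iteratedDeriv 4 G 0 ^ 2 * Rb n (gm n) r l t| ≤
      (C1 * (2 * K)) * C2 * ((r l + t) * √(r l + t)) := by
    have h1 := kv_dev hm hp hl ht (c := 0)
      (sp7_cb_add (nest_cb_smul (iteratedDeriv 2 G 0 ^ 2) (sp7_cb_sq c3))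
        (nest_cb_smul (-(iteratedDeriv 4 G 0 ^ 2)) (sp7_cb_sq c1)))
      (nest_cb_smul (C1 * (2 * K)) (kv_min_cb 3)) (fun x => by
        have q1 := (hT x).2.2
        have q2 : |iteratedDeriv 3 G x * iteratedDeriv 2 G 0 + iteratedDeriv 4 G 0 *
            iteratedDeriv 1 G x| ≤ 2 * K * min 1 |x| := by
          refine (abs_add_le _ _).trans ?_
          rw [abs_mul, abs_mul]
          have w1 : |iteratedDeriv 3 G x| ≤ K * min 1 |x| :=
            (hAK.k3 x).trans (mul_le_mul_of_nonneg_left (a1 x) (by linarith only [hK]))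
          have w2 : |iteratedDeriv 2 G 0| ≤ 1 := by
            rw [abs_of_pos (vari_d2_01 hAK.adm 0).1]
            exact (vari_d2_01 hAK.adm 0).2
          have w3 : |iteratedDeriv 4 G 0| ≤ K :=
            (hAK.k4 0).trans (mul_le_of_le_one_right (by linarith only [hK]) (vari_d2_01 hAK.adm 0).2)
          have w4 := mul_le_mul w1 w2 (abs_nonneg _)
            (mul_nonneg (show 0 ≤ K by linarith only [hK]) (hmn x))
          have w5 := mul_le_mul w3 (a1 x) (abs_nonneg _) (by linarith only [hK])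
          linarith only [w5, w4]
        have e : iteratedDeriv 2 G 0 ^ 2 * iteratedDeriv 3 G x ^ 2 +
            -(iteratedDeriv 4 G 0 ^ 2) * iteratedDeriv 1 G x ^ 2 - 0 =
            (iteratedDeriv 3 G x * iteratedDeriv 2 G 0 - iteratedDeriv 4 G 0 *
              iteratedDeriv 1 G x) * (iteratedDeriv 3 G x * iteratedDeriv 2 G 0 +
              iteratedDeriv 4 G 0 * iteratedDeriv 1 G x) := by ring
        change |iteratedDeriv 2 G 0 ^ 2 * iteratedDeriv 3 G x ^ 2 +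
            -(iteratedDeriv 4 G 0 ^ 2) * iteratedDeriv 1 G x ^ 2 - 0| ≤ _
        rw [e, abs_mul]
        calc _ ≤ (C1 * (min 1 |x|) ^ 2) * (2 * K * min 1 |x|) :=
              mul_le_mul q1 q2 (abs_nonneg _)
                (mul_nonneg (by linarith only [hC1]) (pow_nonneg (hmn x) 2))
          _ = C1 * (2 * K) * (min 1 |x|) ^ 3 := by ring)
    rw [kv_add hm hp hl ht (nest_cb_smul (iteratedDeriv 2 G 0 ^ 2) (sp7_cb_sq c3))
        (nest_cb_smul (-(iteratedDeriv 4 G 0 ^ 2)) (sp7_cb_sq c1)), kv_smul, kv_smul,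
      kv_smul, sub_zero] at h1
    have h2 : Bt n (gm n) r l t (fun x => iteratedDeriv 1 G x ^ 2) = Rb n (gm n) r l t := rfl
    rw [h2, neg_mul, ← sub_eq_add_neg] at h1
    refine h1.trans ?_
    calc C1 * (2 * K) * Bt n (gm n) r l t (fun x => min 1 |x| ^ 3) ≤
        C1 * (2 * K) * (C2 * ((r l + t) * √(r l + t))) :=
          mul_le_mul_of_nonneg_left m3 (by positivity)
      _ = _ := by ring
  have e2 : |Q - iteratedDeriv 2 G 0 ^ 3| ≤ 3 * (C1 * C2) * (r l + t) := by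
    have h1 := kv_dev hm hp hl ht (c := iteratedDeriv 2 G 0 ^ 3) (nest_cb_pow c2 3)
      (nest_cb_smul (3 * C1) (kv_min_cb 2)) (fun x => by
        have q1 := (hT x).1
        have y1 := vari_d2_01 hAK.adm x
        have y2 := vari_d2_01 hAK.adm 0
        have e : iteratedDeriv 2 G x ^ 3 - iteratedDeriv 2 G 0 ^ 3 =
            (iteratedDeriv 2 G x - iteratedDeriv 2 G 0) * (iteratedDeriv 2 G x ^ 2 +
              iteratedDeriv 2 G x * iteratedDeriv 2 G 0 + iteratedDeriv 2 G 0 ^ 2) := by ring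
        have y3 : 0 ≤ iteratedDeriv 2 G x ^ 2 +
              iteratedDeriv 2 G x * iteratedDeriv 2 G 0 + iteratedDeriv 2 G 0 ^ 2 := by
          have := mul_nonneg y1.1.le y2.1.le
          (clear * - this; positivity)
        have y4 : iteratedDeriv 2 G x ^ 2 +
              iteratedDeriv 2 G x * iteratedDeriv 2 G 0 + iteratedDeriv 2 G 0 ^ 2 ≤ 3 := by
          have z1 := pow_le_one₀ (n := 2) y1.1.le y1.2
          have z2 := pow_le_one₀ (n := 2) y2.1.le y2.2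
          have z3 := mul_le_one₀ y1.2 y2.1.le y2.2
          linarith only [z3, z2, z1]
        change |iteratedDeriv 2 G x ^ 3 - iteratedDeriv 2 G 0 ^ 3| ≤ _
        rw [e, abs_mul, abs_of_nonneg y3]
        calc _ ≤ (C1 * (min 1 |x|) ^ 2) * 3 := mul_le_mul q1 y4 y3
                (mul_nonneg (by linarith only [hC1]) (pow_nonneg (hmn x) 2))
          _ = 3 * C1 * (min 1 |x|) ^ 2 := by ring)
    rw [kv_smul] at h1
    refine h1.trans ?_
    calc 3 * C1 * Bt n (gm n) r l t (fun x => min 1 |x| ^ 2) ≤ 3 * C1 * (C2 * (r l + t)) :=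
          mul_le_mul_of_nonneg_left m2 (by positivity)
      _ = _ := by ring
  have e3 : |P3| ≤ K ^ 2 * (r l + t) := by
    have h1 := blk2_mono hm hp hl ht (sp7_cb_const 0) (sp7_cb_sq c3) fun x => sq_nonneg _
    rw [blk2_const hm hp hl ht] at h1
    have h2 := blk2_mono hm hp hl ht (sp7_cb_sq c3) (nest_cb_smul (K ^ 2) (sp7_cb_sq c1))
      fun x => by
        have := pow_le_pow_left₀ (abs_nonneg _) (hAK.k3 x) 2
        rwa [mul_pow, sq_abs, sq_abs] at this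
    rw [kv_smul] at h2
    have h3 : Bt n (gm n) r l t (fun x => iteratedDeriv 1 G x ^ 2) = Rb n (gm n) r l t := rfl
    rw [h3] at h2
    have h4 := mul_le_mul_of_nonneg_left hR (sq_nonneg K)
    rw [hP3, abs_of_nonneg h1]
    exact h2.trans h4
  have e3' : 0 ≤ Rb n (gm n) r l t := by
    have h1 := blk2_mono hm hp hl ht (sp7_cb_const 0) (sp7_cb_sq c1) fun x => sq_nonneg _
    rw [blk2_const hm hp hl ht] at h1
    exact h1
  have hw : √(r l + t) ≤ √X := Real.sqrt_le_sqrt hσX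
  have hS1 : (r l + t) * √(r l + t) ≤ X * √X :=
    mul_le_mul hσX hw (Real.sqrt_nonneg _) hX.le
  have hS2 : X * X ≤ X * √X := by
    refine mul_le_mul_of_nonneg_left ?_ hX.le
    have h1 := Real.sqrt_nonneg X
    have h2 := Real.sq_sqrt hX.le
    have h3 : √X ≤ 1 := Real.sqrt_le_one.2 hX1
    nlinarith
  have w3 : |iteratedDeriv 4 G 0| ≤ K :=
    (hAK.k4 0).trans (mul_le_of_le_one_right (by linarith only [hK]) (vari_d2_01 hAK.adm 0).2)
  rw [hM1e]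
  refine (m1b_alg (c := c) (K := K) (K' := K') (C1 := C1) (C2 := C2) (C3 := C3) (C4 := C4)
    (Ct := C1 * (2 * K)) (X := X) (σ := r l + t) (w := √(r l + t)) (S := X * √X)
    (m := gm n (l + 1)) (P3 := P3) (R := Rb n (gm n) r l t) (Q := Q) (v := vv n r)
    (v' := iteratedDeriv 2 G 0) (k := kk n r) (k4 := iteratedDeriv 4 G 0) hc hK hK' (by linarith only [hC3])
    (by linarith only [hC4]) (by positivity) (by positivity) hX.le hσ hσX (Real.sqrt_nonneg _) hS1 hS2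
    g0.le hgX v1 v2 v3 v4 (vari_d2_01 hAK.adm 0).1.le (vari_d2_01 hAK.adm 0).2 w3 e1 e2 e3 e3'
    hR (hR2 l hl t ht) k1 k2).trans ?_
  exact mul_le_mul_of_nonneg_right (le_max_left _ _) (by positivity)

end Vale.Agent.P146.Sh
end

section

/-!
# P146, Sh: bounds of the derivatives at the origin
-/

open MeasureTheory ProbabilityTheory Filter Topology Set

namespace Vale.Agent.P146.Sh

open Vale.Agent.P157.Par
open Vale.Agent.P146.Gap
open Vale.Agent.P146.Pw2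
open Vale.Agent.P146.Lb
open Vale.Agent.P367.Cl

theorem vk_bd (b : ℝ) : ∃ c K : ℝ, 0 < c ∧ 1 ≤ K ∧ ∀ (n : ℕ) (r : ℕ → ℝ), BPath b n r →
    c ≤ vv n r ∧ vv n r ≤ 1 ∧ c ≤ kk n r ∧ kk n r ≤ K := by
  obtain ⟨K, hK1, hK⟩ := fl_bk b
  have hK0 : 0 < K := by linarith
  set a : ℝ := Real.exp (-(2 * b ^ 2)) with ha
  have ha0 : 0 < a := Real.exp_pos _
  refine ⟨min (1 / K) (2 * a * (1 / K) ^ 2), K, lt_min (by positivity) (by positivity), hK1,
    fun n r hr => ?_⟩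
  have hm := gm_exponents n
  obtain ⟨hF, -⟩ := hK n (gm n) r hm hr
  have hA := hF 0 (Nat.zero_le n)
  have hv := vari_d2_01 hA.adm 0
  have h0 : 1 / K ≤ iteratedDeriv 2 (Fl n (gm n) r 0) 0 := by
    rw [div_le_iff₀ hK0]
    linarith [hA.low0]
  have e : Fl n (gm n) r 0 = cascade (gm n) r n lc := by
    simp only [Fl, Nat.zero_add, Nat.sub_zero]
  have hlt : ∀ l, 1 ≤ l → l ≤ n → 0 < gm n l ∧ gm n l ≤ 1 := fun l h1 h2 => by
    have h3 := sp7_exp_of hm (l - 1) (by omega)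
    have e1 : l - 1 + 1 = l := by omega
    rw [e1] at h3
    exact h3
  have hb := inv_cascade (n := n) (m := gm n) (r := r) (c := 1) good_lc le_rfl zero_lt_one le_rfl
    inv_lc (fun l h1 h2 => (hlt l h1 h2).1) (fun l _ h2 => (hm.2.2 l h2.le).le)
    (fun l h1 h2 => (hlt l h1 h2).2) hr.2.1.2 0
  rw [← e, one_mul, hr.1, sub_zero] at hb
  have h3 : iteratedDeriv 3 (Fl n (gm n) r 0) 0 = 0 := GoodX.good_odd hA.adm.even (by decide)
  have hk : 2 * a * (1 / K) ^ 2 ≤ kk n r := by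
    unfold bet at hb
    rw [h3, zero_div] at hb
    have hc : a ≤ Real.exp (-(2 * r n)) := Real.exp_le_exp.2 (by linarith only [hr.2.2])
    set F2 := iteratedDeriv 2 (Fl n (gm n) r 0) 0 with hF2
    have h4 : iteratedDeriv 4 (Fl n (gm n) r 0) 0 / F2 ≤ -(2 * Real.exp (-(2 * r n)) * F2) := by
      linarith only [hb]
    rw [div_le_iff₀ hv.1] at h4
    have h5 : a * (1 / K) ^ 2 ≤ Real.exp (-(2 * r n)) * F2 ^ 2 :=
      mul_le_mul hc (pow_le_pow_left₀ (by positivity) h0 2) (by positivity) (Real.exp_pos _).le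
    unfold kk
    linarith only [h5, h4]
  refine ⟨(min_le_left _ _).trans h0, hv.2, (min_le_right _ _).trans hk, ?_⟩
  have h6 := abs_le.1 ((hA.k4 0).trans (mul_le_of_le_one_right hK0.le hv.2))
  unfold kk
  linarith [h6.1]

end Vale.Agent.P146.Sh
end

section

/-!
# P146, Sh: the derivative of the second moment along the first blocks
-/

open MeasureTheory ProbabilityTheory Filter Topology Set

namespace Vale.Agent.P146.Sh

open Vale.Agent.P157.Par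
open Vale.Agent.P146.Gap
open Vale.Agent.P146.Pw2
open Vale.Agent.P146.Lb
open Vale.Agent.P367.Cl

theorem m1e (b : ℝ) : ∃ C : ℝ, 1 ≤ C ∧ ∀ (n : ℕ) (X : ℝ) (r : ℕ → ℝ), BPath b n r → 0 < X →
    X ≤ 1 → ∀ l < n, gm n (l + 1) ≤ X → ∀ t ∈ Icc 0 (r (l + 1) - r l), r l + t ≤ X →
      |M1b n (gm n) r l t - (kk n r ^ 2 * (r l + t) - 2 * gm n (l + 1) * vv n r ^ 3)| ≤
        C * (X * √X) :=
  m1e_of b (vk_bd b)

end Vale.Agent.P146.Sh
end

section

/-! # P146, Sh: the quartic -/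

open MeasureTheory ProbabilityTheory Filter Topology Set

namespace Vale.Agent.P146.Sh

lemma quart_int (R a x : ℝ) : ∫ u in (0 : ℝ)..R, (x * (R - u) - a * (R ^ 2 - u ^ 2)) ^ 2 =
    (x - 2 * a * R) ^ 2 * R ^ 3 / 3 + (x - 2 * a * R) * a * R ^ 4 / 2 + a ^ 2 * R ^ 5 / 5 := by
  have h : ∀ u ∈ Set.uIcc 0 R, HasDerivAt (fun u : ℝ => -((x - 2 * a * R) ^ 2 * (R - u) ^ 3 / 3 +
      (x - 2 * a * R) * a * (R - u) ^ 4 / 2 + a ^ 2 * (R - u) ^ 5 / 5))
      ((x * (R - u) - a * (R ^ 2 - u ^ 2)) ^ 2) u := by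
    intro u _
    have h0 : HasDerivAt (fun u : ℝ => R - u) (-1) u := by
      simpa using (hasDerivAt_id u).const_sub R
    have h3 := (((h0.pow 3).const_mul ((x - 2 * a * R) ^ 2)).div_const 3)
    have h4 := (((h0.pow 4).const_mul ((x - 2 * a * R) * a)).div_const 2)
    have h5 := (((h0.pow 5).const_mul (a ^ 2)).div_const 5)
    refine ((h3.add h4).add h5).neg.congr_deriv ?_
    push_cast
    ring
  rw [intervalIntegral.integral_eq_sub_of_hasDerivAt h]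
  · simp
  · exact (by fun_prop : Continuous fun u : ℝ =>
      (x * (R - u) - a * (R ^ 2 - u ^ 2)) ^ 2).intervalIntegrable _ _

theorem quart {R a x : ℝ} (hx : 0 < x) (ha : 0 < a) (h : x / 2 ≤ a * R) :
    9 / 2560 * x ^ 5 / a ^ 3 ≤
      ∫ u in (0 : ℝ)..R, (x * (R - u) - a * (R ^ 2 - u ^ 2)) ^ 2 := by
  rw [quart_int]
  obtain ⟨y, hy⟩ : ∃ y, y = a * R / x := ⟨_, rfl⟩
  have hR : R = x * y / a := by rw [hy]; field_simp
  have hy2 : 1 / 2 ≤ y := by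
    rw [hy, le_div_iff₀ hx]
    linarith only [h]
  have e : (x - 2 * a * R) ^ 2 * R ^ 3 / 3 + (x - 2 * a * R) * a * R ^ 4 / 2 + a ^ 2 * R ^ 5 / 5 =
      x ^ 5 / a ^ 3 * (9 / 2560 + (y - 3 / 4) ^ 2 *
        (8 / 15 * y ^ 3 - y ^ 2 / 30 - y / 60 - 1 / 160)) := by
    rw [hR]
    field_simp
    ring
  have hq : 0 ≤ 8 / 15 * y ^ 3 - y ^ 2 / 30 - y / 60 - 1 / 160 := by
    have h1 : 0 ≤ (y - 1 / 2) := by linarith only [hy2]
    have h2 : 8 / 15 * y ^ 3 - y ^ 2 / 30 - y / 60 - 1 / 160 = 8 / 15 * (y - 1 / 2) ^ 3 +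
        (23 / 30) * (y - 1 / 2) ^ 2 + (7 / 20) * (y - 1 / 2) + 7 / 160 := by ring
    rw [h2]
    (clear * - hy2; positivity)
  rw [e]
  have h3 : 9 / 2560 * x ^ 5 / a ^ 3 = x ^ 5 / a ^ 3 * (9 / 2560) := by ring
  rw [h3]
  refine mul_le_mul_of_nonneg_left ?_ (by positivity)
  have : 0 ≤ (y - 3 / 4) ^ 2 * (8 / 15 * y ^ 3 - y ^ 2 / 30 - y / 60 - 1 / 160) := by (clear * - hq; positivity)
  linarith only [this]

end Vale.Agent.P146.Sh
end

section

/-!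
# P146, Sh: increasing the first exponent by one step
-/

open MeasureTheory ProbabilityTheory Filter Topology Set

namespace Vale.Agent.P146.Sh

open Vale.Agent.P157.Par
open Vale.Agent.P146.Gap
open Vale.Agent.P146.Pw2
open Vale.Agent.P146.Lb
open Vale.Agent.P367.Cl

theorem up_sum {n d : ℕ} {r : ℕ → ℝ} (hd : d < n) (hr : ∀ l < d, r l = 0) :
    ∑ l ∈ Finset.range (n + 1), (gm n (l + 1) - gm n l) * one_r (d + 1) (d + 1) 0 r l ^ 2 =
      (∑ l ∈ Finset.range (n + 1), (gm n (l + 1) - gm n l) * r l ^ 2) -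
        1 / ((n : ℝ) + 1) * r d ^ 2 := by
  have hstep : ∀ l : ℕ, gm n (l + 1) - gm n l = 1 / (n + 1) := fun l => by
    unfold gm
    push_cast
    ring
  have h1 : ∀ l ∈ Finset.range (n + 1),
      (gm n (l + 1) - gm n l) * one_r (d + 1) (d + 1) 0 r l ^ 2 =
      (gm n (l + 1) - gm n l) * r l ^ 2 -
        if l = d then 1 / ((n : ℝ) + 1) * r d ^ 2 else 0 := fun l _ => by
    rw [hstep]
    unfold one_r
    by_cases h2 : l < d + 1
    · rw [if_pos h2]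
      by_cases h3 : l = d
      · rw [if_pos h3, h3]
        ring
      · rw [if_neg h3, hr l (by omega)]
        ring
    · rw [if_neg h2, if_neg h2, if_neg (by omega)]
      ring
  rw [Finset.sum_congr rfl h1, Finset.sum_sub_distrib, Finset.sum_ite_eq',
    if_pos (Finset.mem_range.2 (by omega))]

theorem up_good {n l : ℕ} {r : ℕ → ℝ} (hr : Path n r) (hl : l ≤ n) (hl1 : 1 ≤ l) :
    ∃ C, Good (gm n l) C (Fl n (gm n) r l) := by
  obtain ⟨C0, h0⟩ := fl_good (gm_exponents n) hr hl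
  exact ⟨C0, h0.lower (grid_gm_pos hl1) (grid_gm_mono (Nat.le_succ _))⟩

theorem up_diff {b : ℝ} {n d : ℕ} {r : ℕ → ℝ} (hr : BPath b n r) (hd1 : 1 ≤ d) (hdn : d < n)
    (h0 : ∀ l < d, r l = 0) :
    SKr b n (gm n) (one_r (d + 1) (d + 1) 0 r) = SKr b n (gm n) r +
      1 / 2 * (1 / ((n : ℝ) + 1)) * ((∫ τ in (0 : ℝ)..(r d),
        Rf (gm n (d + 1)) (gm n d) (r d) (Fl n (gm n) r d) τ) - r d ^ 2 / (2 * b ^ 2)) := by
  have hpos : ∀ l, 1 ≤ l → gm n l ≠ 0 := fun l h1 => (grid_gm_pos h1).ne'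
  have hle1 : ∀ l, l ≤ n + 1 → gm n l ≤ 1 := fun l h1 => by
    unfold gm
    rw [div_le_one (by positivity)]
    exact_mod_cast h1
  have hrd : 0 ≤ r d := len_nonneg hr (by omega)
  have hrd1 : 0 ≤ r (d + 1) := len_nonneg hr (by omega)
  have hstep : gm n (d + 1) - gm n d = 1 / ((n : ℝ) + 1) := by
    unfold gm
    push_cast
    ring
  have hpath := one_path (τ := 0) hr (show 1 ≤ d + 1 by omega) le_rfl (show d + 1 ≤ n by omega)
    le_rfl hrd1
  obtain ⟨CG, hG⟩ := up_good hr.2.1 hdn.le hd1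
  obtain ⟨C1, hG1⟩ := up_good hr.2.1 (show d + 1 ≤ n by omega) (show 1 ≤ d + 1 by omega)
  have c1 : cascade (gm n) r n lc 0 = gstep (gm n d) (r d) (Fl n (gm n) r d) 0 := by
    rw [fl_split hdn.le, minb_block hd1 (fun l h1 _ => hpos l h1) (fun l hl => by
      rw [h0 l hl, h0 0 (by omega)]), hr.1, sub_zero]
  have c2 : cascade (gm n) (one_r (d + 1) (d + 1) 0 r) n lc 0 =
      gstep (gm n (d + 1)) (r (d + 1)) (Fl n (gm n) r (d + 1)) 0 := by
    rw [fl_split (show d + 1 ≤ n by omega), one_fl le_rfl, minb_block (by omega)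
      (fun l h1 _ => hpos l h1) (fun l hl => by
        unfold one_r
        rw [if_pos hl, if_pos (by omega)])]
    have e5 : one_r (d + 1) (d + 1) 0 r (d + 1) = r (d + 1) := by
      unfold one_r
      rw [if_neg (by omega), if_neg (by omega)]
    rw [e5, hpath.1, sub_zero]
  have c3 : gstep (gm n (d + 1)) (r (d + 1)) (Fl n (gm n) r (d + 1)) =
      gstep (gm n (d + 1)) (r d) (Fl n (gm n) r d) := by
    rw [fl_succ hdn, gstep_add hG1.adm (grid_gm_pos (by omega)) hrd (by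
      have := hr.2.1.2 d hdn
      linarith only [this])]
    congr 1
    ring
  have c4 := gstep_diff hG.adm (grid_gm_pos hd1) (hle1 d (by omega))
    (grid_gm_pos (show 1 ≤ d + 1 by omega)) (hle1 (d + 1) (by omega)) hrd 0
  have e1 : one_r (d + 1) (d + 1) 0 r n = r n := by
    unfold one_r
    rw [if_neg (by omega), if_neg (by omega)]
  unfold SKr
  rw [one_spin hpath.1, one_spin hr.1, c1, c2, c3, up_sum hdn h0, e1]
  have c5 : gstep (gm n (d + 1)) (r d) (Fl n (gm n) r d) 0 =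
      gstep (gm n d) (r d) (Fl n (gm n) r d) 0 + 1 / 2 * (1 / ((n : ℝ) + 1)) *
        ∫ τ in (0 : ℝ)..(r d), Rf (gm n (d + 1)) (gm n d) (r d) (Fl n (gm n) r d) τ := by
    rw [← hstep]
    have : (∫ τ in (0 : ℝ)..(r d), Rf (gm n (d + 1)) (gm n d) (r d) (Fl n (gm n) r d) τ) =
      ∫ τ in (0 : ℝ)..(r d), tlt (gm n (d + 1)) τ (gstep (gm n d) (r d - τ) (Fl n (gm n) r d))
        (fun y => iteratedDeriv 1 (gstep (gm n d) (r d - τ) (Fl n (gm n) r d)) y ^ 2) 0 := rfl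
    rw [this]
    linarith
  rw [c5]
  ring

theorem up_Rb {n d : ℕ} {r : ℕ → ℝ} (hr : Path n r) (h00 : r 0 = 0) (hdn : d + 1 ≤ n)
    (h0 : ∀ l < d + 1, r l = 0) {s : ℝ} (hs : s ∈ Icc 0 (r (d + 1))) :
    Rb n (gm n) r d s = Rf (gm n (d + 1)) (gm n (d + 1)) (r (d + 1)) (Fl n (gm n) r (d + 1)) s := by
  have hm := gm_exponents n
  have hrd : r d = 0 := h0 d (Nat.lt_succ_self _)
  obtain ⟨CG, hG⟩ := up_good hr hdn (show 1 ≤ d + 1 by omega)
  have hx1 : gm n (d + 1) ≤ 1 := by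
    unfold gm
    rw [div_le_one (by positivity)]
    have : ((d + 1 : ℕ) : ℝ) ≤ n := by exact_mod_cast hdn
    linarith only [this]
  have e1 : Gb n (gm n) r d s = gstep (gm n (d + 1)) (r (d + 1) - s) (Fl n (gm n) r (d + 1)) := by
    unfold Gb
    rw [hrd, sub_zero]
  unfold Rb Bt
  have hcb : ∃ C', Adm C' (Gb n (gm n) r d s) := by
    rw [e1]
    have := hG.step (grid_gm_pos (by omega)) le_rfl hx1 (s := r (d + 1) - s) (by linarith [hs.2])
    exact ⟨_, this.adm⟩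
  obtain ⟨C', hC'⟩ := hcb
  rw [rep_zero hm hr h00 (by omega) hrd
    (sp7_cb_tlt (adm_ec hC') (nest_cb_pow (nest_cb1 hC') 2) _ _), e1]
  rfl

/-- The real number estimate. -/
theorem up_num {κ v x R e : ℝ} (hκ : 0 < κ) (hv0 : 0 ≤ v) (hv : v ≤ 1) (hx : 0 ≤ x) (hR : 0 ≤ R)
    (he : 0 ≤ e) (h : |κ ^ 2 * R - 3 * x * v ^ 3| ≤ e) :
    κ ^ 2 * R ^ 4 / 72 ≤ 9 / 8 * v ^ 12 / κ ^ 6 * x ^ 4 + e * (3 * x + e) ^ 3 / (18 * κ ^ 6) := by
  have h1 : κ ^ 2 * R ≤ 3 * x * v ^ 3 + e := by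
    have := (abs_le.1 h).2
    linarith
  set a := 3 * x * v ^ 3 with ha
  have ha0 : 0 ≤ a := by positivity
  have ha3 : a ≤ 3 * x := by
    have : v ^ 3 ≤ 1 := pow_le_one₀ hv0 hv
    rw [ha]
    linarith only [mul_nonneg (sub_nonneg.2 hx) (sub_nonneg.2 this)]
  have h2 : (κ ^ 2 * R) ^ 4 ≤ (a + e) ^ 4 := pow_le_pow_left₀ (by positivity) h1 4
  have h3 : (a + e) ^ 4 ≤ a ^ 4 + 4 * e * (a + e) ^ 3 := by
    have : a ^ 4 + 4 * e * (a + e) ^ 3 - (a + e) ^ 4 =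
        e ^ 2 * (6 * a ^ 2 + 8 * a * e + 3 * e ^ 2) := by ring
    have h4 : 0 ≤ e ^ 2 * (6 * a ^ 2 + 8 * a * e + 3 * e ^ 2) := by (clear * - hx hv0 he; positivity)
    linarith
  have h5 : (a + e) ^ 3 ≤ (3 * x + e) ^ 3 := pow_le_pow_left₀ (by positivity) (by linarith) 3
  have h6 : 4 * e * (a + e) ^ 3 ≤ 4 * e * (3 * x + e) ^ 3 :=
    mul_le_mul_of_nonneg_left h5 (by positivity)
  have h7 : (κ ^ 2 * R) ^ 4 ≤ a ^ 4 + 4 * e * (3 * x + e) ^ 3 := by linarith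
  have h8 : κ ^ 2 * R ^ 4 / 72 = (κ ^ 2 * R) ^ 4 / (72 * κ ^ 6) := by
    field_simp
  have h9 : 9 / 8 * v ^ 12 / κ ^ 6 * x ^ 4 + e * (3 * x + e) ^ 3 / (18 * κ ^ 6) =
      (a ^ 4 + 4 * e * (3 * x + e) ^ 3) / (72 * κ ^ 6) := by
    rw [ha]
    field_simp
    ring
  rw [h8, h9]
  exact div_le_div_of_nonneg_right h7 (by positivity)

theorem up_real {K C1 c0 κ v x V δ I : ℝ} (hK : 0 ≤ K) (hC1 : 1 ≤ C1) (hc0 : 0 < c0)
    (hκ0 : c0 ≤ κ) (hv0 : 0 ≤ v) (hv1 : v ≤ 1) (hx0 : 0 < x) (hx1 : x ≤ 1) (hV0 : 0 ≤ V)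
    (hδ0 : 0 < δ) (hδx : δ ≤ x ^ 40) (hB1 : |κ ^ 2 * V - 3 * x * v ^ 3| ≤ C1 * (x * √x))
    (hI : I ≤ κ ^ 2 * V ^ 4 / 72 + C1 * (x ^ 4 * √x) + K * δ * (V ^ 3 / 3)) :
    1 / 2 * δ * I ≤ δ * (9 / 16 * v ^ 12 / κ ^ 6 * x ^ 4 +
      (C1 + C1 * (3 + C1) ^ 3 / (18 * c0 ^ 6) + K * (3 + C1) ^ 3 / (3 * c0 ^ 6)) *
        (x ^ 4 * √x)) := by
  have hC10 : 0 < C1 := by linarith only [hC1]
  have hκ : 0 < κ := hc0.trans_le hκ0
  have hsx : √x ≤ 1 := Real.sqrt_le_one.2 hx1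
  have hsx0 : 0 ≤ √x := Real.sqrt_nonneg _
  have hxsx : x ≤ √x := by
    have h1 := Real.mul_self_sqrt hx0.le
    (by_contra nlg; linarith only [nlg, mul_eq_zero_of_left (sub_eq_zero.2 h1) (√x - (0)), mul_eq_zero_of_left (sub_eq_zero.2 h1) (1 - (√x)), mul_nonneg (le_of_lt (sub_pos.2 hx0)) (sub_nonneg.2 hx1), mul_nonneg (le_of_lt (sub_pos.2 (not_le.1 nlg))) (sub_nonneg.2 hsx0), mul_pos (sub_pos.2 (not_le.1 nlg)) (sub_pos.2 hx0)])
  have hA2 : 0 ≤ K * (3 + C1) ^ 3 / (3 * c0 ^ 6) := by positivity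
  have he0 : 0 ≤ C1 * (x * √x) := by positivity
  have n1 := up_num hκ hv0 hv1 hx0.le hV0 he0 hB1
  have he1 : C1 * (x * √x) ≤ C1 * x := by
    refine mul_le_mul_of_nonneg_left ?_ hC10.le
    calc x * √x ≤ x * 1 := mul_le_mul_of_nonneg_left hsx hx0.le
      _ = x := mul_one x
  have n2 : C1 * (x * √x) * (3 * x + C1 * (x * √x)) ^ 3 / (18 * κ ^ 6) ≤
      C1 * (3 + C1) ^ 3 / (18 * c0 ^ 6) * (x ^ 4 * √x) := by
    have h1 : (3 * x + C1 * (x * √x)) ^ 3 ≤ ((3 + C1) * x) ^ 3 :=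
      pow_le_pow_left₀ (by positivity) (by linarith only [he1]) 3
    have h2 : C1 * (x * √x) * (3 * x + C1 * (x * √x)) ^ 3 ≤
        C1 * (x * √x) * ((3 + C1) * x) ^ 3 := mul_le_mul_of_nonneg_left h1 he0
    have h3 : C1 * (x * √x) * ((3 + C1) * x) ^ 3 = C1 * (3 + C1) ^ 3 * (x ^ 4 * √x) := by ring
    have h4 : 18 * c0 ^ 6 ≤ 18 * κ ^ 6 :=
      mul_le_mul_of_nonneg_left (pow_le_pow_left₀ hc0.le hκ0 6) (by norm_num)
    calc C1 * (x * √x) * (3 * x + C1 * (x * √x)) ^ 3 / (18 * κ ^ 6)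
        ≤ C1 * (3 + C1) ^ 3 * (x ^ 4 * √x) / (18 * κ ^ 6) :=
          div_le_div_of_nonneg_right (by linarith only [h2]) (by positivity)
      _ ≤ C1 * (3 + C1) ^ 3 * (x ^ 4 * √x) / (18 * c0 ^ 6) :=
          div_le_div_of_nonneg_left (by positivity) (by positivity) h4
      _ = C1 * (3 + C1) ^ 3 / (18 * c0 ^ 6) * (x ^ 4 * √x) := by ring
  have n3 : V ≤ (3 + C1) * x / c0 ^ 2 := by
    rw [le_div_iff₀ (by positivity)]
    have h1 := (abs_le.1 hB1).2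
    have h2 : v ^ 3 ≤ 1 := pow_le_one₀ hv0 hv1
    have h3 : 3 * x * v ^ 3 ≤ 3 * x * 1 := mul_le_mul_of_nonneg_left h2 (by positivity)
    have h4 : c0 ^ 2 * V ≤ κ ^ 2 * V :=
      mul_le_mul_of_nonneg_right (pow_le_pow_left₀ hc0.le hκ0 2) hV0
    linarith only [h4, h3, h1, he1]
  have n4 : K * δ * (V ^ 3 / 3) ≤ K * (3 + C1) ^ 3 / (3 * c0 ^ 6) * (x ^ 4 * √x) := by
    have h1 : V ^ 3 ≤ ((3 + C1) * x / c0 ^ 2) ^ 3 := pow_le_pow_left₀ hV0 n3 3
    have h2 : x ^ 40 * x ^ 3 ≤ x ^ 4 * √x := by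
      have h3 : x ^ 38 ≤ 1 := pow_le_one₀ hx0.le hx1
      have h4 : x ^ 40 * x ^ 3 = x ^ 4 * (x * x ^ 38) := by ring
      rw [h4]
      refine mul_le_mul_of_nonneg_left ?_ (by positivity)
      calc x * x ^ 38 ≤ x * 1 := mul_le_mul_of_nonneg_left h3 hx0.le
        _ ≤ √x := by linarith only [hxsx]
    have h5 : K * δ * (V ^ 3 / 3) ≤ K * x ^ 40 * (((3 + C1) * x / c0 ^ 2) ^ 3 / 3) :=
      mul_le_mul (mul_le_mul_of_nonneg_left hδx hK) (by linarith only [h1]) (by positivity) (by positivity)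
    have h6 : K * x ^ 40 * (((3 + C1) * x / c0 ^ 2) ^ 3 / 3) =
        K * (3 + C1) ^ 3 / (3 * c0 ^ 6) * (x ^ 40 * x ^ 3) := by
      field_simp
    rw [h6] at h5
    exact h5.trans (mul_le_mul_of_nonneg_left h2 hA2)
  have n6 : I ≤ 9 / 8 * v ^ 12 / κ ^ 6 * x ^ 4 +
      (C1 + C1 * (3 + C1) ^ 3 / (18 * c0 ^ 6) + K * (3 + C1) ^ 3 / (3 * c0 ^ 6)) *
        (x ^ 4 * √x) := by
    have e1 : (C1 + C1 * (3 + C1) ^ 3 / (18 * c0 ^ 6) + K * (3 + C1) ^ 3 / (3 * c0 ^ 6)) *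
        (x ^ 4 * √x) = C1 * (x ^ 4 * √x) +
        C1 * (3 + C1) ^ 3 / (18 * c0 ^ 6) * (x ^ 4 * √x) +
        K * (3 + C1) ^ 3 / (3 * c0 ^ 6) * (x ^ 4 * √x) := by ring
    rw [e1]
    linarith only [n4, n2, n1, hI]
  have hW0 : 0 ≤ C1 + C1 * (3 + C1) ^ 3 / (18 * c0 ^ 6) + K * (3 + C1) ^ 3 / (3 * c0 ^ 6) := by
    (clear * - hC1 hc0 hK; positivity)
  generalize C1 + C1 * (3 + C1) ^ 3 / (18 * c0 ^ 6) + K * (3 + C1) ^ 3 / (3 * c0 ^ 6) = W at *
  have n7 : 1 / 2 * δ * I ≤ 1 / 2 * δ * (9 / 8 * v ^ 12 / κ ^ 6 * x ^ 4 + W * (x ^ 4 * √x)) :=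
    mul_le_mul_of_nonneg_left n6 (by positivity)
  have n8 : 1 / 2 * δ * (9 / 8 * v ^ 12 / κ ^ 6 * x ^ 4 + W * (x ^ 4 * √x)) =
      δ * (9 / 16 * v ^ 12 / κ ^ 6 * x ^ 4 + W * (x ^ 4 * √x)) -
        1 / 2 * δ * (W * (x ^ 4 * √x)) := by ring
  have n9 : 0 ≤ 1 / 2 * δ * (W * (x ^ 4 * √x)) := by positivity
  linarith only [n9, n8, n7]

/-- The integral of the tilted overlap. -/
theorem up_int {b K : ℝ} {n d : ℕ} {r : ℕ → ℝ} (hK : ∀ (C g g₁ g₂ s₁ : ℝ) (F : ℝ → ℝ), Adm C F →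
      0 < g → g ≤ 1 → 0 < g₁ → g₁ ≤ g₂ → g₂ ≤ 1 → s₁ ≤ b ^ 2 → ∀ τ ∈ Icc 0 s₁,
      Rf g₂ g s₁ F τ ≤ Rf g₁ g s₁ F τ + K * (g₂ - g₁) * τ ^ 2)
    (hr : BPath b n r) (hdn : d + 1 < n) (h0 : ∀ l < d + 1, r l = 0) :
    (∫ τ in (0 : ℝ)..(r (d + 1)),
      Rf (gm n (d + 1 + 1)) (gm n (d + 1)) (r (d + 1)) (Fl n (gm n) r (d + 1)) τ) -
        r (d + 1) ^ 2 / (2 * b ^ 2) ≤
      (∫ s in (0 : ℝ)..(r (d + 1)), (Rb n (gm n) r d s - s / b ^ 2)) +
        K * (1 / ((n : ℝ) + 1)) * (r (d + 1) ^ 3 / 3) := by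
  have hx0 : 0 < gm n (d + 1) := grid_gm_pos (by omega)
  have hx'0 : 0 < gm n (d + 1 + 1) := grid_gm_pos (by omega)
  have hx'1 : gm n (d + 1 + 1) ≤ 1 := by
    unfold gm
    rw [div_le_one (by positivity)]
    have : ((d + 1 + 1 : ℕ) : ℝ) ≤ n := by exact_mod_cast hdn
    linarith only [this]
  have hstep : gm n (d + 1 + 1) - gm n (d + 1) = 1 / ((n : ℝ) + 1) := by
    unfold gm
    push_cast
    ring
  have hδ0 : 0 ≤ 1 / ((n : ℝ) + 1) := by positivity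
  have hxx : gm n (d + 1) ≤ gm n (d + 1 + 1) := by linarith only [hδ0, hstep]
  have hx1 : gm n (d + 1) ≤ 1 := hxx.trans hx'1
  obtain ⟨CG, hG⟩ := up_good hr.2.1 hdn.le (show 1 ≤ d + 1 by omega)
  have hV0 : 0 ≤ r (d + 1) := len_nonneg hr (by omega)
  have hVb : r (d + 1) ≤ b ^ 2 := (len_mono hr (show d + 1 ≤ n by omega) le_rfl).trans hr.2.2
  have c5 : ∀ s ∈ Icc 0 (r (d + 1)),
      Rf (gm n (d + 1 + 1)) (gm n (d + 1)) (r (d + 1)) (Fl n (gm n) r (d + 1)) s ≤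
        Rb n (gm n) r d s + K * (1 / ((n : ℝ) + 1)) * s ^ 2 := by
    intro s hs
    have h1 := hK CG _ _ _ _ _ hG.adm hx0 hx1 hx0 hxx hx'1 hVb s hs
    rw [up_Rb hr.2.1 hr.1 (by omega) h0 hs]
    rw [hstep] at h1
    exact h1
  have hrd : r d = 0 := h0 d (Nat.lt_succ_self _)
  have hRbc : ContinuousOn (Rb n (gm n) r d) (Icc 0 (r (d + 1))) := by
    refine (Rb_cont (gm_exponents n) hr.2.1 (by omega)).mono (Icc_subset_Icc_right ?_)
    rw [hrd, sub_zero]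
  have i1 : IntervalIntegrable (Rb n (gm n) r d) volume 0 (r (d + 1)) :=
    ContinuousOn.intervalIntegrable (by rw [uIcc_of_le hV0]; exact hRbc)
  have i2 : IntervalIntegrable (fun s => K * (1 / ((n : ℝ) + 1)) * s ^ 2) volume 0
      (r (d + 1)) := Continuous.intervalIntegrable (by fun_prop) _ _
  have i3 : IntervalIntegrable (Rf (gm n (d + 1 + 1)) (gm n (d + 1)) (r (d + 1))
      (Fl n (gm n) r (d + 1))) volume 0 (r (d + 1)) :=
    ContinuousOn.intervalIntegrable (by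
      rw [uIcc_of_le hV0]
      exact Rf_cont hG.adm hx0 hx1 hx'0 hx'1)
  have c6 := intervalIntegral.integral_mono_on hV0 i3 (i1.add i2) c5
  have c7 : ∫ s in (0 : ℝ)..(r (d + 1)), (Rb n (gm n) r d s + K * (1 / ((n : ℝ) + 1)) * s ^ 2) =
      (∫ s in (0 : ℝ)..(r (d + 1)), Rb n (gm n) r d s) +
        K * (1 / ((n : ℝ) + 1)) * (r (d + 1) ^ 3 / 3) := by
    rw [intervalIntegral.integral_add i1 i2, intervalIntegral.integral_const_mul, integral_pow]
    norm_num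
  have c8 : ∫ s in (0 : ℝ)..(r (d + 1)), (Rb n (gm n) r d s - s / b ^ 2) =
      (∫ s in (0 : ℝ)..(r (d + 1)), Rb n (gm n) r d s) - r (d + 1) ^ 2 / 2 / b ^ 2 := by
    rw [intervalIntegral.integral_sub i1 (Continuous.intervalIntegrable (by fun_prop) _ _),
      intervalIntegral.integral_div, integral_id]
    norm_num
  have n5 : r (d + 1) ^ 2 / (2 * b ^ 2) = r (d + 1) ^ 2 / 2 / b ^ 2 := by rw [div_div]
  rw [c7] at c6
  rw [c8, n5]
  linarith only [c6]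

theorem up_of {b : ℝ}
    (hB : ∃ c C : ℝ, 0 < c ∧ 1 ≤ C ∧ ∀ (n d : ℕ) (r : ℕ → ℝ),
      1 ≤ d → d ≤ n → IsMinD b n d r → gm n d ≤ c → C ≤ gm n d ^ 40 * (n + 1) →
        |kk n r ^ 2 * r d - 3 * gm n d * vv n r ^ 3| ≤ C * (gm n d * √(gm n d)) ∧
        ∫ s in (0 : ℝ)..(r d), (Rb n (gm n) r (d - 1) s - s / b ^ 2) ≤
          kk n r ^ 2 * r d ^ 4 / 72 + C * (gm n d ^ 4 * √(gm n d)))
    (hV : ∃ c K : ℝ, 0 < c ∧ 1 ≤ K ∧ ∀ (n : ℕ) (r : ℕ → ℝ), BPath b n r →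
      c ≤ vv n r ∧ vv n r ≤ 1 ∧ c ≤ kk n r ∧ kk n r ≤ K) :
    ∃ c C : ℝ, 0 < c ∧ 1 ≤ C ∧ ∀ (n d : ℕ) (r : ℕ → ℝ),
      1 ≤ d → d < n → IsMinD b n d r → gm n d ≤ c → C ≤ gm n d ^ 40 * (n + 1) →
        ∃ r', BPath b n r' ∧ (∀ l < d + 1, r' l = 0) ∧ SKr b n (gm n) r' ≤ SKr b n (gm n) r +
          1 / ((n : ℝ) + 1) * (9 / 16 * vv n r ^ 12 / kk n r ^ 6 * gm n d ^ 4 +
            C * (gm n d ^ 4 * √(gm n d))) := by
  obtain ⟨c1, C1, hc1, hC1, hB⟩ := hB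
  obtain ⟨c0, K0, hc0, hK0, hV⟩ := hV
  obtain ⟨K, hK, htilt⟩ := Rf_tilt4 (b ^ 2)
  have hC10 : 0 < C1 := by linarith
  have hA1 : 0 ≤ C1 * (3 + C1) ^ 3 / (18 * c0 ^ 6) := by positivity
  have hA2 : 0 ≤ K * (3 + C1) ^ 3 / (3 * c0 ^ 6) := by positivity
  refine ⟨min c1 1, C1 + C1 * (3 + C1) ^ 3 / (18 * c0 ^ 6) + K * (3 + C1) ^ 3 / (3 * c0 ^ 6),
    by positivity, by linarith, ?_⟩
  intro n d r hd1 hdn hmin hx hCx
  have hr := hmin.1
  have hCx1 : C1 ≤ gm n d ^ 40 * (n + 1) := by linarith only [hCx, hA2, hA1]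
  obtain ⟨hB1, hB2⟩ := hB n d r hd1 hdn.le hmin (hx.trans (min_le_left _ _)) hCx1
  obtain ⟨hv0, hv1, hκ0, hκ1⟩ := hV n r hr
  obtain ⟨d0, rfl⟩ : ∃ d0, d = d0 + 1 := ⟨d - 1, by omega⟩
  have hrd1 : 0 ≤ r (d0 + 1 + 1) := len_nonneg hr (by omega)
  refine ⟨one_r (d0 + 1 + 1) (d0 + 1 + 1) 0 r,
    one_path hr (by omega) le_rfl (by omega) le_rfl hrd1, fun l hl => by
      unfold one_r
      rw [if_pos hl], ?_⟩
  rw [up_diff hr hd1 hdn hmin.2.1]
  have hn1 : (0 : ℝ) < (n : ℝ) + 1 := by positivity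
  have hx0 : 0 < gm n (d0 + 1) := grid_gm_pos hd1
  have hδx : 1 / ((n : ℝ) + 1) ≤ gm n (d0 + 1) ^ 40 := by
    rw [div_le_iff₀ hn1]
    linarith only [hCx1, hC1]
  have h1 := up_int htilt hr hdn hmin.2.1
  rw [Nat.add_sub_cancel] at hB2
  have h2 := up_real hK hC1 hc0 hκ0 (hc0.le.trans hv0) hv1 hx0 (hx.trans (min_le_right _ _))
    (len_nonneg hr (by omega)) (by positivity : 0 < 1 / ((n : ℝ) + 1)) hδx hB1
    (h1.trans (add_le_add_left hB2 _))
  linarith only [h2]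

end Vale.Agent.P146.Sh
end
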