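import Mathlib
import Vale.Agent.P146.Bd4.B1
import Vale.Agent.P146.Bd3.B4
import Vale.Agent.P146.Bd3.B6

set_option linter.all false

section

/-! # P146, Sh: the second and fourth derivatives at the origin of two paths -/

open MeasureTheory ProbabilityTheory Filter Topology Set

namespace Vale.Agent.P146.Sh

open Vale.Agent.P157.Par
open Vale.Agent.P146.Gap
open Vale.Agent.P146.Pw2
open Vale.Agent.P146.Lb
open Vale.Agent.P367.Cl

lemma kvc_casc {m q q' : ℕ → ℝ} {k : ℕ} (h : ∀ l ≤ k, q l = q' l) (F : ℝ → ℝ) :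
    cascade m q k F = cascade m q' k F := by
  induction k generalizing F with
  | zero => rfl
  | succ k ih =>
    rw [cascade_succ_def, cascade_succ_def, h (k + 1) le_rfl, h k (Nat.le_succ k)]
    exact ih (fun l hl => h l (by omega)) _

lemma kvc_Fl {n L : ℕ} {m r ρ : ℕ → ℝ} (h : ∀ l, L ≤ l → ρ l = r l) :
    Fl n m ρ L = Fl n m r L :=
  kvc_casc (fun l _ => h (L + l) (by omega)) _

lemma kvc_Gb {n L : ℕ} {m r ρ : ℕ → ℝ} (s : ℝ) (h : ∀ l, L + 1 ≤ l → ρ l = r l) :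
    Gb n m ρ L (s - ρ L) = Gb n m r L (s - r L) := by
  unfold Gb
  rw [kvc_Fl h, h (L + 1) le_rfl]
  congr 1
  ring

theorem kvc_of {b : ℝ} (hkv : ∃ C : ℝ, 1 ≤ C ∧ ∀ (n : ℕ) (r : ℕ → ℝ), BPath b n r → ∀ l < n,
    ∀ t ∈ Icc 0 (r (l + 1) - r l),
      |iteratedDeriv 2 (Gb n (gm n) r l t) 0 - vv n r| ≤ C * (r l + t) ∧
      |iteratedDeriv 4 (Gb n (gm n) r l t) 0 + kk n r| ≤ C * √(r l + t)) :
    ∃ C : ℝ, 1 ≤ C ∧ ∀ (n L : ℕ) (s : ℝ) (r ρ : ℕ → ℝ), BPath b n r →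
    BPath b n ρ → 1 ≤ L → L ≤ n → (∀ l, L ≤ l → ρ l = r l) → r (L - 1) ≤ s → ρ (L - 1) ≤ s →
    s ≤ r L → |vv n ρ - vv n r| ≤ C * s ∧ |kk n ρ - kk n r| ≤ C * √s := by
  obtain ⟨C, hC, hk⟩ := hkv
  refine ⟨2 * C, by linarith, ?_⟩
  intro n L s r ρ hr hρ hL hLn he h1 h2 h3
  obtain ⟨l, rfl⟩ : ∃ l, L = l + 1 := ⟨L - 1, by omega⟩
  simp only [Nat.add_sub_cancel] at h1 h2
  have a := hk n r hr l (by omega) (s - r l) ⟨by linarith, by linarith⟩
  have c := hk n ρ hρ l (by omega) (s - ρ l) ⟨by linarith, by rw [he (l + 1) le_rfl]; linarith⟩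
  rw [kvc_Gb s he] at c
  rw [show r l + (s - r l) = s by ring] at a
  rw [show ρ l + (s - ρ l) = s by ring] at c
  obtain ⟨a1, a2⟩ := a
  obtain ⟨c1, c2⟩ := c
  rw [abs_le] at a1 a2 c1 c2
  constructor <;> rw [abs_le] <;> constructor <;> linarith [a1.1, a1.2, a2.1, a2.2, c1.1, c1.2, c2.1, c2.2]

end Vale.Agent.P146.Sh
end

section

/-!
# P146, Sh: real analysis on the first block
-/

open MeasureTheory Set

namespace Vale.Agent.P146.Sh

open Vale.Agent.P146.Lb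

theorem fb_real {R E K y ε : ℝ} {f g g1 : ℝ → ℝ} (hR : 0 < R) (hE : 0 ≤ E)
    (hf : ContinuousOn f (Icc 0 R)) (hg : ContinuousOn g (Icc 0 R))
    (h1 : ∀ t ∈ Ioo 0 R, HasDerivAt f (g t) t) (h2 : ∀ t ∈ Ioo 0 R, HasDerivAt g (g1 t) t)
    (h3 : ∀ t ∈ Ioo 0 R, |g1 t - (K * t - 2 * y)| ≤ E) (hf0 : f 0 = 0) (hfR : f R = 0)
    (hgR : |g R| ≤ ε) :
    |K * R ^ 3 / 3 - y * R ^ 2| ≤ E * R ^ 2 + ε * R ∧
      ∫ t in (0 : ℝ)..R, f t ≤ K * R ^ 4 / 72 + E * R ^ 3 + ε * R ^ 2 := by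
  have dp : ∀ t : ℝ, HasDerivAt (fun t : ℝ => K * t ^ 2 / 2 - 2 * y * t) (K * t - 2 * y) t := by
    intro t
    have e1 := ((hasDerivAt_pow 2 t).const_mul K).div_const 2
    have e2 := (hasDerivAt_id t).const_mul (2 * y)
    refine (e1.sub e2).congr_deriv ?_
    norm_num
    ring
  -- the second derivative
  have hgu : ∀ s ∈ Icc 0 R, g s ≤ (K * s ^ 2 / 2 - 2 * y * s) - (K * R ^ 2 / 2 - 2 * y * R) + g R
      + E * (R - s) := by
    intro s hs
    have := lreal_ge (f := fun t => g t - (K * t ^ 2 / 2 - 2 * y * t))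
      (f' := fun t => g1 t - (K * t - 2 * y)) (a := -E) hs.2
      ((hg.mono (Icc_subset_Icc_left hs.1)).sub (by fun_prop))
      (fun t ht => (h2 t ⟨hs.1.trans_lt ht.1, ht.2⟩).sub (dp t))
      (fun t ht => (abs_le.1 (h3 t ⟨hs.1.trans_lt ht.1, ht.2⟩)).1)
    linarith
  have hgl : ∀ s ∈ Icc 0 R, (K * s ^ 2 / 2 - 2 * y * s) - (K * R ^ 2 / 2 - 2 * y * R) + g R
      - E * (R - s) ≤ g s := by
    intro s hs
    have := lreal_le (f := fun t => g t - (K * t ^ 2 / 2 - 2 * y * t))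
      (f' := fun t => g1 t - (K * t - 2 * y)) (a := E) hs.2
      ((hg.mono (Icc_subset_Icc_left hs.1)).sub (by fun_prop))
      (fun t ht => (h2 t ⟨hs.1.trans_lt ht.1, ht.2⟩).sub (dp t))
      (fun t ht => (abs_le.1 (h3 t ⟨hs.1.trans_lt ht.1, ht.2⟩)).2)
    linarith
  -- the function
  set q : ℝ → ℝ := fun t => (K * t ^ 3 / 6 - y * t ^ 2) - (K * R ^ 3 / 6 - y * R ^ 2)
    - ((K * R ^ 2 / 2 - 2 * y * R) - g R) * (t - R) with hq
  have dq : ∀ t : ℝ, HasDerivAt q ((K * t ^ 2 / 2 - 2 * y * t)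
      - ((K * R ^ 2 / 2 - 2 * y * R) - g R)) t := by
    intro t
    have e1 := ((hasDerivAt_pow 3 t).const_mul K).div_const 6
    have e2 := (hasDerivAt_pow 2 t).const_mul y
    have e3 := ((hasDerivAt_id t).sub_const R).const_mul ((K * R ^ 2 / 2 - 2 * y * R) - g R)
    refine (((e1.sub e2).sub_const (K * R ^ 3 / 6 - y * R ^ 2)).sub e3).congr_deriv ?_
    norm_num
    ring
  have de : ∀ t : ℝ, HasDerivAt (fun t : ℝ => E * (R - t) ^ 2 / 2) (-(E * (R - t))) t := by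
    intro t
    have e1 := ((((hasDerivAt_id t).const_sub R).pow 2).const_mul E).div_const 2
    refine e1.congr_deriv ?_
    norm_num
    ring
  have hqR : q R = 0 := by simp [hq]
  have hq0 : q 0 = K * R ^ 3 / 3 - y * R ^ 2 - g R * R := by
    simp only [hq]
    ring
  have hfu : ∀ s ∈ Icc 0 R, f s ≤ q s + E * (R - s) ^ 2 / 2 := by
    intro s hs
    have := lreal_ge (f := fun t => f t - q t - E * (R - t) ^ 2 / 2)
      (f' := fun t => g t - ((K * t ^ 2 / 2 - 2 * y * t)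
      - ((K * R ^ 2 / 2 - 2 * y * R) - g R)) - (-(E * (R - t)))) (a := 0) hs.2
      (((hf.mono (Icc_subset_Icc_left hs.1)).sub (by
        rw [hq]
        fun_prop)).sub (by fun_prop))
      (fun t ht => ((h1 t ⟨hs.1.trans_lt ht.1, ht.2⟩).sub (dq t)).sub (de t))
      (fun t ht => by
        have := hgl t ⟨hs.1.trans ht.1.le, ht.2.le⟩
        linarith only [this])
    simp only [hfR, hqR] at this
    have e : E * (R - R) ^ 2 / 2 = 0 := by ring
    linarith only [this]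
  have hfl : ∀ s ∈ Icc 0 R, q s - E * (R - s) ^ 2 / 2 ≤ f s := by
    intro s hs
    have := lreal_le (f := fun t => f t - q t + E * (R - t) ^ 2 / 2)
      (f' := fun t => g t - ((K * t ^ 2 / 2 - 2 * y * t)
      - ((K * R ^ 2 / 2 - 2 * y * R) - g R)) + (-(E * (R - t)))) (a := 0) hs.2
      (((hf.mono (Icc_subset_Icc_left hs.1)).sub (by
        rw [hq]
        fun_prop)).add (by fun_prop))
      (fun t ht => ((h1 t ⟨hs.1.trans_lt ht.1, ht.2⟩).sub (dq t)).add (de t))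
      (fun t ht => by
        have := hgu t ⟨hs.1.trans ht.1.le, ht.2.le⟩
        linarith only [this])
    simp only [hfR, hqR] at this
    have e : E * (R - R) ^ 2 / 2 = 0 := by ring
    linarith
  have h0u := hfu 0 ⟨le_rfl, hR.le⟩
  have h0l := hfl 0 ⟨le_rfl, hR.le⟩
  rw [hf0, hq0, sub_zero] at h0u h0l
  have hg1 : g R * R ≤ ε * R := mul_le_mul_of_nonneg_right (abs_le.1 hgR).2 hR.le
  have hg2 : -(ε * R) ≤ g R * R := by
    have := mul_le_mul_of_nonneg_right (abs_le.1 hgR).1 hR.le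
    linarith
  have hER : 0 ≤ E * R ^ 2 := by positivity
  refine ⟨abs_le.2 ⟨by linarith only [hER, hg2, h0u], by linarith only [hER, hg1, h0l]⟩, ?_⟩
  -- the integral
  have hint : ∫ t in (0 : ℝ)..R, f t ≤ ∫ t in (0 : ℝ)..R, (q t + E * (R - t) ^ 2 / 2) := by
    refine intervalIntegral.integral_mono_on hR.le ?_ ?_ hfu
    · refine ContinuousOn.intervalIntegrable ?_
      rwa [uIcc_of_le hR.le]
    · refine Continuous.intervalIntegrable ?_ _ _
      rw [hq]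
      fun_prop
  have hval : ∫ t in (0 : ℝ)..R, (q t + E * (R - t) ^ 2 / 2) =
      K * R ^ 4 / 8 - y * R ^ 3 / 3 - g R * R ^ 2 / 2 + E * R ^ 3 / 6 := by
    have dQ : ∀ t ∈ uIcc 0 R, HasDerivAt (fun t : ℝ => (K * t ^ 4 / 24 - y * t ^ 3 / 3)
        - (K * R ^ 3 / 6 - y * R ^ 2) * t
        - ((K * R ^ 2 / 2 - 2 * y * R) - g R) * (t - R) ^ 2 / 2 - E * (R - t) ^ 3 / 6)
        (q t + E * (R - t) ^ 2 / 2) t := by
      intro t _
      have e1 := ((hasDerivAt_pow 4 t).const_mul K).div_const 24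
      have e2 := ((hasDerivAt_pow 3 t).const_mul y).div_const 3
      have e3 := (hasDerivAt_id t).const_mul (K * R ^ 3 / 6 - y * R ^ 2)
      have e4 := ((((hasDerivAt_id t).sub_const R).pow 2).const_mul
        ((K * R ^ 2 / 2 - 2 * y * R) - g R)).div_const 2
      have e5 := ((((hasDerivAt_id t).const_sub R).pow 3).const_mul E).div_const 6
      refine ((((e1.sub e2).sub e3).sub e4).sub e5).congr_deriv ?_
      simp only [hq, id]
      norm_num
      ring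
    rw [intervalIntegral.integral_eq_sub_of_hasDerivAt dQ ?_]
    · ring
    · refine Continuous.intervalIntegrable ?_ _ _
      rw [hq]
      fun_prop
  rw [hval] at hint
  have h5 : K * R ^ 4 / 8 - y * R ^ 3 / 3 - g R * R ^ 2 / 2 + E * R ^ 3 / 6 =
      K * R ^ 4 / 72 + (K * R ^ 3 / 3 - y * R ^ 2 - g R * R) * R / 3 - g R * R * R / 6
        + E * R ^ 3 / 6 := by ring
  have h6 : (K * R ^ 3 / 3 - y * R ^ 2 - g R * R) * R / 3 ≤ E * R ^ 2 / 2 * R / 3 := by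
    have : (K * R ^ 3 / 3 - y * R ^ 2 - g R * R) * R ≤ E * R ^ 2 / 2 * R :=
      mul_le_mul_of_nonneg_right (by linarith only [h0l]) hR.le
    linarith only [this]
  have h7 : -(g R * R * R / 6) ≤ ε * R * R / 6 := by
    have : -(ε * R) * R ≤ g R * R * R := mul_le_mul_of_nonneg_right hg2 hR.le
    linarith only [this]
  have h8 : 0 ≤ E * R ^ 3 := by positivity
  have hε : 0 ≤ ε := (abs_nonneg _).trans hgR
  have h9 : 0 ≤ ε * R ^ 2 := by positivity
  have h10 : E * R ^ 2 / 2 * R / 3 = E * R ^ 3 / 6 := by ring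
  have h11 : ε * R * R / 6 = ε * R ^ 2 / 6 := by ring
  rw [h10] at h6
  rw [h11] at h7
  linarith only [h9, h8, h7, h6, hint]

end Vale.Agent.P146.Sh
end

section

/-!
# P146, Sh: the law of the first block (over the statements of `lawA` and `m1e`)
-/

open MeasureTheory ProbabilityTheory Filter Topology Set

namespace Vale.Agent.P146.Sh

open Vale.Agent.P157.Par
open Vale.Agent.P146.Gap
open Vale.Agent.P146.Pw2
open Vale.Agent.P146.Lb
open Vale.Agent.P367.Cl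

/-- powers of `x` below `x √x` -/
theorem lawb_pow {x : ℝ} (hx : 0 < x) (hx1 : x ≤ 1) {k : ℕ} (hk : 2 ≤ k) : x ^ k ≤ x * √x := by
  have h1 : x ^ k ≤ x ^ 2 := pow_le_pow_of_le_one hx.le hx1 hk
  have h2 : x ≤ √x := Real.le_sqrt_of_sq_le (by nlinarith)
  calc x ^ k ≤ x ^ 2 := h1
    _ = x * x := by ring
    _ ≤ x * √x := mul_le_mul_of_nonneg_left h2 hx.le

theorem lawb_sqrt {x D : ℝ} (hx : 0 ≤ x) (hD : 1 ≤ D) :
    (D * x) * √(D * x) ≤ D ^ 2 * (x * √x) := by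
  have h1 : √(D * x) = √D * √x := Real.sqrt_mul (by linarith) x
  have h2 : √D ≤ D := by
    rw [Real.sqrt_le_left (by linarith)]
    nlinarith
  rw [h1]
  have h3 : √D * √x ≤ D * √x := mul_le_mul_of_nonneg_right h2 (Real.sqrt_nonneg x)
  calc D * x * (√D * √x) ≤ D * x * (D * √x) :=
        mul_le_mul_of_nonneg_left h3 (by positivity)
    _ = D ^ 2 * (x * √x) := by ring

theorem lawB_of {b : ℝ} (hb : 1 < b)
    (hlawA : ∃ c C : ℝ, 0 < c ∧ 1 ≤ C ∧ ∀ (n d : ℕ) (r : ℕ → ℝ),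
    1 ≤ d → d ≤ n → IsMinD b n d r → gm n d ≤ c → C ≤ gm n d ^ 40 * (n + 1) →
      c * gm n d ≤ r d ∧ r d ≤ C * gm n d ∧ 2 * C * gm n d ≤ r n ∧
      ∀ l, d ≤ l → l < n → ∀ t ∈ Icc 0 (r (l + 1) - r l),
        |Mb n (gm n) r l t - 1 / b ^ 2| ≤ gm n d ^ 8)
    (hm1e : ∃ C : ℝ, 1 ≤ C ∧ ∀ (n : ℕ) (X : ℝ) (r : ℕ → ℝ), BPath b n r → 0 < X →
    X ≤ 1 → ∀ l < n, gm n (l + 1) ≤ X → ∀ t ∈ Icc 0 (r (l + 1) - r l), r l + t ≤ X →
      |M1b n (gm n) r l t - (kk n r ^ 2 * (r l + t) - 2 * gm n (l + 1) * vv n r ^ 3)| ≤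
        C * (X * √X)) :
    ∃ c C : ℝ, 0 < c ∧ 1 ≤ C ∧ ∀ (n d : ℕ) (r : ℕ → ℝ),
    1 ≤ d → d ≤ n → IsMinD b n d r → gm n d ≤ c → C ≤ gm n d ^ 40 * (n + 1) →
      |kk n r ^ 2 * r d - 3 * gm n d * vv n r ^ 3| ≤ C * (gm n d * √(gm n d)) ∧
      ∫ s in (0 : ℝ)..(r d), (Rb n (gm n) r (d - 1) s - s / b ^ 2) ≤
        kk n r ^ 2 * r d ^ 4 / 72 + C * (gm n d ^ 4 * √(gm n d)) := by
  obtain ⟨c₁, C₁, hc₁, hC₁, hA⟩ := hlawA
  obtain ⟨C₂, hC₂, hM⟩ := hm1e
  have hb2 : 0 < b ^ 2 := by positivity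
  -- constants
  set E₀ := C₂ * C₁ ^ 2 with hE₀
  have hE₀1 : 1 ≤ E₀ := by
    have : 1 ≤ C₁ ^ 2 := one_le_pow₀ hC₁
    linarith only [mul_nonneg (sq_nonneg (C₁ : ℝ)) (sub_nonneg.2 hC₂), this]
  set Cf := 3 * E₀ + 3 / c₁ + E₀ * C₁ ^ 3 + C₁ ^ 2 + C₁ with hCf
  have hp1 : 0 < 3 / c₁ := by positivity
  have hp2 : 0 ≤ E₀ * C₁ ^ 3 := by positivity
  have hp3 : 0 ≤ C₁ ^ 2 := by positivity
  refine ⟨min c₁ (1 / C₁), Cf, by positivity, by rw [hCf]; linarith only [hp3, hp2, hp1, hE₀1, hC₁],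
    fun n d r hd1 hdn hmin hx hC => ?_⟩
  set x := gm n d with hxdef
  have hx0 : 0 < x := grid_gm_pos hd1
  have hxc : x ≤ c₁ := hx.trans (min_le_left _ _)
  have hxC : C₁ * x ≤ 1 := by
    have h1 : x ≤ 1 / C₁ := hx.trans (min_le_right _ _)
    rw [le_div_iff₀ (by linarith only [hC₁])] at h1
    linarith only [h1]
  have hx1 : x ≤ 1 := by linarith only [mul_nonneg (sub_nonneg.2 hC₁) (le_of_lt (sub_pos.2 hx0)), hxC]
  have hr := hmin.1
  have hm := gm_exponents n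
  have hC1x : C₁ ≤ x ^ 40 * (n + 1) := by
    refine le_trans ?_ hC
    rw [hCf]
    linarith only [hp3, hp2, hp1, hE₀1]
  obtain ⟨hA1, hA2, hA3, hA4⟩ := hA n d r hd1 hdn hmin hxc hC1x
  have hdn' : d < n := by
    rcases hdn.lt_or_eq with h | h
    · exact h
    · exfalso
      have h' : r d = r n := by rw [h]
      rw [h'] at hA2
      have : 0 < C₁ * x := by positivity
      have h'' : 2 * C₁ * x = 2 * (C₁ * x) := by ring
      linarith only [this, hA3, hA2]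
  obtain ⟨l, rfl⟩ : ∃ l, d = l + 1 := ⟨d - 1, by omega⟩
  have hln : l < n := by omega
  rw [Nat.add_sub_cancel]
  have hrl : r l = 0 := hmin.2.1 l (Nat.lt_succ_self l)
  set R := r (l + 1) with hRdef
  have eR : r (l + 1) - r l = R := by rw [hrl, sub_zero]
  have hR0 : 0 < R := (by positivity : 0 < c₁ * x).trans_le hA1
  have hX0 : 0 < C₁ * x := by positivity
  -- data
  have hfc : ContinuousOn (fun s => Rb n (gm n) r l s - s / b ^ 2) (Icc 0 R) := by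
    have := Rb_cont hm hr.2.1 hln
    rw [eR] at this
    exact this.sub (by fun_prop)
  have hgc : ContinuousOn (fun s => Mb n (gm n) r l s - 1 / b ^ 2) (Icc 0 R) := by
    have := Mb_cont hm hr.2.1 hln
    rw [eR] at this
    exact this.sub (by fun_prop)
  have h1 : ∀ t ∈ Ioo 0 R, HasDerivAt (fun s => Rb n (gm n) r l s - s / b ^ 2)
      (Mb n (gm n) r l t - 1 / b ^ 2) t := fun t ht =>
    (Rb_deriv hm hr.2.1 hln (by rw [eR]; exact ht)).sub ((hasDerivAt_id t).div_const _)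
  have h2 : ∀ t ∈ Ioo 0 R, HasDerivAt (fun s => Mb n (gm n) r l s - 1 / b ^ 2)
      (M1b n (gm n) r l t) t := fun t ht =>
    (Mb_deriv hm hr.2.1 hln (by rw [eR]; exact ht)).sub_const _
  have h3 : ∀ t ∈ Ioo 0 R, |M1b n (gm n) r l t - (kk n r ^ 2 * t - 2 * (x * vv n r ^ 3))| ≤
      E₀ * (x * √x) := fun t ht => by
    have e1 := hM n (C₁ * x) r hr hX0 hxC l hln (by
        have : gm n (l + 1) = x := rfl
        rw [this]
        (by_contra nlg; linarith only [nlg, mul_nonneg (sub_nonneg.2 hC₁) (le_of_lt (sub_pos.2 hx0)), mul_pos (sub_pos.2 (not_le.1 nlg)) (sub_pos.2 hX0), mul_nonneg (le_of_lt (sub_pos.2 (not_le.1 nlg))) (sub_nonneg.2 hxC)])) t (by rw [eR]; exact ⟨ht.1.le, ht.2.le⟩) (by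
        rw [hrl, zero_add]
        linarith [ht.2])
    rw [hrl, zero_add] at e1
    have e2 : C₂ * (C₁ * x * √(C₁ * x)) ≤ C₂ * (C₁ ^ 2 * (x * √x)) :=
      mul_le_mul_of_nonneg_left (lawb_sqrt hx0.le hC₁) (by linarith)
    have e3 : C₂ * (C₁ ^ 2 * (x * √x)) = E₀ * (x * √x) := by rw [hE₀]; ring
    have e4 : kk n r ^ 2 * t - 2 * (x * vv n r ^ 3) =
      kk n r ^ 2 * t - 2 * gm n (l + 1) * vv n r ^ 3 := by rw [hxdef]; ring
    rw [e4]
    linarith
  have hf0 : Rb n (gm n) r l 0 - 0 / b ^ 2 = 0 := by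
    rw [Rb_zero hm hr.2.1 hln, spR_zero hm hr.2.1 hr.1 hln.le hrl]
    simp
  have hst := statD (by linarith) hmin (l + 1) hdn
  have hfR : Rb n (gm n) r l R - R / b ^ 2 = 0 := by
    have e1 := Rb_last hm hr.2.1 hln
    rw [eR] at e1
    rw [e1, hRdef, hst]
    field_simp
    simp
  have hgR : |Mb n (gm n) r l R - 1 / b ^ 2| ≤ x ^ 8 := by
    have e1 := Mb_last hm hr.2.1 hln
    rw [eR] at e1
    rw [e1, ← Mb_zero hm hr.2.1 hdn']
    refine hA4 (l + 1) le_rfl hdn' 0 ⟨le_rfl, ?_⟩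
    have := len_mono hr (Nat.le_succ (l + 1)) hdn'
    linarith only [this]
  have hxs : 0 ≤ x * √x := by positivity
  obtain ⟨hf1, hf2⟩ := fb_real (y := x * vv n r ^ 3) (K := kk n r ^ 2) (E := E₀ * (x * √x))
    (ε := x ^ 8) hR0 (by positivity) hfc hgc h1 h2 h3 hf0 hfR hgR
  constructor
  · -- the law
    have e1 : kk n r ^ 2 * R ^ 3 / 3 - x * vv n r ^ 3 * R ^ 2 =
        (kk n r ^ 2 * R - 3 * x * vv n r ^ 3) * (R ^ 2 / 3) := by ring
    rw [e1, abs_mul, abs_of_nonneg (by positivity : (0 : ℝ) ≤ R ^ 2 / 3)] at hf1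
    have e2 : |kk n r ^ 2 * R - 3 * x * vv n r ^ 3| ≤ 3 * (E₀ * (x * √x)) + 3 * (x ^ 8 / R) := by
      have e3 : E₀ * (x * √x) * R ^ 2 + x ^ 8 * R =
          (3 * (E₀ * (x * √x)) + 3 * (x ^ 8 / R)) * (R ^ 2 / 3) := by
        field_simp
      rw [e3] at hf1
      exact le_of_mul_le_mul_right hf1 (by positivity)
    have e4 : x ^ 8 / R ≤ 1 / c₁ * (x * √x) := by
      have e5 : x ^ 8 / R ≤ x ^ 8 / (c₁ * x) :=
        div_le_div_of_nonneg_left (by positivity) (by positivity) hA1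
      have e6 : x ^ 8 / (c₁ * x) = 1 / c₁ * x ^ 7 := by
        field_simp
      rw [e6] at e5
      exact e5.trans (mul_le_mul_of_nonneg_left (lawb_pow hx0 hx1 (by norm_num)) (by positivity))
    have e7 : 3 * (E₀ * (x * √x)) + 3 * (1 / c₁ * (x * √x)) = (3 * E₀ + 3 / c₁) * (x * √x) := by
      ring
    have e8 : (3 * E₀ + 3 / c₁) * (x * √x) ≤ Cf * (x * √x) :=
      mul_le_mul_of_nonneg_right (by rw [hCf]; linarith only [hp3, hp2, hC₁]) hxs
    linarith only [e8, e7, e4, e2]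
  · -- the integral
    refine hf2.trans ?_
    have e1 : E₀ * (x * √x) * R ^ 3 ≤ E₀ * C₁ ^ 3 * (x ^ 4 * √x) := by
      have e2 : R ^ 3 ≤ (C₁ * x) ^ 3 := pow_le_pow_left₀ hR0.le hA2 3
      calc E₀ * (x * √x) * R ^ 3 ≤ E₀ * (x * √x) * (C₁ * x) ^ 3 :=
            mul_le_mul_of_nonneg_left e2 (by positivity)
        _ = E₀ * C₁ ^ 3 * (x ^ 4 * √x) := by ring
    have e3 : x ^ 8 * R ^ 2 ≤ C₁ ^ 2 * (x ^ 4 * √x) := by
      have e4 : R ^ 2 ≤ (C₁ * x) ^ 2 := pow_le_pow_left₀ hR0.le hA2 2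
      have e5 : x ^ 7 ≤ x * √x := lawb_pow hx0 hx1 (by norm_num)
      calc x ^ 8 * R ^ 2 ≤ x ^ 8 * (C₁ * x) ^ 2 :=
            mul_le_mul_of_nonneg_left e4 (by positivity)
        _ = C₁ ^ 2 * x ^ 3 * x ^ 7 := by ring
        _ ≤ C₁ ^ 2 * x ^ 3 * (x * √x) := mul_le_mul_of_nonneg_left e5 (by positivity)
        _ = C₁ ^ 2 * (x ^ 4 * √x) := by ring
    have e6 : (E₀ * C₁ ^ 3 + C₁ ^ 2) * (x ^ 4 * √x) ≤ Cf * (x ^ 4 * √x) :=
      mul_le_mul_of_nonneg_right (by rw [hCf]; linarith only [hp1, hE₀1, hC₁]) (by positivity)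
    linarith only [e6, e3, e1]

end Vale.Agent.P146.Sh
end

section

/-!
# P146, Sh: the competitor: sums of positive parts, the intermediate value theorem
-/

open MeasureTheory ProbabilityTheory Filter Topology Set

namespace Vale.Agent.P146.Sh

/-! ### Telescoping sums of positive parts -/

theorem comp_step1 {c y : ℝ} (hc : 0 ≤ c) :
    max y 0 ^ 2 - max (y - c) 0 ^ 2 ≤ 2 * c * max y 0 := by
  rcases le_total y 0 with h | h
  · rw [max_eq_right h, max_eq_right (by linarith)]; simp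
  · rcases le_total y c with h' | h'
    · rw [max_eq_left h, max_eq_right (by linarith)]; linarith only [mul_nonneg (sub_nonneg.2 h) (sub_nonneg.2 h'), mul_nonneg (sub_nonneg.2 h) (sub_nonneg.2 h)]
    · rw [max_eq_left h, max_eq_left (by linarith)]; linarith only [mul_nonneg (sub_nonneg.2 hc) (sub_nonneg.2 hc)]

theorem comp_step2 {c y : ℝ} (hc : 0 ≤ c) :
    max (y - c) 0 ^ 2 + 2 * c * max (y - c) 0 ≤ max y 0 ^ 2 := by
  rcases le_total y c with h' | h'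
  · rw [max_eq_right (by linarith : y - c ≤ 0)]
    have := sq_nonneg (max y 0)
    linarith
  · rw [max_eq_left (by linarith : (0:ℝ) ≤ y - c), max_eq_left (by linarith)]; linarith only [mul_nonneg (sub_nonneg.2 hc) (sub_nonneg.2 hc)]

theorem comp_step3 {c y : ℝ} (hc : 0 ≤ c) :
    max y 0 ^ 3 - max (y - c) 0 ^ 3 ≤ 3 * c * max y 0 ^ 2 := by
  rcases le_total y 0 with h | h
  · rw [max_eq_right h, max_eq_right (by linarith)]; simp
  · rcases le_total y c with h' | h'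
    · rw [max_eq_left h, max_eq_right (by linarith)]
      linarith only [mul_nonneg (sq_nonneg y) hc, mul_nonneg (sq_nonneg y) (sub_nonneg.2 h')]
    · rw [max_eq_left h, max_eq_left (by linarith)]
      have : y ^ 3 - (y - c) ^ 3 = c * (y ^ 2 + y * (y - c) + (y - c) ^ 2) := by ring
      rw [this]
      have h1 : y ^ 2 + y * (y - c) + (y - c) ^ 2 ≤ 3 * y ^ 2 := by linarith only [mul_nonneg (sub_nonneg.2 hc) (sub_nonneg.2 h'), mul_nonneg (sub_nonneg.2 hc) (sub_nonneg.2 h)]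
      linarith only [mul_nonneg (sub_nonneg.2 hc) (sub_nonneg.2 h1)]

theorem comp_step4 {c y : ℝ} (hc : 0 ≤ c) :
    max (y - c) 0 ^ 3 + 3 * c * max (y - c) 0 ^ 2 ≤ max y 0 ^ 3 := by
  rcases le_total y c with h' | h'
  · rw [max_eq_right (by linarith : y - c ≤ 0)]; simp
  · rw [max_eq_left (by linarith : (0:ℝ) ≤ y - c), max_eq_left (by linarith)]
    have hy : 0 ≤ y - c := by linarith
    obtain ⟨t, ht⟩ : ∃ t, t = y - c := ⟨_, rfl⟩
    have hy' : y = t + c := by linarith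
    rw [← ht] at hy ⊢
    rw [hy']
    linarith only [pow_nonneg hc 3, mul_nonneg hy (sq_nonneg c)]

theorem comp_arg (w c : ℝ) (L : ℕ) : w - c * ((L + 1 : ℕ) : ℝ) = w - c * L - c := by
  push_cast; ring

theorem comp_sum1 {c : ℝ} (hc : 0 ≤ c) (w : ℝ) (L : ℕ) :
    max w 0 ^ 2 - max (w - c * L) 0 ^ 2 ≤
      2 * c * ∑ j ∈ Finset.range L, max (w - c * j) 0 := by
  induction L with
  | zero => simp
  | succ L ih =>
    rw [Finset.sum_range_succ, comp_arg]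
    have := comp_step1 (y := w - c * L) hc
    linarith [mul_add (2 * c) (∑ j ∈ Finset.range L, max (w - c * j) 0) (max (w - c * L) 0)]

theorem comp_sum2 {c : ℝ} (hc : 0 ≤ c) (w : ℝ) (L : ℕ) :
    2 * c * ∑ j ∈ Finset.range L, max (w - c * j) 0 ≤
      max w 0 ^ 2 - max (w - c * L) 0 ^ 2 + 2 * c * (max w 0 - max (w - c * L) 0) := by
  induction L with
  | zero => simp
  | succ L ih =>
    rw [Finset.sum_range_succ, comp_arg]
    have := comp_step2 (y := w - c * L) hc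
    linarith only [this, ih]

theorem comp_sum3 {c : ℝ} (hc : 0 ≤ c) (w : ℝ) (L : ℕ) :
    max w 0 ^ 3 - max (w - c * L) 0 ^ 3 ≤
      3 * c * ∑ j ∈ Finset.range L, max (w - c * j) 0 ^ 2 := by
  induction L with
  | zero => simp
  | succ L ih =>
    rw [Finset.sum_range_succ, comp_arg]
    have := comp_step3 (y := w - c * L) hc
    linarith [mul_add (3 * c) (∑ j ∈ Finset.range L, max (w - c * j) 0 ^ 2)
      (max (w - c * L) 0 ^ 2)]

theorem comp_sum4 {c : ℝ} (hc : 0 ≤ c) (w : ℝ) (L : ℕ) :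
    3 * c * ∑ j ∈ Finset.range L, max (w - c * j) 0 ^ 2 ≤
      max w 0 ^ 3 - max (w - c * L) 0 ^ 3 +
        3 * c * (max w 0 ^ 2 - max (w - c * L) 0 ^ 2) := by
  induction L with
  | zero => simp
  | succ L ih =>
    rw [Finset.sum_range_succ, comp_arg]
    have := comp_step4 (y := w - c * L) hc
    linarith only [this, ih]

theorem comp_id1 {R u y : ℝ} (huR : u ≤ R) :
    R - max u (min R y) = max (R - y) 0 - max (u - y) 0 := by
  rcases le_total y u with h | h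
  · rw [min_eq_right (h.trans huR), max_eq_left h, max_eq_left (by linarith),
      max_eq_left (by linarith)]; ring
  · rcases le_total y R with h' | h'
    · rw [min_eq_right h', max_eq_right h, max_eq_left (by linarith),
        max_eq_right (by linarith)]; ring
    · rw [min_eq_left h', max_eq_right huR, max_eq_right (by linarith),
        max_eq_right (by linarith)]
      ring

theorem comp_id2 (R y : ℝ) :
    R ^ 2 - min R y ^ 2 = 2 * R * max (R - y) 0 - max (R - y) 0 ^ 2 := by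
  rcases le_total y R with h | h
  · rw [min_eq_right h, max_eq_left (by linarith)]; ring
  · rw [min_eq_left h, max_eq_right (by linarith)]; ring

/-! ### The slope `c` -/

theorem comp_ivt {L d : ℕ} {R : ℝ} (hR : 0 < R) (hd : 1 ≤ d) (hdL : d < L) :
    ∃ c : ℝ, 0 < c ∧ ∑ l ∈ Finset.range L, min R (c * l) ^ 2 = ((L : ℝ) - d) * R ^ 2 := by
  set f : ℝ → ℝ := fun c => ∑ l ∈ Finset.range L, min R (c * l) ^ 2 with hf
  have hfc : Continuous f := by fun_prop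
  have h0 : f 0 = 0 := by
    simp [hf, min_eq_right hR.le]
  have hL : (d : ℝ) < L := by exact_mod_cast hdL
  have hd' : (1 : ℝ) ≤ d := by exact_mod_cast hd
  have h1 : ((L : ℝ) - d) * R ^ 2 ≤ f R := by
    have h2 : ∀ l ∈ Finset.range L, (if l = 0 then 0 else R ^ 2) ≤ min R (R * (l : ℝ)) ^ 2 := by
      intro l _
      split_ifs with h
      · (clear * -; positivity)
      · have : (1 : ℝ) ≤ l := by exact_mod_cast Nat.one_le_iff_ne_zero.2 h
        rw [min_eq_left (by linarith only [mul_nonneg (le_of_lt (sub_pos.2 hR)) (sub_nonneg.2 this)])]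
    have h3 := Finset.sum_le_sum h2
    have h4 : ∑ l ∈ Finset.range L, (if l = 0 then 0 else R ^ 2) = ((L : ℝ) - 1) * R ^ 2 := by
      obtain ⟨M, rfl⟩ : ∃ M, L = M + 1 := ⟨L - 1, by omega⟩
      rw [Finset.sum_range_succ']
      simp
    rw [h4] at h3
    refine le_trans ?_ h3
    linarith only [mul_nonneg (sub_nonneg.2 hd') (sq_nonneg R)]
  have h5 : ((L : ℝ) - d) * R ^ 2 ∈ Icc (f 0) (f R) := by
    rw [h0]
    exact ⟨by have := sq_nonneg R; linarith only [mul_nonneg (le_of_lt (sub_pos.2 hL)) (sub_nonneg.2 this)], h1⟩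
  obtain ⟨c, hc, hfc'⟩ := intermediate_value_Icc hR.le hfc.continuousOn h5
  refine ⟨c, ?_, hfc'⟩
  rcases hc.1.lt_or_eq with h | h
  · exact h
  · exfalso
    rw [← h, h0] at hfc'
    have : 0 < ((L : ℝ) - d) * R ^ 2 := by
      have : (0 : ℝ) < L - d := by linarith
      positivity
    linarith only [this, hfc']

end Vale.Agent.P146.Sh
end

section

/-!
# P146, Sh: the competitor `ρ l = min R (c l)`

`c` is chosen by the intermediate value theorem so that `∑ ρ² = (L - d) R²`; then `c` is close to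
`2 R / (3 d)`, and the area function is close to `a (R² - u²)`.
-/

open MeasureTheory ProbabilityTheory Filter Topology Set

namespace Vale.Agent.P146.Sh

/-- The basic relation between `c`, `R` and `y = (R - c L)⁺`. -/
private theorem comp_rel {L d : ℕ} {R c : ℝ} (hR : 0 < R) (hc : 0 < c)
    (hs : ∑ l ∈ Finset.range L, min R (c * l) ^ 2 = ((L : ℝ) - d) * R ^ 2) :
    c * d * R ^ 2 ≤ 2 / 3 * R ^ 3 - R * max (R - c * L) 0 ^ 2 + max (R - c * L) 0 ^ 3 / 3 +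
        2 * c * R ^ 2 ∧
      2 / 3 * R ^ 3 - R * max (R - c * L) 0 ^ 2 + max (R - c * L) 0 ^ 3 / 3 - c * R ^ 2 ≤
        c * d * R ^ 2 := by
  have h1 : (d : ℝ) * R ^ 2 = 2 * R * ∑ j ∈ Finset.range L, max (R - c * j) 0 -
      ∑ j ∈ Finset.range L, max (R - c * j) 0 ^ 2 := by
    rw [Finset.mul_sum, ← Finset.sum_sub_distrib]
    have h0 : ∀ j ∈ Finset.range L, 2 * R * max (R - c * (j : ℝ)) 0 -
        max (R - c * (j : ℝ)) 0 ^ 2 = R ^ 2 - min R (c * (j : ℝ)) ^ 2 :=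
      fun j _ => (comp_id2 R (c * j)).symm
    rw [Finset.sum_congr rfl h0]
    rw [Finset.sum_sub_distrib, hs]
    simp
    ring
  have hP1 := comp_sum1 hc.le R L
  have hP2 := comp_sum2 hc.le R L
  have hP3 := comp_sum3 hc.le R L
  have hP4 := comp_sum4 hc.le R L
  rw [max_eq_left hR.le] at hP1 hP2 hP3 hP4
  set P := ∑ j ∈ Finset.range L, max (R - c * j) 0
  set Q := ∑ j ∈ Finset.range L, max (R - c * j) 0 ^ 2
  have hy : 0 ≤ max (R - c * L) 0 := le_max_right _ _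
  set y := max (R - c * L) 0
  have h2 : c * d * R ^ 2 = R * (2 * c * P) - (3 * c * Q) / 3 := by
    rw [mul_assoc, h1]; ring
  rw [h2]
  have h3 := mul_le_mul_of_nonneg_left hP1 hR.le
  have h4 := mul_le_mul_of_nonneg_left hP2 hR.le
  constructor
  · linarith only [mul_nonneg (mul_nonneg hc.le hR.le) hy, h4, hP3]
  · linarith only [mul_nonneg hc.le (sq_nonneg y), h3, hP4]

/-- `y` is small. -/
private theorem comp_y {L d : ℕ} {R c D s : ℝ} (hR : 0 < R) (hc : 0 < c) (hD : 0 ≤ D)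
    (hs0 : 0 ≤ s) (hd : 1 ≤ d) (hdL : d < L)
    (hL : (3 / 2 - D * s) * d ≤ L) (hds : 1 ≤ s * d)
    (hs : ∑ l ∈ Finset.range L, min R (c * l) ^ 2 = ((L : ℝ) - d) * R ^ 2) :
    max (R - c * L) 0 ≤ (2 * D + 3) * s * R := by
  rcases le_total (R - c * L) 0 with h | h
  · rw [max_eq_right h]; (clear * - hD hs0 hR; positivity)
  rw [max_eq_left h]
  have h1 := (comp_rel hR hc hs).2
  rw [max_eq_left h] at h1
  have hL' : (d : ℝ) < L := by exact_mod_cast hdL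
  have hd' : (1 : ℝ) ≤ d := by exact_mod_cast hd
  have hL0 : (0 : ℝ) < L := by linarith only [hd', hL']
  -- normalise
  obtain ⟨t, ht⟩ : ∃ t, t = (R - c * L) / R := ⟨_, rfl⟩
  have hy : R - c * L = t * R := by rw [ht]; field_simp
  have hcL : c * L = (1 - t) * R := by linarith
  have ht0 : 0 ≤ t := by rw [ht]; (clear * - h hR; positivity)
  have ht1 : t < 1 := by
    by_contra hcon
    have : (1 - t) * R ≤ 0 := mul_nonpos_of_nonpos_of_nonneg (by linarith only [hcon]) hR.le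
    have : 0 < c * L := by positivity
    linarith
  rw [hy] at h1 ⊢
  have hcd : c * d ≤ (1 - t) * R := by
    rw [← hcL]; exact mul_le_mul_of_nonneg_left hL'.le hc.le
  -- `(3/2) c d ≤ (1 + D s) (1 - t) R`
  have h2 : 3 / 2 * (c * d) ≤ (1 + D * s) * ((1 - t) * R) := by
    have h3 : c * ((3 / 2 - D * s) * d) ≤ c * L := mul_le_mul_of_nonneg_left hL hc.le
    rw [hcL] at h3
    have h4 : D * s * (c * d) ≤ D * s * ((1 - t) * R) :=
      mul_le_mul_of_nonneg_left hcd (by positivity)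
    linarith only [h4, h3]
  -- `c ≤ s (1 - t) R`
  have h5 : c ≤ s * ((1 - t) * R) := by
    have h6 : c * 1 ≤ c * (s * d) := mul_le_mul_of_nonneg_left hds hc.le
    have h7 : s * (c * d) ≤ s * ((1 - t) * R) := mul_le_mul_of_nonneg_left hcd hs0
    linarith only [h7, h6]
  have hR2 : 0 < R ^ 2 := by positivity
  have h8 : 2 / 3 * R - t ^ 2 * R + t ^ 3 * R / 3 - c ≤ c * d := by
    have h9 : (2 / 3 * R - t ^ 2 * R + t ^ 3 * R / 3 - c) * R ^ 2 ≤ c * d * R ^ 2 := by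
      calc _ = 2 / 3 * R ^ 3 - R * (t * R) ^ 2 + (t * R) ^ 3 / 3 - c * R ^ 2 := by ring
        _ ≤ _ := h1
    exact le_of_mul_le_mul_right h9 hR2
  have h10 : (1 - t) * R * (t * (2 - t) / 2) ≤ (1 - t) * R * ((D + 3 / 2) * s) := by
    linarith only [h8, h5, h2]
  have h11 : t * (2 - t) / 2 ≤ (D + 3 / 2) * s :=
    le_of_mul_le_mul_left h10 (by have : 0 < 1 - t := by linarith only [ht1]
                                  positivity)
  have h12 : t ≤ (2 * D + 3) * s := by (by_contra nlg; linarith only [nlg, mul_nonneg (le_of_lt (sub_pos.2 ht1)) (sub_nonneg.2 h11), mul_nonneg (sub_nonneg.2 ht0) (sub_nonneg.2 h11), mul_nonneg (sub_nonneg.2 ht0) (le_of_lt (sub_pos.2 ht1)), mul_pos (sub_pos.2 (not_le.1 nlg)) (sub_pos.2 ht1), mul_nonneg (le_of_lt (sub_pos.2 (not_le.1 nlg))) (sub_nonneg.2 ht0)])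
  exact mul_le_mul_of_nonneg_right h12 hR.le

/-- The slope `c` is close to `2 R / (3 d)`. -/
private theorem comp_slope {L d : ℕ} {R c D s x : ℝ} (hR : 0 < R) (hc : 0 < c) (hD : 1 ≤ D)
    (hs0 : 0 < s) (hs2 : s ^ 2 = x) (hx : 400 * D ^ 2 * x ≤ 1) (hd : 1 ≤ d) (hdL : d < L)
    (hL : (3 / 2 - D * s) * d ≤ L) (hds : 1 ≤ s * d) (hdx : 1 ≤ x * d)
    (hs : ∑ l ∈ Finset.range L, min R (c * l) ^ 2 = ((L : ℝ) - d) * R ^ 2) :
    |c * d - 2 / 3 * R| ≤ 26 * D ^ 2 * x * R ∧ R / 2 ≤ c * d ∧ c * d ≤ R := by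
  have hy := comp_y hR hc (by linarith only [hD] : 0 ≤ D) hs0.le hd hdL hL hds hs
  obtain ⟨h1, h2⟩ := comp_rel hR hc hs
  have hy0 : 0 ≤ max (R - c * L) 0 := le_max_right _ _
  have hyR : max (R - c * L) 0 ≤ R := by
    refine max_le ?_ hR.le
    have : 0 ≤ c * L := by positivity
    linarith only [this]
  set y := max (R - c * L) 0 with hydef
  have hx0 : 0 < x := by rw [← hs2]; positivity
  have hD2 : 1 ≤ D ^ 2 := by (by_contra nlg; linarith only [nlg, mul_nonneg (sub_nonneg.2 hD) (sub_nonneg.2 hD), mul_nonneg (le_of_lt (sub_pos.2 (not_le.1 nlg))) (sub_nonneg.2 hD), mul_pos (sub_pos.2 (not_le.1 nlg)) (sub_pos.2 (not_le.1 nlg)), mul_nonneg (sq_nonneg (D : ℝ)) (sub_nonneg.2 hD), mul_nonneg (sq_nonneg (D : ℝ)) (le_of_lt (sub_pos.2 (not_le.1 nlg)))])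
  have hx1 : x ≤ 1 / 400 := by linarith only [mul_nonneg (le_of_lt (sub_pos.2 hx0)) (sub_nonneg.2 hD2), mul_nonneg (mul_self_nonneg (1 : ℝ)) (sub_nonneg.2 hx)]
  have hy2 : y ^ 2 ≤ 25 * D ^ 2 * x * R ^ 2 := by
    have h3 : y ≤ 5 * D * s * R := by
      refine hy.trans ?_
      have : (2 * D + 3) * (s * R) ≤ 5 * D * (s * R) :=
        mul_le_mul_of_nonneg_right (by linarith only [hD]) (by positivity)
      linarith only [this]
    calc y ^ 2 ≤ (5 * D * s * R) ^ 2 := by gcongr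
      _ = 25 * D ^ 2 * s ^ 2 * R ^ 2 := by ring
      _ = _ := by rw [hs2]
  have hy3 : y ^ 3 / 3 ≤ R * y ^ 2 := by
    have : y * y ^ 2 ≤ R * y ^ 2 := mul_le_mul_of_nonneg_right hyR (sq_nonneg y)
    have h0 : 0 ≤ y ^ 3 := by positivity
    linarith only [h0, this]
  have hy30 : 0 ≤ y ^ 3 := by (clear * -; positivity)
  have hcx : c ≤ x * (c * d) := by
    have : c * 1 ≤ c * (x * d) := mul_le_mul_of_nonneg_left hdx hc.le
    linarith only [this]
  have hR2 : 0 < R ^ 2 := by positivity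
  have hup : c * d ≤ 2 / 3 * R + 2 * c := by
    have : c * d * R ^ 2 ≤ (2 / 3 * R + 2 * c) * R ^ 2 := by
      have e : (2 / 3 * R + 2 * c) * R ^ 2 = 2 / 3 * R ^ 3 + 2 * c * R ^ 2 := by ring
      rw [e]
      linarith only [hy3, h1]
    exact le_of_mul_le_mul_right this hR2
  have hlo : 2 / 3 * R - 25 * D ^ 2 * x * R - c ≤ c * d := by
    have : (2 / 3 * R - 25 * D ^ 2 * x * R - c) * R ^ 2 ≤ c * d * R ^ 2 := by
      have h5 : R * y ^ 2 ≤ R * (25 * D ^ 2 * x * R ^ 2) := mul_le_mul_of_nonneg_left hy2 hR.le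
      have e : (2 / 3 * R - 25 * D ^ 2 * x * R - c) * R ^ 2 =
        2 / 3 * R ^ 3 - R * (25 * D ^ 2 * x * R ^ 2) - c * R ^ 2 := by ring
      rw [e]
      linarith only [h5, hy30, h2]
    exact le_of_mul_le_mul_right this hR2
  have hk0 : 0 < c * d := by
    have : (0 : ℝ) < d := by exact_mod_cast hd
    positivity
  obtain ⟨k, hk⟩ : ∃ k, k = c * d := ⟨_, rfl⟩
  rw [← hk] at hup hlo hcx hk0 ⊢
  have hkR : k ≤ R := by
    have := mul_le_mul_of_nonneg_right hx1 hk0.le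
    linarith only [this, hup, hcx, hc]
  have hxk : x * k ≤ x * R := mul_le_mul_of_nonneg_left hkR hx0.le
  have hDx : x * R ≤ D ^ 2 * x * R := by
    have : 1 * (x * R) ≤ D ^ 2 * (x * R) := mul_le_mul_of_nonneg_right hD2 (by positivity)
    linarith only [this]
  refine ⟨?_, ?_, hkR⟩
  · rw [abs_le]
    constructor <;> linarith
  · have : 400 * D ^ 2 * x * R ≤ 1 * R := mul_le_mul_of_nonneg_right hx hR.le
    linarith only [this, hDx, hxk, hlo, hcx, hc]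

/-- The bound of `y` and of `c`. -/
private theorem comp_small {L d : ℕ} {R c D s x : ℝ} (hR : 0 < R) (hc : 0 < c) (hD : 1 ≤ D)
    (hs0 : 0 < s) (hs2 : s ^ 2 = x) (hx : 400 * D ^ 2 * x ≤ 1) (hd : 1 ≤ d) (hdL : d < L)
    (hL : (3 / 2 - D * s) * d ≤ L) (hds : 1 ≤ s * d) (hdx : 1 ≤ x * d)
    (hs : ∑ l ∈ Finset.range L, min R (c * l) ^ 2 = ((L : ℝ) - d) * R ^ 2) :
    max (R - c * L) 0 ^ 2 ≤ 25 * D ^ 2 * x * R ^ 2 ∧ 2 * c * R ≤ 2 * D ^ 2 * x * R ^ 2 := by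
  obtain ⟨_, _, hk3⟩ := comp_slope hR hc hD hs0 hs2 hx hd hdL hL hds hdx hs
  have hy := comp_y hR hc (by linarith only [hD] : 0 ≤ D) hs0.le hd hdL hL hds hs
  have hy0 : 0 ≤ max (R - c * L) 0 := le_max_right _ _
  have hx0 : 0 < x := by rw [← hs2]; positivity
  have hD2 : 1 ≤ D ^ 2 := by (by_contra nlg; linarith only [nlg, mul_nonneg (sub_nonneg.2 hD) (sub_nonneg.2 hD), mul_nonneg (le_of_lt (sub_pos.2 (not_le.1 nlg))) (sub_nonneg.2 hD), mul_pos (sub_pos.2 (not_le.1 nlg)) (sub_pos.2 (not_le.1 nlg)), mul_nonneg (sq_nonneg (1 * D : ℝ)) (sub_nonneg.2 hD), mul_nonneg (sq_nonneg (1 * D : ℝ)) (le_of_lt (sub_pos.2 (not_le.1 nlg)))])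
  constructor
  · have h3 : max (R - c * L) 0 ≤ 5 * D * s * R := by
      refine hy.trans ?_
      have h4 : (2 * D + 3) * (s * R) ≤ 5 * D * (s * R) :=
        mul_le_mul_of_nonneg_right (by linarith only [hD]) (by positivity)
      rw [← mul_assoc, ← mul_assoc] at h4
      exact h4
    calc max (R - c * L) 0 ^ 2 ≤ (5 * D * s * R) ^ 2 := by gcongr
      _ = 25 * D ^ 2 * s ^ 2 * R ^ 2 := by ring
      _ = _ := by rw [hs2]
  · have h3 : c * 1 ≤ c * (x * d) := mul_le_mul_of_nonneg_left hdx hc.le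
    have h4 : x * (c * d) ≤ x * R := mul_le_mul_of_nonneg_left hk3 hx0.le
    have h5 : c ≤ x * R := by
      have e : c * (x * d) = x * (c * d) := by ring
      rw [e] at h3
      linarith only [h4, h3]
    have h6 : c * R ≤ x * R * R := mul_le_mul_of_nonneg_right h5 hR.le
    have h7 : 1 * (x * R * R) ≤ D ^ 2 * (x * R * R) :=
      mul_le_mul_of_nonneg_right hD2 (by positivity)
    have e : 2 * D ^ 2 * x * R ^ 2 = 2 * (D ^ 2 * (x * R * R)) := by ring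
    rw [e]
    linarith only [h7, h6]

/-- The sum. -/
private theorem comp_sum {L d : ℕ} {R c D s x u : ℝ} (hR : 0 < R) (hc : 0 < c) (hD : 1 ≤ D)
    (hs0 : 0 < s) (hs2 : s ^ 2 = x) (hx : 400 * D ^ 2 * x ≤ 1) (hd : 1 ≤ d) (hdL : d < L)
    (hL : (3 / 2 - D * s) * d ≤ L) (hds : 1 ≤ s * d) (hdx : 1 ≤ x * d)
    (hs : ∑ l ∈ Finset.range L, min R (c * l) ^ 2 = ((L : ℝ) - d) * R ^ 2)
    (hu : u ∈ Icc 0 R) :
    |(2 * c * ∑ j ∈ Finset.range L, max (R - c * j) 0 -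
      2 * c * ∑ j ∈ Finset.range L, max (u - c * j) 0) - (R ^ 2 - u ^ 2)| ≤
        27 * D ^ 2 * x * R ^ 2 := by
  obtain ⟨hy2, hcR⟩ := comp_small hR hc hD hs0 hs2 hx hd hdL hL hds hdx hs
  have hR1 := comp_sum1 hc.le R L
  have hR2 := comp_sum2 hc.le R L
  have hu1 := comp_sum1 hc.le u L
  have hu2 := comp_sum2 hc.le u L
  rw [max_eq_left hR.le] at hR1 hR2
  rw [max_eq_left hu.1] at hu1 hu2
  have hy0 : 0 ≤ max (R - c * L) 0 := le_max_right _ _
  have hyu0 : 0 ≤ max (u - c * L) 0 := le_max_right _ _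
  have hyu : max (u - c * L) 0 ≤ max (R - c * L) 0 := max_le_max (by linarith only [hu.2]) le_rfl
  generalize ∑ j ∈ Finset.range L, max (R - c * j) 0 = P at hR1 hR2 ⊢
  generalize ∑ j ∈ Finset.range L, max (u - c * j) 0 = Q at hu1 hu2 ⊢
  generalize max (R - c * L) 0 = y at hy2 hR1 hR2 hy0 hyu
  generalize max (u - c * L) 0 = z at hu1 hu2 hyu0 hyu
  have hz2 : z ^ 2 ≤ y ^ 2 := by gcongr
  have hcu : 2 * c * u ≤ 2 * c * R := mul_le_mul_of_nonneg_left hu.2 (by positivity)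
  have hcy : 0 ≤ 2 * c * y := by positivity
  have hcz : 0 ≤ 2 * c * z := by positivity
  have hy20 := sq_nonneg y
  have hz20 := sq_nonneg z
  rw [mul_sub] at hR2 hu2
  rw [abs_le]
  constructor <;> linarith

/-- The coefficient. -/
private theorem comp_coef {R k D s x a : ℝ} (hR : 0 < R) (hD : 1 ≤ D) (hs0 : 0 < s)
    (hs2 : s ^ 2 = x) (hx : 400 * D ^ 2 * x ≤ 1) (ha0 : 0 < a) (haD : a ≤ D) (haD' : 1 ≤ D * a)
    (haR : |a * R - 3 / 4 * x| ≤ D * (x * s)) (hk : |k - 2 / 3 * R| ≤ 26 * D ^ 2 * x * R) :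
    R ≤ D * x ∧ |x - 2 * a * k| ≤ 4 / 3 * (D * (x * s)) + 52 * D ^ 3 * x * R := by
  have hx0 : 0 < x := by rw [← hs2]; positivity
  have hD0 : 0 < D := by linarith only [haD, ha0]
  have haR' := abs_le.1 haR
  have hDs : D * s ≤ 1 / 20 := by
    by_contra hcon
    push Not at hcon
    have : (1 / 20) ^ 2 < (D * s) ^ 2 := by gcongr
    rw [mul_pow, hs2] at this
    linarith only [this, hx]
  have hDsx : D * (x * s) ≤ 1 / 20 * x := by
    have := mul_le_mul_of_nonneg_right hDs hx0.le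
    have e : D * (x * s) = D * s * x := by ring
    rw [e]; exact this
  constructor
  · have h3 : a * R ≤ x := by linarith only [haR'.2, hDsx, hx0]
    have h4 : D * (a * R) ≤ D * x := mul_le_mul_of_nonneg_left h3 hD0.le
    have h5 : 1 * R ≤ D * a * R := mul_le_mul_of_nonneg_right haD' hR.le
    rw [mul_assoc] at h5
    linarith only [h5, h4]
  · have h3 : x - 2 * a * k = -(4 / 3) * (a * R - 3 / 4 * x) - 2 * a * (k - 2 / 3 * R) := by ring
    rw [h3]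
    refine (abs_sub _ _).trans ?_
    rw [abs_mul, abs_mul, abs_neg, abs_of_pos (by norm_num : (0 : ℝ) < 4 / 3),
      abs_of_pos (by positivity : 0 < 2 * a)]
    have h4 : 2 * a * |k - 2 / 3 * R| ≤ 2 * D * (26 * D ^ 2 * x * R) := by gcongr
    have h5 : 2 * D * (26 * D ^ 2 * x * R) = 52 * D ^ 3 * x * R := by ring
    linarith only [h4, haR]

/-- The final computation. -/
private theorem comp_fin {R D s x : ℝ} (hD : 1 ≤ D) (hs0 : 0 < s) (hx0 : 0 < x)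
    (hxs : x ≤ s) (hR : 0 < R) (hRx : R ≤ D * x) :
    x * (27 * D ^ 2 * x * R) + (4 / 3 * (D * (x * s)) + 52 * D ^ 3 * x * R) * R ≤
      100 * D ^ 5 * (x ^ 2 * s) := by
  have hD0 : 0 < D := by linarith
  have hx2s : 0 ≤ x ^ 2 * s := by positivity
  have hD5 : D ^ 2 ≤ D ^ 5 := pow_le_pow_right₀ hD (by norm_num)
  have hD53 : D ^ 3 ≤ D ^ 5 := pow_le_pow_right₀ hD (by norm_num)
  have hRs : R ≤ D * s := hRx.trans (by gcongr)
  have e1 : x * (27 * D ^ 2 * x * R) ≤ 27 * D ^ 5 * (x ^ 2 * s) := by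
    calc x * (27 * D ^ 2 * x * R) ≤ x * (27 * D ^ 2 * x * (D * s)) := by gcongr
      _ = 27 * D ^ 3 * (x ^ 2 * s) := by ring
      _ ≤ _ := by gcongr
  have e2 : (4 / 3 * (D * (x * s)) + 52 * D ^ 3 * x * R) * R ≤
      54 * D ^ 5 * (x ^ 2 * s) := by
    calc (4 / 3 * (D * (x * s)) + 52 * D ^ 3 * x * R) * R
        ≤ (4 / 3 * (D * (x * s)) + 52 * D ^ 3 * x * (D * s)) * (D * x) := by gcongr
      _ = 4 / 3 * D ^ 2 * (x ^ 2 * s) + 52 * D ^ 5 * (x ^ 2 * s) + 0 := by ring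
      _ ≤ 4 / 3 * D ^ 5 * (x ^ 2 * s) + 52 * D ^ 5 * (x ^ 2 * s) + 0 := by gcongr
      _ ≤ _ := by linarith only [mul_nonneg (pow_nonneg hD0.le 5) hx2s]
  linarith [mul_nonneg (pow_nonneg hD0.le 5) hx2s]

/-- The area function. -/
private theorem comp_area {n L d : ℕ} {R c D s x a u : ℝ} (hR : 0 < R) (hc : 0 < c) (hD : 1 ≤ D)
    (hs0 : 0 < s) (hs2 : s ^ 2 = x) (hx : 400 * D ^ 2 * x ≤ 1) (hd : 1 ≤ d) (hdL : d < L)
    (hxd : x = (d : ℝ) / ((n : ℝ) + 1)) (ha0 : 0 < a) (haD : a ≤ D) (haD' : 1 ≤ D * a)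
    (haR : |a * R - 3 / 4 * x| ≤ D * (x * s))
    (hL : (3 / 2 - D * s) * d ≤ L) (hds : 1 ≤ s * d) (hdx : 1 ≤ x * d)
    (hs : ∑ l ∈ Finset.range L, min R (c * l) ^ 2 = ((L : ℝ) - d) * R ^ 2)
    (hu : u ∈ Icc 0 R) :
    |Aw n L R (fun l => min R (c * l)) u - a * (R ^ 2 - u ^ 2)| ≤ 100 * D ^ 5 * (x ^ 2 * s) := by
  obtain ⟨hk1, hk2, hk3⟩ := comp_slope hR hc hD hs0 hs2 hx hd hdL hL hds hdx hs
  obtain ⟨hRx, hE2⟩ := comp_coef hR hD hs0 hs2 hx ha0 haD haD' haR hk1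
  have hE1 := comp_sum hR hc hD hs0 hs2 hx hd hdL hL hds hdx hs hu
  have hN : (0 : ℝ) < (n : ℝ) + 1 := by positivity
  have hx0 : 0 < x := by rw [← hs2]; positivity
  have hD2 : 1 ≤ D ^ 2 := by (by_contra nlg; linarith only [nlg, mul_nonneg (sub_nonneg.2 haD') (le_of_lt (sub_pos.2 hx0)), mul_nonneg (sub_nonneg.2 haD) (sub_nonneg.2 hRx), mul_nonneg (sub_nonneg.2 haD) (sub_nonneg.2 hk3), mul_nonneg (sub_nonneg.2 haD) (sub_nonneg.2 hk2), mul_pos (sub_pos.2 (not_le.1 nlg)) (sub_pos.2 hx0)])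
  have hx1 : x ≤ 1 := by (by_contra nlg; linarith only [nlg, mul_nonneg (sub_nonneg.2 hRx) (sub_nonneg.2 hRx), mul_nonneg (sub_nonneg.2 hk3) (sub_nonneg.2 hRx), mul_nonneg (sub_nonneg.2 hk2) (sub_nonneg.2 hRx), mul_nonneg (sub_nonneg.2 haD') (sub_nonneg.2 hRx), mul_nonneg (sub_nonneg.2 haD') (sub_nonneg.2 hk3), mul_nonneg (sub_nonneg.2 haD') (sub_nonneg.2 hk2), mul_nonneg (sub_nonneg.2 haD) (le_of_lt (sub_pos.2 hx0)), mul_nonneg (sub_nonneg.2 hx) (le_of_lt (sub_pos.2 hx0)), mul_nonneg (sub_nonneg.2 hx) (le_of_lt (sub_pos.2 ha0)), mul_nonneg (sub_nonneg.2 hD) (le_of_lt (sub_pos.2 hx0)), mul_pos (sub_pos.2 hR) (sub_pos.2 hR), mul_pos (sub_pos.2 (not_le.1 nlg)) (sub_pos.2 ha0)])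
  have hs1 : s ≤ 1 := by nlinarith
  have hxs : x ≤ s := by (by_contra nlg; linarith only [nlg, mul_eq_zero_of_left (sub_eq_zero.2 hs2) (1 - (x)), mul_eq_zero_of_left (sub_eq_zero.2 hs2) (x - (0)), mul_nonneg (le_of_lt (sub_pos.2 hs0)) (sub_nonneg.2 hs1), mul_nonneg (le_of_lt (sub_pos.2 (not_le.1 nlg))) (sub_nonneg.2 hx1), mul_pos (sub_pos.2 (not_le.1 nlg)) (sub_pos.2 hx0)])
  have hxN : x * ((n : ℝ) + 1) = d := by rw [hxd]; field_simp
  have hA : Aw n L R (fun l => min R (c * l)) u = 1 / ((n : ℝ) + 1) *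
      (∑ j ∈ Finset.range L, max (R - c * j) 0 - ∑ j ∈ Finset.range L, max (u - c * j) 0) := by
    unfold Aw
    rw [← Finset.sum_sub_distrib, Finset.mul_sum]
    exact Finset.sum_congr rfl fun j _ => by rw [comp_id1 hu.2]
  generalize Aw n L R (fun l => min R (c * l)) u = A at hA ⊢
  generalize ∑ j ∈ Finset.range L, max (R - c * j) 0 = P at hA hE1
  generalize ∑ j ∈ Finset.range L, max (u - c * j) 0 = Q at hA hE1
  have hkA : 2 * (c * d) * A = x * (2 * c * P - 2 * c * Q) := by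
    rw [hA, ← hxN]
    field_simp
  generalize c * (d : ℝ) = k at hk1 hk2 hk3 hkA hE2
  have hu0 : 0 ≤ R ^ 2 - u ^ 2 := by (by_contra nlg; linarith only [nlg, mul_nonneg (sub_nonneg.2 hu.2) (sub_nonneg.2 hu.2), mul_nonneg (sub_nonneg.2 hu.1) (sub_nonneg.2 hu.2), mul_nonneg (le_of_lt (sub_pos.2 (not_le.1 nlg))) (sub_nonneg.2 hxs), mul_nonneg (le_of_lt (sub_pos.2 (not_le.1 nlg))) (sub_nonneg.2 hs1), mul_pos (sub_pos.2 (not_le.1 nlg)) (sub_pos.2 hx0)])
  have hu2' : R ^ 2 - u ^ 2 ≤ R ^ 2 := by linarith only [sq_nonneg u]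
  have hk0 : 0 < 2 * k := by linarith only [hk2, hR]
  have hT : |A - a * (R ^ 2 - u ^ 2)| * R ≤
      (x * (27 * D ^ 2 * x * R) + (4 / 3 * (D * (x * s)) + 52 * D ^ 3 * x * R) * R) * R := by
    have h5 : |A - a * (R ^ 2 - u ^ 2)| * R ≤ |A - a * (R ^ 2 - u ^ 2)| * (2 * k) :=
      mul_le_mul_of_nonneg_left (by linarith only [hk2]) (abs_nonneg _)
    refine h5.trans ?_
    have h6 : |A - a * (R ^ 2 - u ^ 2)| * (2 * k) =
        |x * ((2 * c * P - 2 * c * Q) - (R ^ 2 - u ^ 2)) + (x - 2 * a * k) * (R ^ 2 - u ^ 2)| := by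
      have h9 : |A - a * (R ^ 2 - u ^ 2)| * (2 * k) = |(A - a * (R ^ 2 - u ^ 2)) * (2 * k)| := by
        rw [abs_mul, abs_of_pos hk0]
      rw [h9]
      congr 1
      linear_combination hkA
    rw [h6]
    refine (abs_add_le _ _).trans ?_
    rw [abs_mul, abs_mul, abs_of_pos hx0, abs_of_nonneg hu0]
    have h7 : x * |(2 * c * P - 2 * c * Q) - (R ^ 2 - u ^ 2)| ≤ x * (27 * D ^ 2 * x * R ^ 2) := by
      gcongr
    have h8 : |x - 2 * a * k| * (R ^ 2 - u ^ 2) ≤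
        (4 / 3 * (D * (x * s)) + 52 * D ^ 3 * x * R) * R ^ 2 := by gcongr
    have e : (x * (27 * D ^ 2 * x * R) + (4 / 3 * (D * (x * s)) + 52 * D ^ 3 * x * R) * R) * R =
        x * (27 * D ^ 2 * x * R ^ 2) + (4 / 3 * (D * (x * s)) + 52 * D ^ 3 * x * R) * R ^ 2 := by
      ring
    rw [e]
    linarith only [h8, h7]
  exact (le_of_mul_le_mul_right hT hR).trans (comp_fin hD hs0 hx0 hxs hR hRx)

/-- The competitor `ρ l = min R (c l)`. -/
theorem comp {D : ℝ} (hD : 1 ≤ D) : ∃ c C : ℝ, 0 < c ∧ 1 ≤ C ∧ ∀ (n d L : ℕ) (R a x : ℝ),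
    x = (d : ℝ) / ((n : ℝ) + 1) → 1 ≤ d → d < L → L ≤ 2 * d → 0 < R → 1 / D ≤ a → a ≤ D →
    x ≤ c → C ≤ x ^ 40 * ((n : ℝ) + 1) → |a * R - 3 / 4 * x| ≤ D * (x * √x) →
    3 / 2 * x - D * (x * √x) ≤ (L : ℝ) / ((n : ℝ) + 1) →
    ∃ ρ : ℕ → ℝ, ρ 0 = 0 ∧ (∀ l, l + 1 < L → ρ l ≤ ρ (l + 1)) ∧ (∀ l < L, 0 ≤ ρ l ∧ ρ l ≤ R) ∧
      ∑ l ∈ Finset.range L, ρ l ^ 2 = ((L : ℝ) - d) * R ^ 2 ∧
      ∀ u ∈ Icc 0 R, |Aw n L R ρ u - a * (R ^ 2 - u ^ 2)| ≤ C * (x ^ 2 * √x) := by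
  have hD0 : 0 < D := by linarith
  have hD5 : 1 ≤ D ^ 5 := one_le_pow₀ hD
  refine ⟨1 / (400 * D ^ 2), 100 * D ^ 5, by positivity, by linarith only [hD5], ?_⟩
  intro n d L R a x hxd hd hdL _ hR haD haD' hxc hxN haR hL
  have hN : (0 : ℝ) < (n : ℝ) + 1 := by positivity
  have hd0 : (0 : ℝ) < d := by exact_mod_cast hd
  have hx0 : 0 < x := by rw [hxd]; (clear * - hd; positivity)
  have hx : 400 * D ^ 2 * x ≤ 1 := by
    have := (le_div_iff₀ (by positivity : 0 < 400 * D ^ 2)).1 hxc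
    linarith only [this]
  have hD2 : 1 ≤ D ^ 2 := by (by_contra nlg; linarith only [nlg, mul_nonneg (sub_nonneg.2 hD) (le_of_lt (sub_pos.2 hD0)), mul_pos (sub_pos.2 (not_le.1 nlg)) (sub_pos.2 hD0), mul_nonneg (sq_nonneg (D : ℝ)) (sub_nonneg.2 hD)])
  have hx1 : x ≤ 1 := by (by_contra nlg; linarith only [nlg, mul_pos (sub_pos.2 hD0) (sub_pos.2 hD0), mul_nonneg (sq_nonneg (D : ℝ)) (le_of_lt (sub_pos.2 (not_le.1 nlg))), hD2, hx])
  have hs0 : 0 < √x := Real.sqrt_pos.2 hx0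
  have hs2 : √x ^ 2 = x := Real.sq_sqrt hx0.le
  have hs1 : √x ≤ 1 := by (by_contra nlg; linarith only [nlg, mul_eq_zero_of_left (sub_eq_zero.2 hs2) (1 - (x)), mul_nonneg (sub_nonneg.2 hx1) (le_of_lt (sub_pos.2 hs0)), mul_nonneg (sub_nonneg.2 hx) (sub_nonneg.2 hx1), mul_eq_zero_of_left (sub_eq_zero.2 hs2) (x - (0)), mul_pos (sub_pos.2 hx0) (sub_pos.2 hs0), mul_nonneg (le_of_lt (sub_pos.2 hx0)) (sub_nonneg.2 hD2), mul_nonneg (le_of_lt (sub_pos.2 hx0)) (sub_nonneg.2 hx), mul_pos (sub_pos.2 (not_le.1 nlg)) (sub_pos.2 hs0), mul_nonneg (le_of_lt (sub_pos.2 (not_le.1 nlg))) (sub_nonneg.2 hx1)])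
  have hxs : x ≤ √x := by (by_contra nlg; linarith only [nlg, mul_eq_zero_of_left (sub_eq_zero.2 hs2) (1 - (√x)), mul_eq_zero_of_left (sub_eq_zero.2 hs2) (√x - (0)), mul_nonneg (le_of_lt (sub_pos.2 hx0)) (sub_nonneg.2 hs1), mul_pos (sub_pos.2 (not_le.1 nlg)) (sub_pos.2 hs0)])
  have hdN : (d : ℝ) = x * ((n : ℝ) + 1) := by rw [hxd]; field_simp
  have hdx : 1 ≤ x * d := by
    have h1 : x ^ 40 * ((n : ℝ) + 1) ≤ x ^ 2 * ((n : ℝ) + 1) := by
      gcongr ?_ * _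
      exact pow_le_pow_of_le_one hx0.le hx1 (by norm_num)
    rw [hdN]
    linarith only [h1, hxN, hD5]
  have hds : 1 ≤ √x * d := hdx.trans (by gcongr)
  have ha0 : 0 < a := lt_of_lt_of_le (by positivity) haD
  have haD1 : 1 ≤ D * a := by
    have := (div_le_iff₀ hD0).1 haD
    linarith only [this]
  have hL' : (3 / 2 - D * √x) * d ≤ L := by
    have h1 := (le_div_iff₀ hN).1 hL
    rw [hdN]
    linarith only [h1]
  obtain ⟨c, hc, hs⟩ := comp_ivt hR hd hdL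
  refine ⟨fun l => min R (c * l), ?_, ?_, ?_, hs, ?_⟩
  · simp [min_eq_right hR.le]
  · intro l _
    have : c * (l : ℝ) ≤ c * ((l + 1 : ℕ) : ℝ) := by
      push_cast
      gcongr
      linarith only []
    exact min_le_min le_rfl this
  · intro l _
    exact ⟨le_min hR.le (by (clear * - hc; positivity)), min_le_left _ _⟩
  · intro u hu
    exact comp_area hR hc hD hs0 hs2 hx hd hdL hxd ha0 haD' haD1 haR hL' hds hdx hs hu

end Vale.Agent.P146.Sh
end
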