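import Mathlib
import Vale.Agent.P146.Bd3.B6
import Vale.Agent.P146.Bd4.B1

set_option linter.all false

section

/-!
# P146, Sh, section LAWA: the first block of the constrained minimiser (over `m1e`, `vk_bd`)
-/

open MeasureTheory ProbabilityTheory Filter Topology Set

namespace Vale.Agent.P146.Sh

open Vale.Agent.P157.Par
open Vale.Agent.P146.Gap
open Vale.Agent.P146.Pw2
open Vale.Agent.P146.Lb
open Vale.Agent.P367.Cl

lemma lawa_mono {φ φ' : ℝ → ℝ} {a b : ℝ} (hab : a ≤ b) (hc : ContinuousOn φ (Icc a b))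
    (hd : ∀ t ∈ Ioo a b, HasDerivAt φ (φ' t) t) (h : ∀ t ∈ Ioo a b, 0 ≤ φ' t) : φ a ≤ φ b := by
  rcases hab.eq_or_lt with rfl | hlt
  · exact le_rfl
  · obtain ⟨c, hc1, hc2⟩ := exists_hasDerivAt_eq_slope φ φ' hlt hc hd
    have h1 := h c hc1
    rw [hc2] at h1
    have h3 : 0 ≤ (φ b - φ a) / (b - a) * (b - a) := mul_nonneg h1 (sub_pos.2 hlt).le
    rw [div_mul_cancel₀ _ (sub_pos.2 hlt).ne'] at h3
    linarith

lemma lawa_real {R x t0 ε : ℝ} {f k k1 : ℝ → ℝ} (hx : 0 < x) (ht0 : 0 < t0) (hR : 5 * t0 < R)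
    (hε : ε ≤ x * t0) (hf : ContinuousOn f (Icc 0 R)) (hk : ContinuousOn k (Icc 0 R))
    (h1 : ∀ t ∈ Ioo 0 R, HasDerivAt f (k t) t) (h2 : ∀ t ∈ Ioo 0 R, HasDerivAt k (k1 t) t)
    (hlow : ∀ t ∈ Ioo 0 R, -(2 * x) ≤ k1 t) (hup : ∀ t ∈ Ioo t0 R, x ≤ k1 t)
    (hf0 : f 0 = 0) (hfR : f R = 0) (hkR : k R ≤ ε) : False := by
  have hR0 : 0 < R := by linarith
  have htR : t0 < R := by linarith
  have S1 : ∀ s ∈ Icc t0 R, k s - x * s ≤ k R - x * R := by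
    intro s hs
    refine lawa_mono (φ := fun t => k t - x * t) (φ' := fun t => k1 t - x * 1) hs.2
      ((hk.mono (Icc_subset_Icc (by linarith [hs.1]) le_rfl)).sub (by fun_prop))
      (fun t ht => (h2 t ⟨by linarith [ht.1, hs.1], ht.2⟩).sub
        ((hasDerivAt_id t).const_mul x)) (fun t ht => ?_)
    have := hup t ⟨by linarith [ht.1, hs.1], ht.2⟩
    simp only [mul_one]
    linarith
  have S2 : ∀ s ∈ Icc 0 t0, k s + 2 * x * s ≤ k t0 + 2 * x * t0 := by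
    intro s hs
    refine lawa_mono (φ := fun t => k t + 2 * x * t) (φ' := fun t => k1 t + 2 * x * 1) hs.2
      ((hk.mono (Icc_subset_Icc hs.1 htR.le)).add (by fun_prop))
      (fun t ht => (h2 t ⟨by linarith [ht.1, hs.1], by linarith [ht.2]⟩).add
        ((hasDerivAt_id t).const_mul (2 * x))) (fun t ht => ?_)
    have := hlow t ⟨by linarith [ht.1, hs.1], by linarith [ht.2]⟩
    simp only [mul_one]
    linarith
  have S3 := lawa_mono (φ := fun t => (k R - x * R) * t + x / 2 * t ^ 2 - f t)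
    (φ' := fun t => (k R - x * R) * 1 + x / 2 * (2 * t) - k t) htR.le
    (ContinuousOn.sub (by fun_prop) (hf.mono (Icc_subset_Icc ht0.le le_rfl)))
    (fun t ht => by
      have e1 : HasDerivAt (fun t : ℝ => (k R - x * R) * t) ((k R - x * R) * 1) t :=
        (hasDerivAt_id t).const_mul _
      have e2 : HasDerivAt (fun t : ℝ => x / 2 * t ^ 2) (x / 2 * (2 * t)) t := by
        have := ((hasDerivAt_id t).pow 2).const_mul (x / 2)
        simpa using this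
      exact (e1.add e2).sub (h1 t ⟨by linarith [ht.1], ht.2⟩))
    (fun t ht => by
      have := S1 t ⟨ht.1.le, ht.2.le⟩
      linarith only [this])
  have hkt0 := S1 t0 ⟨le_rfl, htR.le⟩
  have S4 := lawa_mono (φ := fun t => (k R - x * R + 3 * x * t0) * t - f t)
    (φ' := fun t => (k R - x * R + 3 * x * t0) * 1 - k t) ht0.le
    (ContinuousOn.sub (by fun_prop) (hf.mono (Icc_subset_Icc le_rfl htR.le)))
    (fun t ht => by
      have e1 : HasDerivAt (fun t : ℝ => (k R - x * R + 3 * x * t0) * t)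
          ((k R - x * R + 3 * x * t0) * 1) t := (hasDerivAt_id t).const_mul _
      exact e1.sub (h1 t ⟨ht.1, by linarith only [ht.2, hR, ht0]⟩))
    (fun t ht => by
      have e1 := S2 t ⟨ht.1.le, ht.2.le⟩
      have e2 : 0 ≤ x * t := by
        have := ht.1
        positivity
      linarith only [e2, e1, hkt0])
  simp only [hf0, hfR, mul_zero, sub_zero] at S3 S4
  -- 0 ≤ k R * R - x (R - t0)^2/2 - ...
  have e3 : 0 ≤ k R * R - x * (R - t0) ^ 2 / 2 - 2 * x * t0 ^ 2 + (k R - k R) := by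
    have e4 : (k R - x * R + 3 * x * t0) * t0 ≤ (k R - 2 * x * t0) * t0 :=
      mul_le_mul_of_nonneg_right (by linarith only [mul_pos (sub_pos.2 hx) (sub_pos.2 hR)]) ht0.le
    linarith only [e4, S4, S3]
  have e5 : k R * R ≤ x * t0 * R := mul_le_mul_of_nonneg_right (hkR.trans hε) hR0.le
  have e6 : x * t0 * R ≤ x * (R / 5) * R :=
    mul_le_mul_of_nonneg_right (mul_le_mul_of_nonneg_left (by linarith only [hR]) hx.le) hR0.le
  have e7 : x * (4 / 5 * R) ^ 2 ≤ x * (R - t0) ^ 2 :=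
    mul_le_mul_of_nonneg_left (pow_le_pow_left₀ (by positivity) (by linarith only [hR]) 2) hx.le
  have e8 : 0 < x * R ^ 2 := by positivity
  linarith only [e8, e7, e5, e3, S4, S3]

/-- the bound of `Mb` on the blocks of length `0` -/
lemma lawa_M {b δ : ℝ} {n d : ℕ} {r : ℕ → ℝ} (hr : BPath b n r) (hd : d ≤ n) (hdn : r d < r n)
    (h : ∀ l, d ≤ l → l < n → r l < r (l + 1) → ∀ t ∈ Icc 0 (r (l + 1) - r l),
      |Mb n (gm n) r l t - 1 / b ^ 2| ≤ δ) :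
    ∀ l, d ≤ l → l < n → ∀ t ∈ Icc 0 (r (l + 1) - r l),
      |Mb n (gm n) r l t - 1 / b ^ 2| ≤ δ := by
  have hm := gm_exponents n
  have hpos : ∀ l, d ≤ l → l < n → r l < r (l + 1) →
      |Ml n (gm n) r l - 1 / b ^ 2| ≤ δ ∧ |Ml n (gm n) r (l + 1) - 1 / b ^ 2| ≤ δ := by
    intro l h1 h2 h3
    have e1 := h l h1 h2 h3 0 ⟨le_rfl, by linarith⟩
    have e2 := h l h1 h2 h3 (r (l + 1) - r l) ⟨by linarith, le_rfl⟩
    rw [Mb_zero hm hr.2.1 h2] at e1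
    rw [Mb_last hm hr.2.1 h2] at e2
    exact ⟨e1, e2⟩
  have hzero : ∀ l, l < n → ¬ r l < r (l + 1) → Ml n (gm n) r l = Ml n (gm n) r (l + 1) := by
    intro l h2 h3
    have e0 : r (l + 1) - r l = 0 := by
      have := len_mono hr (Nat.le_succ l) h2
      have h4 : r (l + 1) ≤ r l := not_lt.1 h3
      linarith
    have e1 := Mb_zero hm hr.2.1 h2
    have e2 := Mb_last hm hr.2.1 h2
    rw [e0] at e2
    rw [← e1, ← e2]
  have hiff : ∀ l, d ≤ l → l < n → (|Ml n (gm n) r l - 1 / b ^ 2| ≤ δ ↔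
      |Ml n (gm n) r (l + 1) - 1 / b ^ 2| ≤ δ) := by
    intro l h1 h2
    by_cases h3 : r l < r (l + 1)
    · obtain ⟨e1, e2⟩ := hpos l h1 h2 h3
      exact ⟨fun _ => e2, fun _ => e1⟩
    · rw [hzero l h2 h3]
  obtain ⟨l0, hl0, hl0n, hl0r⟩ : ∃ l, d ≤ l ∧ l < n ∧ r l < r (l + 1) := by
    by_contra hcon
    push Not at hcon
    have : ∀ i, d + i ≤ n → r (d + i) ≤ r d := by
      intro i
      induction i with
      | zero => intro _; exact le_rfl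
      | succ i ih =>
        intro hi
        exact (hcon (d + i) (by omega) (by omega)).trans (ih (by omega))
    have h2 := this (n - d) (by omega)
    rw [Nat.add_sub_cancel' hd] at h2
    linarith
  have hup : ∀ i, l0 + i ≤ n → |Ml n (gm n) r (l0 + i) - 1 / b ^ 2| ≤ δ := by
    intro i
    induction i with
    | zero => intro _; exact (hpos l0 hl0 hl0n hl0r).1
    | succ i ih =>
      intro hi
      exact (hiff (l0 + i) (by omega) (by omega)).1 (ih (by omega))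
  have hdown : ∀ i, i ≤ l0 - d → |Ml n (gm n) r (l0 - i) - 1 / b ^ 2| ≤ δ := by
    intro i
    induction i with
    | zero => intro _; exact (hpos l0 hl0 hl0n hl0r).1
    | succ i ih =>
      intro hi
      have h1 := ih (by omega)
      have h2 := hiff (l0 - (i + 1)) (by omega) (by omega)
      have e : l0 - (i + 1) + 1 = l0 - i := by omega
      rw [e] at h2
      exact h2.2 h1
  have hall : ∀ l, d ≤ l → l ≤ n → |Ml n (gm n) r l - 1 / b ^ 2| ≤ δ := by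
    intro l h1 h2
    rcases le_total l0 l with h3 | h3
    · have := hup (l - l0) (by omega)
      rwa [Nat.add_sub_cancel' h3] at this
    · have := hdown (l0 - l) (by omega)
      have e : l0 - (l0 - l) = l := by omega
      rwa [e] at this
  intro l h1 h2 t ht
  by_cases h3 : r l < r (l + 1)
  · exact h l h1 h2 h3 t ht
  · have e0 : r (l + 1) - r l ≤ 0 := by
      have h4 : r (l + 1) ≤ r l := not_lt.1 h3
      linarith only [h4]
    have et : t = 0 := le_antisymm (ht.2.trans e0) ht.1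
    rw [et, Mb_zero hm hr.2.1 h2]
    exact hall l h1 h2.le

/-- The derivative at the end of the block, from the variation of the upper level. -/
lemma lawa_end {V h : ℝ} {f k : ℝ → ℝ} (hV : 0 < V) (hf : ContinuousOn f (Icc 0 V))
    (hk : ContinuousOn k (Icc 0 V)) (h1 : ∀ t ∈ Ioo 0 V, HasDerivAt f (k t) t) (hfV : f V = 0)
    (h6 : ∀ t ∈ Icc 0 V, -(h * (V - t) ^ 2) ≤ ∫ s in t..V, f s) : k V ≤ 2 * h := by
  by_contra hcon
  push Not at hcon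
  obtain ⟨q, hq1, hq2⟩ := exists_between hcon
  have hcw : ContinuousWithinAt k (Icc 0 V) V := hk V ⟨hV.le, le_rfl⟩
  have hev : ∀ᶠ s in 𝓝[Icc 0 V] V, q < k s := hcw.eventually (lt_mem_nhds hq2)
  rw [eventually_nhdsWithin_iff, Metric.eventually_nhds_iff] at hev
  obtain ⟨δ, hδ, hev⟩ := hev
  obtain ⟨t, ht⟩ : ∃ t, t = max 0 (V - δ / 2) := ⟨_, rfl⟩
  have ht0 : 0 ≤ t := by rw [ht]; exact le_max_left _ _
  have htV : t < V := by rw [ht]; exact max_lt hV (by linarith)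
  have htd : V - δ / 2 ≤ t := by rw [ht]; exact le_max_right _ _
  have hks : ∀ s ∈ Icc t V, q < k s := by
    intro s hs
    refine hev ?_ ⟨ht0.trans hs.1, hs.2⟩
    rw [Real.dist_eq, abs_sub_comm, abs_of_nonneg (by linarith [hs.2])]
    linarith [hs.1]
  have hfs : ∀ s ∈ Icc t V, f s ≤ -(q * (V - s)) := by
    intro s hs
    have := lreal_ge (f := f) (f' := k) (a := q) hs.2
      (hf.mono (Icc_subset_Icc_left (ht0.trans hs.1)))
      (fun u hu => h1 u ⟨by linarith [hu.1, hs.1], hu.2⟩)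
      (fun u hu => (hks u ⟨hs.1.trans hu.1.le, hu.2.le⟩).le)
    rw [hfV] at this
    linarith
  have hint : ∫ s in t..V, f s ≤ ∫ s in t..V, -(q * (V - s)) := by
    refine intervalIntegral.integral_mono_on htV.le
      ((hf.mono (Icc_subset_Icc_left ht0)).intervalIntegrable_of_Icc htV.le)
      (Continuous.intervalIntegrable (by fun_prop) _ _) hfs
  have hval : ∫ s in t..V, -(q * (V - s)) = -(q * (V - t) ^ 2 / 2) := by
    have e1 : ∀ s ∈ uIcc t V, HasDerivAt (fun s : ℝ => q * (V - s) ^ 2 / 2) (-(q * (V - s))) s := by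
      intro s _
      have e2 : HasDerivAt (fun s : ℝ => V - s) (-1) s := by
        simpa using (hasDerivAt_id s).const_sub V
      have e3 := ((e2.pow 2).const_mul q).div_const 2
      refine e3.congr_deriv ?_
      norm_num
      ring
    rw [intervalIntegral.integral_eq_sub_of_hasDerivAt e1
      (Continuous.intervalIntegrable (by fun_prop) _ _)]
    ring
  have h7 := h6 t ⟨ht0, htV.le⟩
  rw [hval] at hint
  have h8 : 0 < (V - t) ^ 2 := by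
    have : 0 < V - t := by linarith only [htV]
    positivity
  linarith only [mul_pos (sub_pos.2 hq1) (sub_pos.2 h8), h7, hint]

/-- the first block is not longer than `5 t0` -/
lemma lawa_R {b x t0 h : ℝ} (hb0 : 0 < b) {n e : ℕ} {r : ℕ → ℝ} (hmin : IsMinD b n (e + 1) r)
    (hen : e < n) (hgm : gm n (e + 1) = x) (hx0 : 0 < x) (ht0 : 0 < t0)
    (hM : t0 ≤ r (e + 1) → x ≤ M1b n (gm n) r e t0)
    (hvar : ∀ t ∈ Icc 0 (r (e + 1) - r e), -(h * (r (e + 1) - r e - t) ^ 2) ≤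
        ∫ s in t..(r (e + 1) - r e), (Rb n (gm n) r e s - (r e + s) / b ^ 2))
    (hε : 2 * h ≤ x * t0) : r (e + 1) ≤ 5 * t0 := by
  by_contra hcon
  push Not at hcon
  have hr := hmin.1
  have hm := gm_exponents n
  have hb2 : 0 < b ^ 2 := by positivity
  have hre : r e = 0 := hmin.2.1 e (Nat.lt_succ_self e)
  obtain ⟨R, hRdef⟩ : ∃ R, R = r (e + 1) := ⟨_, rfl⟩
  have hV : r (e + 1) - r e = R := by rw [hre, sub_zero, hRdef]
  rw [← hRdef] at hcon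
  have hR0 : 0 < R := by linarith
  have hst := statD hb0 hmin (e + 1) hen
  have hd2 : ∀ s ∈ Ioo 0 R, HasDerivAt (M1b n (gm n) r e) (M2b n (gm n) r e s) s :=
    fun s hs => M1b_deriv hm hr.2.1 hen (by rw [hV]; exact hs)
  have hM1 : ∀ t ∈ Ioo t0 R, x ≤ M1b n (gm n) r e t := by
    intro t ht
    refine (hM (by rw [← hRdef]; linarith only [hcon, ht0])).trans ?_
    refine lawa_mono (φ' := M2b n (gm n) r e) ht.1.le (fun s hs => ?_) (fun s hs => ?_)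
      (fun s hs => ?_)
    · exact (hd2 s ⟨by linarith [hs.1], by linarith [hs.2, ht.2]⟩).continuousAt.continuousWithinAt
    · exact hd2 s ⟨by linarith [hs.1], by linarith [hs.2, ht.2]⟩
    · exact M2b_nonneg hm hr.2.1 hr.1 hen
        (by rw [hV]; exact ⟨by linarith [hs.1], by linarith [hs.2, ht.2]⟩)
        (by rw [hre]; linarith [hs.1])
  have h1 : ∀ t ∈ Ioo 0 R, HasDerivAt (fun s => Rb n (gm n) r e s - s / b ^ 2)
      (Mb n (gm n) r e t - 1 / b ^ 2) t := fun t ht =>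
    (Rb_deriv hm hr.2.1 hen (by rw [hV]; exact ht)).sub ((hasDerivAt_id t).div_const _)
  have h2 : ∀ t ∈ Ioo 0 R, HasDerivAt (fun s => Mb n (gm n) r e s - 1 / b ^ 2)
      (M1b n (gm n) r e t) t := fun t ht =>
    (Mb_deriv hm hr.2.1 hen (by rw [hV]; exact ht)).sub_const _
  have hfc : ContinuousOn (fun s => Rb n (gm n) r e s - s / b ^ 2) (Icc 0 R) := by
    have := Rb_cont hm hr.2.1 hen
    rw [hV] at this
    exact this.sub (by fun_prop)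
  have hkc : ContinuousOn (fun s => Mb n (gm n) r e s - 1 / b ^ 2) (Icc 0 R) := by
    have := Mb_cont hm hr.2.1 hen
    rw [hV] at this
    exact this.sub (by fun_prop)
  have hf0 : Rb n (gm n) r e 0 - 0 / b ^ 2 = 0 := by
    rw [Rb_zero hm hr.2.1 hen, spR_zero hm hr.2.1 hr.1 hen.le hre]
    simp
  have hfV : Rb n (gm n) r e R - R / b ^ 2 = 0 := by
    have e1 := Rb_last hm hr.2.1 hen
    rw [hV] at e1
    rw [e1, hRdef, hst]
    field_simp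
    simp
  have hlow : ∀ t ∈ Ioo 0 R, -(2 * x) ≤ M1b n (gm n) r e t := by
    intro t ht
    have := M1b_low hm hr.2.1 hen (t := t) (by rw [hV]; exact ⟨ht.1.le, ht.2.le⟩)
    rwa [hgm] at this
  have hvar' : ∀ t ∈ Icc 0 R, -(h * (R - t) ^ 2) ≤
      ∫ s in t..R, (Rb n (gm n) r e s - s / b ^ 2) := by
    rw [hV] at hvar
    simpa only [hre, zero_add] using hvar
  have hkR := lawa_end (f := fun s => Rb n (gm n) r e s - s / b ^ 2)
    (k := fun s => Mb n (gm n) r e s - 1 / b ^ 2) hR0 hfc hkc h1 hfV hvar'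
  exact lawa_real (f := fun s => Rb n (gm n) r e s - s / b ^ 2)
    (k := fun s => Mb n (gm n) r e s - 1 / b ^ 2) (k1 := M1b n (gm n) r e) (ε := 2 * h)
    hx0 ht0 hcon hε hfc hkc h1 h2 hlow hM1 hf0 hfV hkR

/-- the derivative of `Mb` at the time `K₁ x` -/
lemma lawa_t0 {cb K₁ Cm M x κ v : ℝ} (hcb : 0 < cb) (hK₁ : 1 ≤ K₁) (hK4 : 4 ≤ cb ^ 2 * K₁)
    (hCm : 1 ≤ Cm) (hx0 : 0 < x) (hx : x ≤ 1 / (K₁ * (Cm * K₁) ^ 2)) (hκ : cb ≤ κ) (hv0 : 0 ≤ v)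
    (hv1 : v ≤ 1)
    (h : |M - (κ ^ 2 * (K₁ * x) - 2 * x * v ^ 3)| ≤ Cm * (K₁ * x * √(K₁ * x))) : x ≤ M := by
  have hK0 : 0 < K₁ := by linarith
  have ht0 : 0 < K₁ * x := by positivity
  have h2 : cb ^ 2 * (K₁ * x) ≤ κ ^ 2 * (K₁ * x) :=
    mul_le_mul_of_nonneg_right (pow_le_pow_left₀ hcb.le hκ 2) ht0.le
  have h3 : v ^ 3 ≤ 1 := pow_le_one₀ hv0 hv1
  have h4 : 2 * x * v ^ 3 ≤ 2 * x * 1 := mul_le_mul_of_nonneg_left h3 (by linarith)
  have h5 : Cm * (K₁ * x * √(K₁ * x)) ≤ x := by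
    have h6 : √(K₁ * x) ≤ 1 / (Cm * K₁) := by
      rw [Real.sqrt_le_left (by positivity), div_pow, one_pow]
      calc K₁ * x ≤ K₁ * (1 / (K₁ * (Cm * K₁) ^ 2)) := mul_le_mul_of_nonneg_left hx hK0.le
        _ = 1 / (Cm * K₁) ^ 2 := by field_simp
    calc Cm * (K₁ * x * √(K₁ * x)) ≤ Cm * (K₁ * x * (1 / (Cm * K₁))) := by
          gcongr
      _ = x := by field_simp
  have h8 := (abs_le.1 h).1
  have h9 : 4 * x ≤ cb ^ 2 * (K₁ * x) := by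
    have := mul_le_mul_of_nonneg_right hK4 hx0.le
    linarith
  linarith only [h9, h8, h5, h4, h2]

theorem lawA_of {b : ℝ} (hb : 1 < b)
    (hbd : ∃ c K : ℝ, 0 < c ∧ 1 ≤ K ∧ ∀ (n : ℕ) (r : ℕ → ℝ), BPath b n r →
      c ≤ vv n r ∧ vv n r ≤ 1 ∧ c ≤ kk n r ∧ kk n r ≤ K)
    (hm1 : ∃ C : ℝ, 1 ≤ C ∧ ∀ (n : ℕ) (X : ℝ) (r : ℕ → ℝ), BPath b n r → 0 < X →
      X ≤ 1 → ∀ l < n, gm n (l + 1) ≤ X → ∀ t ∈ Icc 0 (r (l + 1) - r l), r l + t ≤ X →
        |M1b n (gm n) r l t - (kk n r ^ 2 * (r l + t) - 2 * gm n (l + 1) * vv n r ^ 3)| ≤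
          C * (X * √X)) :
    ∃ c C : ℝ, 0 < c ∧ 1 ≤ C ∧ ∀ (n d : ℕ) (r : ℕ → ℝ),
    1 ≤ d → d ≤ n → IsMinD b n d r → gm n d ≤ c → C ≤ gm n d ^ 40 * (n + 1) →
      c * gm n d ≤ r d ∧ r d ≤ C * gm n d ∧ 2 * C * gm n d ≤ r n ∧
      ∀ l, d ≤ l → l < n → ∀ t ∈ Icc 0 (r (l + 1) - r l),
        |Mb n (gm n) r l t - 1 / b ^ 2| ≤ gm n d ^ 8 := by
  obtain ⟨cb, Kb, hcb, hKb, hvk⟩ := hbd
  obtain ⟨Cm, hCm, hm1e⟩ := hm1
  obtain ⟨c₁, C₁, hc₁, hC₁, hlen⟩ := lenD hb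
  obtain ⟨Cu, hCu, hun⟩ := unifD hb
  obtain ⟨Cv, hCv, hvar⟩ := var_downD hb
  obtain ⟨cl, hcl, hlast⟩ := lastD hb
  have hb0 : 0 < b := by linarith
  -- t0 = K₁ x
  obtain ⟨K₁, hK₁⟩ : ∃ K₁, K₁ = max (4 / cb ^ 2) 1 := ⟨_, rfl⟩
  have hK₁1 : 1 ≤ K₁ := by rw [hK₁]; exact le_max_right _ _
  have hK₁0 : 0 < K₁ := by linarith
  have hK₁4 : 4 ≤ cb ^ 2 * K₁ := by
    have h1 : 4 / cb ^ 2 ≤ K₁ := by rw [hK₁]; exact le_max_left _ _
    rw [div_le_iff₀ (by positivity)] at h1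
    linarith
  obtain ⟨C, hCdef⟩ : ∃ C, C = C₁ + Cu ^ 4 + 1 / cl + 5 * K₁ + 2 * Cv := ⟨_, rfl⟩
  have hCu0 : 0 < Cu := by linarith
  have p1 : 0 < Cu ^ 4 := by positivity
  have p2 : 0 < 1 / cl := by positivity
  have hC1 : 1 ≤ C := by rw [hCdef]; linarith only [p2, p1, hK₁0, hCv, hC₁]
  have hC0 : 0 < C := by linarith only [p2, p1, hCdef, hK₁0, hCv, hC₁]
  have hCC₁ : C₁ ≤ C := by rw [hCdef]; linarith only [p2, p1, hK₁0, hCv]
  have hCCu : Cu ^ 4 ≤ C := by rw [hCdef]; linarith only [p2, hK₁0, hCv, hC₁]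
  have hCcl : 1 / cl ≤ C := by rw [hCdef]; linarith only [p1, hK₁0, hCv, hC₁]
  have hC5 : 5 * K₁ ≤ C := by rw [hCdef]; linarith only [p2, p1, hCv, hC₁]
  have hCCv : 2 * Cv ≤ C := by rw [hCdef]; linarith only [p2, p1, hK₁0, hC₁]
  obtain ⟨c₂, hc₂⟩ : ∃ c₂, c₂ = 1 / (K₁ * (Cm * K₁) ^ 2) := ⟨_, rfl⟩
  have hc₂0 : 0 < c₂ := by rw [hc₂]; positivity
  obtain ⟨c, hcdef⟩ : ∃ c, c = min (min c₁ (cl / (4 * C))) (min c₂ (1 / 4)) := ⟨_, rfl⟩
  have hc0 : 0 < c := by rw [hcdef]; positivity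
  have hcc₁ : c ≤ c₁ := by rw [hcdef]; exact (min_le_left _ _).trans (min_le_left _ _)
  have hccl : c ≤ cl / (4 * C) := by rw [hcdef]; exact (min_le_left _ _).trans (min_le_right _ _)
  have hcc₂ : c ≤ c₂ := by rw [hcdef]; exact (min_le_right _ _).trans (min_le_left _ _)
  have hc4 : c ≤ 1 / 4 := by rw [hcdef]; exact (min_le_right _ _).trans (min_le_right _ _)
  refine ⟨c, C, hc0, hC1, fun n d r hd1 hdn hmin hx hC => ?_⟩
  obtain ⟨e, rfl⟩ : ∃ e, d = e + 1 := ⟨d - 1, by omega⟩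
  obtain ⟨x, hxdef⟩ : ∃ x, x = gm n (e + 1) := ⟨_, rfl⟩
  have hx0 : 0 < x := by rw [hxdef]; exact grid_gm_pos hd1
  rw [← hxdef] at hx hC ⊢
  have hx4 : x ≤ 1 / 4 := hx.trans hc4
  have hx1 : x ≤ 1 := by linarith only [hx4, hx0]
  have hr := hmin.1
  have hm := gm_exponents n
  have hn1 : (0 : ℝ) < n + 1 := by (clear * -; positivity)
  have hpw : ∀ k : ℕ, k ≤ 40 → C ≤ x ^ k * (n + 1) := by
    intro k hk
    refine hC.trans (mul_le_mul_of_nonneg_right ?_ hn1.le)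
    exact pow_le_pow_of_le_one hx0.le hx1 hk
  have hrdlow : c₁ * x ≤ r (e + 1) := by
    have := hlen n (e + 1) r hd1 hdn hmin (by rw [← hxdef]; exact hx.trans hcc₁)
      (by rw [← hxdef]; exact hCC₁.trans (hpw 8 (by norm_num)))
    rwa [← hxdef] at this
  have hrn : cl ≤ r n := by
    refine hlast n (e + 1) r hd1 hdn hmin ?_
    have h1 : 1 / cl ≤ x ^ 0 * (n + 1) := hCcl.trans (hpw 0 (by norm_num))
    rw [div_le_iff₀ hcl, pow_zero, one_mul] at h1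
    linarith only [h1]
  have hrn2 : 4 * C * x ≤ r n := by
    have h1 : x ≤ cl / (4 * C) := hx.trans hccl
    rw [le_div_iff₀ (by positivity)] at h1
    linarith only [h1, hrn]
  have hCx : 0 < C * x := by positivity
  -- blocks of positive length
  have hposM : ∀ l, e + 1 ≤ l → l < n → r l < r (l + 1) → ∀ t ∈ Icc 0 (r (l + 1) - r l),
      |Mb n (gm n) r l t - 1 / b ^ 2| ≤ x ^ 8 := by
    intro l h1 h2 h3 t ht
    have h4 := hun n (e + 1) r l (x ^ 8 / Cu) hmin (by omega) h1 h2 h3 (by positivity) (by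
      have e1 := hCCu.trans (hpw 32 (by norm_num))
      rw [div_pow, div_mul_eq_mul_div, le_div_iff₀ (by positivity), one_mul, ← pow_mul]
      exact e1) t ht
    have e2 : Cu * (x ^ 8 / Cu) = x ^ 8 := by field_simp
    rwa [e2] at h4
  have hR5 : r (e + 1) ≤ 5 * (K₁ * x) := by
    refine lawa_R (h := Cv / (n + 1)) hb0 hmin hdn hxdef.symm hx0 (by positivity) (fun hle => ?_)
      (hvar n (e + 1) r e hmin hdn le_rfl) ?_
    · have hre : r e = 0 := hmin.2.1 e (Nat.lt_succ_self e)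
      have hxc : x ≤ 1 / (K₁ * (Cm * K₁) ^ 2) := by
        rw [← hc₂]
        exact hx.trans hcc₂
      have hXle : K₁ * x ≤ 1 := by
        have h3 : (1 : ℝ) ≤ (Cm * K₁) ^ 2 := one_le_pow₀ (by (by_contra nlg; linarith only [nlg, mul_nonneg (sub_nonneg.2 hK₁1) (sub_nonneg.2 hx1), mul_nonneg (sub_nonneg.2 hK₁1) (le_of_lt (sub_pos.2 hx0)), mul_nonneg (sub_nonneg.2 hCm) (le_of_lt (sub_pos.2 hK₁0)), mul_nonneg (le_of_lt (sub_pos.2 (not_le.1 nlg))) (sub_nonneg.2 hx1), mul_pos (sub_pos.2 (not_le.1 nlg)) (sub_pos.2 hx0)]))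
        have h4 : 1 / (Cm * K₁) ^ 2 ≤ 1 := by
          rw [div_le_one (by positivity)]
          exact h3
        calc K₁ * x ≤ K₁ * (1 / (K₁ * (Cm * K₁) ^ 2)) := mul_le_mul_of_nonneg_left hxc hK₁0.le
          _ = 1 / (Cm * K₁) ^ 2 := by field_simp
          _ ≤ 1 := h4
      have h1 := hm1e n (K₁ * x) r hr (by positivity) hXle e hdn
        (by rw [← hxdef]; (by_contra nlg; linarith only [nlg, mul_nonneg (sub_nonneg.2 hK₁1) (le_of_lt (sub_pos.2 hx0)), mul_nonneg (le_of_lt (sub_pos.2 (not_le.1 nlg))) (sub_nonneg.2 hx1), mul_pos (sub_pos.2 (not_le.1 nlg)) (sub_pos.2 hx0)])) (K₁ * x)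
        ⟨by positivity, by rw [hre, sub_zero]; exact hle⟩ (by rw [hre, zero_add])
      rw [hre, zero_add, ← hxdef] at h1
      obtain ⟨hv1, hv2, hk1, hk2⟩ := hvk n r hr
      exact lawa_t0 hcb hK₁1 hK₁4 hCm hx0 hxc hk1 (by linarith only [hv1, hcb]) hv2 h1
    · have h1 := hCCv.trans (hpw 2 (by norm_num))
      have h2 : 2 * (Cv / ((n : ℝ) + 1)) ≤ x ^ 2 := by
        rw [← mul_div_assoc, div_le_iff₀ hn1]
        exact h1
      have h3 : x ^ 2 ≤ x * (K₁ * x) := by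
        have : x * x ≤ x * (K₁ * x) := mul_le_mul_of_nonneg_left (by (by_contra nlg; linarith only [nlg, mul_nonneg (sub_nonneg.2 hK₁1) (le_of_lt (sub_pos.2 hx0)), mul_nonneg (le_of_lt (sub_pos.2 (not_le.1 nlg))) (sub_nonneg.2 hx1), mul_pos (sub_pos.2 (not_le.1 nlg)) (sub_pos.2 hx0)])) hx0.le
        linarith
      linarith
  have hup : r (e + 1) ≤ C * x := by
    have : 5 * K₁ * x ≤ C * x := mul_le_mul_of_nonneg_right hC5 hx0.le
    linarith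
  refine ⟨(mul_le_mul_of_nonneg_right hcc₁ hx0.le).trans hrdlow, hup, ?_,
    lawa_M hr hdn ?_ hposM⟩
  · linarith
  · linarith

end Vale.Agent.P146.Sh
end

section

/-!
# P146, Sh: from sharp exponential moments to a sharp upper tail: Chernoff and tilting
-/

open MeasureTheory ProbabilityTheory Filter Topology Set

namespace Vale.Agent.P146.Sh

section tilt

variable {Ω : Type*} [MeasurableSpace Ω] {μ : Measure Ω} [IsProbabilityMeasure μ] {X : Ω → ℝ}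

/-- Chernoff. -/
theorem ldp_chernoff (hX : ∀ x : ℝ, Integrable (fun ω => Real.exp (x * X ω)) μ) {x a : ℝ}
    (hx : 0 ≤ x) : μ.real {ω | a ≤ X ω} ≤
      Real.exp (-(x * a)) * ∫ ω, Real.exp (x * X ω) ∂μ := by
  have h := measure_ge_le_exp_mul_mgf (μ := μ) (X := X) a hx (hX x)
  rw [neg_mul] at h
  exact h

/-- Tilting. -/
theorem ldp_tilt (hm : Measurable X) (hX : ∀ x : ℝ, Integrable (fun ω => Real.exp (x * X ω)) μ)
    {x h a b : ℝ} (hx : 0 ≤ x) (hh : 0 ≤ h) :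
    ∫ ω, Real.exp (x * X ω) ∂μ ≤ Real.exp (x * b) * μ.real {ω | a ≤ X ω} +
      Real.exp (h * a) * ∫ ω, Real.exp ((x - h) * X ω) ∂μ +
        Real.exp (-(h * b)) * ∫ ω, Real.exp ((x + h) * X ω) ∂μ := by
  have hms : MeasurableSet {ω | a ≤ X ω} := measurableSet_le measurable_const hm
  have hpt : ∀ ω, Real.exp (x * X ω) ≤ Real.exp (x * b) * ({ω | a ≤ X ω}.indicator 1 ω) +
      Real.exp (h * a) * Real.exp ((x - h) * X ω) +
        Real.exp (-(h * b)) * Real.exp ((x + h) * X ω) := by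
    intro ω
    have p1 : 0 < Real.exp (h * a) * Real.exp ((x - h) * X ω) := by positivity
    have p2 : 0 < Real.exp (-(h * b)) * Real.exp ((x + h) * X ω) := by positivity
    by_cases hA : a ≤ X ω
    · rw [Set.indicator_of_mem (by exact hA)]
      simp only [Pi.one_apply, mul_one]
      by_cases hB : X ω ≤ b
      · have : Real.exp (x * X ω) ≤ Real.exp (x * b) :=
          Real.exp_le_exp.2 (mul_le_mul_of_nonneg_left hB hx)
        linarith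
      · push Not at hB
        have h1 : Real.exp (x * X ω) ≤ Real.exp (-(h * b)) * Real.exp ((x + h) * X ω) := by
          rw [← Real.exp_add]
          apply Real.exp_le_exp.2
          linarith only [mul_nonneg (sub_nonneg.2 hh) (le_of_lt (sub_pos.2 hB))]
        have := Real.exp_pos (x * b)
        linarith
    · rw [Set.indicator_of_notMem (by exact hA)]
      push Not at hA
      have h1 : Real.exp (x * X ω) ≤ Real.exp (h * a) * Real.exp ((x - h) * X ω) := by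
        rw [← Real.exp_add]
        apply Real.exp_le_exp.2
        linarith only [mul_nonneg (sub_nonneg.2 hh) (le_of_lt (sub_pos.2 hA))]
      simp only [mul_zero, zero_add]
      linarith
  have hi1 : Integrable (fun ω => Real.exp (x * b) * ({ω | a ≤ X ω}.indicator (1 : Ω → ℝ) ω)) μ :=
    ((integrable_const (1 : ℝ)).indicator hms).const_mul _
  have hi2 : Integrable (fun ω => Real.exp (h * a) * Real.exp ((x - h) * X ω)) μ :=
    (hX (x - h)).const_mul _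
  have hi3 : Integrable (fun ω => Real.exp (-(h * b)) * Real.exp ((x + h) * X ω)) μ :=
    (hX (x + h)).const_mul _
  refine (integral_mono (hX x) ((hi1.add hi2).add hi3) hpt).trans (le_of_eq ?_)
  rw [integral_add' (hi1.add hi2) hi3, integral_add' hi1 hi2, integral_const_mul,
    integral_const_mul, integral_const_mul, integral_indicator_one hms]

end tilt

section poly

variable {δ : ℝ}

theorem ldp_p1 (h0 : 0 ≤ δ) (h1 : δ ≤ 1 / 10) :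
    6 * δ + 7 * δ ^ 2 ≤ (1 + δ) ^ 5 * (1 - (1 - δ) ^ 6) := by
  have e1 : (1 - δ) ^ 6 ≤ 1 - 6 * δ + 15 * δ ^ 2 := by
    have h2 : 1 - 6 * δ + 15 * δ ^ 2 - (1 - δ) ^ 6 = δ ^ 3 * (20 - 15 * δ + 6 * δ ^ 2 - δ ^ 3) := by
      ring
    have h3 : 0 ≤ 20 - 15 * δ + 6 * δ ^ 2 - δ ^ 3 := by nlinarith [pow_nonneg h0 2, pow_nonneg h0 3]
    linarith only [mul_nonneg (pow_nonneg h0 3) h3]
  have e2 : 1 + 5 * δ ≤ (1 + δ) ^ 5 := by
    have h2 : (1 + δ) ^ 5 - (1 + 5 * δ) = δ ^ 2 * (10 + 10 * δ + 5 * δ ^ 2 + δ ^ 3) := by ring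
    have h3 : 0 ≤ δ ^ 2 * (10 + 10 * δ + 5 * δ ^ 2 + δ ^ 3) := by (clear * - h0; positivity)
    linarith only [h3]
  have e3 : 0 ≤ 6 * δ - 15 * δ ^ 2 := by nlinarith
  calc 6 * δ + 7 * δ ^ 2 ≤ (1 + 5 * δ) * (6 * δ - 15 * δ ^ 2) := by
        nlinarith [mul_nonneg (pow_nonneg h0 2) (sub_nonneg.2 h1)]
    _ ≤ (1 + δ) ^ 5 * (6 * δ - 15 * δ ^ 2) := mul_le_mul_of_nonneg_right e2 e3
    _ ≤ _ := mul_le_mul_of_nonneg_left (by linarith) (by positivity)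

theorem ldp_p2 (h0 : 0 ≤ δ) (h1 : δ ≤ 1 / 10) :
    (1 + δ) ^ 5 * ((1 + δ) ^ 6 - 1) ≤ 6 * δ * (1 + 20 * δ) - 7 * δ ^ 2 := by
  have e1 : (1 + δ) ^ 6 - 1 ≤ 6 * δ + 18 * δ ^ 2 := by
    have h2 : 6 * δ + 18 * δ ^ 2 - ((1 + δ) ^ 6 - 1) =
        δ ^ 2 * (3 - 20 * δ - 15 * δ ^ 2 - 6 * δ ^ 3 - δ ^ 4) := by ring
    have q2 : δ ^ 2 ≤ 1 / 100 := by linarith only [mul_nonneg (sub_nonneg.2 h1) (sub_nonneg.2 h1), mul_nonneg (sub_nonneg.2 h0) (sub_nonneg.2 h1)]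
    have q3 : δ ^ 3 ≤ 1 / 1000 := by nlinarith [pow_nonneg h0 2]
    have q4 : δ ^ 4 ≤ 1 / 10000 := by nlinarith [pow_nonneg h0 3]
    have h3 : 0 ≤ 3 - 20 * δ - 15 * δ ^ 2 - 6 * δ ^ 3 - δ ^ 4 := by linarith
    linarith only [mul_nonneg (pow_nonneg h0 2) h3]
  have e2 : (1 + δ) ^ 5 ≤ 1 + 7 * δ := by
    have h2 : 1 + 7 * δ - (1 + δ) ^ 5 = δ * (2 - 10 * δ - 10 * δ ^ 2 - 5 * δ ^ 3 - δ ^ 4) := by ring
    have q2 : δ ^ 2 ≤ 1 / 100 := by nlinarith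
    have q3 : δ ^ 3 ≤ 1 / 1000 := by nlinarith [pow_nonneg h0 2]
    have q4 : δ ^ 4 ≤ 1 / 10000 := by linarith only [mul_nonneg (sub_nonneg.2 q3) (sub_nonneg.2 (pow_nonneg h0 3)), mul_nonneg (sub_nonneg.2 q3) (sub_nonneg.2 q3), mul_nonneg (sub_nonneg.2 h1) (sub_nonneg.2 (pow_nonneg h0 3))]
    have h3 : 0 ≤ 2 - 10 * δ - 10 * δ ^ 2 - 5 * δ ^ 3 - δ ^ 4 := by linarith
    linarith only [mul_nonneg h0 h3]
  calc (1 + δ) ^ 5 * ((1 + δ) ^ 6 - 1) ≤ (1 + δ) ^ 5 * (6 * δ + 18 * δ ^ 2) :=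
        mul_le_mul_of_nonneg_left e1 (by positivity)
    _ ≤ (1 + 7 * δ) * (6 * δ + 18 * δ ^ 2) := mul_le_mul_of_nonneg_right e2 (by positivity)
    _ ≤ _ := by nlinarith [mul_nonneg (pow_nonneg h0 2) (sub_nonneg.2 h1)]

theorem ldp_p3 (h0 : 0 ≤ δ) (h1 : δ ≤ 1 / 10) : (1 + δ) ^ 6 ≤ 2 := by
  calc (1 + δ) ^ 6 ≤ (1 + 1 / 10) ^ 6 := pow_le_pow_left₀ (by linarith) (by linarith only [h1]) 6
    _ ≤ 2 := by norm_num

end poly

section real

variable {p A δ e t n : ℝ}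

theorem ldp_realL (hA : 0 < A) (h0 : 0 < δ) (h1 : δ ≤ 1 / 10) (he : 0 ≤ e)
    (he1 : 5 * e ≤ A * δ ^ 2) (ht : 0 < t) (hn : 0 ≤ n) {l1 l2 : ℝ}
    (H1 : |l1 - ((1 + δ) * t) * (n * p) - A * n * ((1 + δ) * t) ^ 6| ≤
      e * n * ((1 + δ) * t) ^ 6)
    (H2 : |l2 - ((1 + δ) * t - δ * ((1 + δ) * t)) * (n * p) -
      A * n * ((1 + δ) * t - δ * ((1 + δ) * t)) ^ 6| ≤
        e * n * ((1 + δ) * t - δ * ((1 + δ) * t)) ^ 6) :
    (δ * ((1 + δ) * t)) * (n * (p + 6 * A * t ^ 5)) + l2 ≤ l1 - n * (5 * A * δ ^ 2 * t ^ 6) := by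
  have hp1 := ldp_p1 h0.le h1
  have hp3 := ldp_p3 h0.le h1
  have hx6 : ((1 + δ) * t) ^ 6 = (1 + δ) ^ 6 * t ^ 6 := by ring
  have hxm : ((1 + δ) * t - δ * ((1 + δ) * t)) ^ 6 = (1 - δ) ^ 6 * (1 + δ) ^ 6 * t ^ 6 := by ring
  rw [hx6] at H1
  rw [hxm] at H2
  obtain ⟨a1, -⟩ := abs_le.1 H1
  obtain ⟨-, b2⟩ := abs_le.1 H2
  have hm1 : (1 - δ) ^ 6 ≤ 1 := pow_le_one₀ (by linarith only [h1, h0]) (by linarith only [h0])
  have hm0 : 0 ≤ (1 - δ) ^ 6 := by positivity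
  have hp0 : 1 ≤ (1 + δ) ^ 6 := one_le_pow₀ (by linarith only [h0])
  have hnt : 0 ≤ n * t ^ 6 := by positivity
  have e4 : (1 + δ) * (6 * δ - (1 + δ) ^ 5 * (1 - (1 - δ) ^ 6)) ≤ -(7 * δ ^ 2) := by
    have q1 : 6 * δ - (1 + δ) ^ 5 * (1 - (1 - δ) ^ 6) ≤ -(7 * δ ^ 2) := by linarith only [hp1]
    have q2 : 0 ≤ δ ^ 2 := by positivity
    (by_contra nlg; linarith only [nlg, mul_nonneg (sub_nonneg.2 q2) (sub_nonneg.2 q2), mul_nonneg (sub_nonneg.2 q1) (sub_nonneg.2 q2), mul_nonneg (le_of_lt (sub_pos.2 h0)) (sub_nonneg.2 q1), mul_pos (sub_pos.2 (not_le.1 nlg)) (sub_pos.2 h0)])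
  have e4' : A * ((1 + δ) * (6 * δ - (1 + δ) ^ 5 * (1 - (1 - δ) ^ 6))) ≤ A * (-(7 * δ ^ 2)) :=
    mul_le_mul_of_nonneg_left e4 hA.le
  have q1 : (1 + δ) ^ 6 * ((1 - δ) ^ 6 + 1) ≤ 4 := by
    calc (1 + δ) ^ 6 * ((1 - δ) ^ 6 + 1) ≤ 2 * (1 + 1) :=
          mul_le_mul hp3 (by linarith only [hm1]) (by linarith only [hm0, h1, h0]) (by norm_num)
      _ = 4 := by norm_num
  have e5 : e * ((1 + δ) ^ 6 * ((1 - δ) ^ 6 + 1)) ≤ e * 4 := mul_le_mul_of_nonneg_left q1 he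
  have q2 : 0 ≤ A * δ ^ 2 := by positivity
  have e6 : n * t ^ 6 * (A * ((1 + δ) * (6 * δ - (1 + δ) ^ 5 * (1 - (1 - δ) ^ 6))) +
          e * ((1 + δ) ^ 6 * ((1 - δ) ^ 6 + 1))) ≤ n * t ^ 6 * (-(5 * A * δ ^ 2)) :=
    mul_le_mul_of_nonneg_left (by linarith only [q2, e5, e4', he1]) hnt
  have e3 : n * t ^ 6 * (A * ((1 + δ) * (6 * δ - (1 + δ) ^ 5 * (1 - (1 - δ) ^ 6))) +
      e * ((1 + δ) ^ 6 * ((1 - δ) ^ 6 + 1))) = n * t ^ 6 * (A * ((1 + δ) * (6 * δ))) +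
      (A * n * ((1 - δ) ^ 6 * (1 + δ) ^ 6 * t ^ 6) - A * n * ((1 + δ) ^ 6 * t ^ 6)) +
      (e * n * ((1 - δ) ^ 6 * (1 + δ) ^ 6 * t ^ 6) + e * n * ((1 + δ) ^ 6 * t ^ 6)) := by
    ring
  have e2 : (δ * ((1 + δ) * t)) * (n * (p + 6 * A * t ^ 5)) =
      δ * ((1 + δ) * t) * (n * p) + n * t ^ 6 * (A * ((1 + δ) * (6 * δ))) := by ring
  have e7 : n * t ^ 6 * (-(5 * A * δ ^ 2)) = -(n * (5 * A * δ ^ 2 * t ^ 6)) := by ring
  have e8 : ((1 + δ) * t - δ * ((1 + δ) * t)) * (n * p) =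
      (1 + δ) * t * (n * p) - δ * ((1 + δ) * t) * (n * p) := by ring
  rw [e2]
  rw [e8] at b2
  linarith only [e6, b2, a1]

theorem ldp_realR (hA : 0 < A) (h0 : 0 < δ) (h1 : δ ≤ 1 / 10) (he : 0 ≤ e)
    (he1 : 5 * e ≤ A * δ ^ 2) (ht : 0 < t) (hn : 0 ≤ n) {l1 l2 : ℝ}
    (H1 : |l1 - ((1 + δ) * t) * (n * p) - A * n * ((1 + δ) * t) ^ 6| ≤
      e * n * ((1 + δ) * t) ^ 6)
    (H2 : |l2 - ((1 + δ) * t + δ * ((1 + δ) * t)) * (n * p) -
      A * n * ((1 + δ) * t + δ * ((1 + δ) * t)) ^ 6| ≤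
        e * n * ((1 + δ) * t + δ * ((1 + δ) * t)) ^ 6) :
    -((δ * ((1 + δ) * t)) * (n * (p + (1 + 20 * δ) * (6 * A * t ^ 5)))) + l2 ≤
      l1 - n * (5 * A * δ ^ 2 * t ^ 6) := by
  have hp2 := ldp_p2 h0.le h1
  have hp3 := ldp_p3 h0.le h1
  have hx6 : ((1 + δ) * t) ^ 6 = (1 + δ) ^ 6 * t ^ 6 := by ring
  have hxm : ((1 + δ) * t + δ * ((1 + δ) * t)) ^ 6 = (1 + δ) ^ 6 * (1 + δ) ^ 6 * t ^ 6 := by ring
  rw [hx6] at H1
  rw [hxm] at H2
  obtain ⟨a1, -⟩ := abs_le.1 H1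
  obtain ⟨-, b2⟩ := abs_le.1 H2
  have hp0 : 1 ≤ (1 + δ) ^ 6 := one_le_pow₀ (by linarith only [h0])
  have hnt : 0 ≤ n * t ^ 6 := by positivity
  have e4 : (1 + δ) * ((1 + δ) ^ 5 * ((1 + δ) ^ 6 - 1) - 6 * δ * (1 + 20 * δ)) ≤
      -(7 * δ ^ 2) := by
    have q1 : (1 + δ) ^ 5 * ((1 + δ) ^ 6 - 1) - 6 * δ * (1 + 20 * δ) ≤ -(7 * δ ^ 2) := by linarith only [hp2]
    have q2 : 0 ≤ δ ^ 2 := by positivity
    (by_contra nlg; linarith only [nlg, mul_nonneg (sub_nonneg.2 q2) (sub_nonneg.2 q2), mul_nonneg (sub_nonneg.2 q1) (sub_nonneg.2 q2), mul_nonneg (le_of_lt (sub_pos.2 h0)) (sub_nonneg.2 q1), mul_pos (sub_pos.2 (not_le.1 nlg)) (sub_pos.2 h0)])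
  have e4' : A * ((1 + δ) * ((1 + δ) ^ 5 * ((1 + δ) ^ 6 - 1) - 6 * δ * (1 + 20 * δ))) ≤
      A * (-(7 * δ ^ 2)) := mul_le_mul_of_nonneg_left e4 hA.le
  have q1 : (1 + δ) ^ 6 * ((1 + δ) ^ 6 + 1) ≤ 6 := by
    calc (1 + δ) ^ 6 * ((1 + δ) ^ 6 + 1) ≤ 2 * (2 + 1) :=
          mul_le_mul hp3 (by linarith only [hp3]) (by linarith only [hp0, h1, h0]) (by norm_num)
      _ = 6 := by norm_num
  have e5 : e * ((1 + δ) ^ 6 * ((1 + δ) ^ 6 + 1)) ≤ e * 6 := mul_le_mul_of_nonneg_left q1 he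
  have q2 : 0 ≤ A * δ ^ 2 := by positivity
  have e6 : n * t ^ 6 * (A * ((1 + δ) * ((1 + δ) ^ 5 * ((1 + δ) ^ 6 - 1) -
      6 * δ * (1 + 20 * δ))) + e * ((1 + δ) ^ 6 * ((1 + δ) ^ 6 + 1))) ≤
      n * t ^ 6 * (-(5 * A * δ ^ 2)) :=
    mul_le_mul_of_nonneg_left (by linarith only [q2, e5, e4', he1]) hnt
  have e3 : n * t ^ 6 * (A * ((1 + δ) * ((1 + δ) ^ 5 * ((1 + δ) ^ 6 - 1) -
      6 * δ * (1 + 20 * δ))) + e * ((1 + δ) ^ 6 * ((1 + δ) ^ 6 + 1))) =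
      -(n * t ^ 6 * (A * ((1 + δ) * (6 * δ * (1 + 20 * δ))))) +
      (A * n * ((1 + δ) ^ 6 * (1 + δ) ^ 6 * t ^ 6) - A * n * ((1 + δ) ^ 6 * t ^ 6)) +
      (e * n * ((1 + δ) ^ 6 * (1 + δ) ^ 6 * t ^ 6) + e * n * ((1 + δ) ^ 6 * t ^ 6)) := by
    ring
  have e2 : (δ * ((1 + δ) * t)) * (n * (p + (1 + 20 * δ) * (6 * A * t ^ 5))) =
      δ * ((1 + δ) * t) * (n * p) +
        n * t ^ 6 * (A * ((1 + δ) * (6 * δ * (1 + 20 * δ)))) := by ring
  have e7 : n * t ^ 6 * (-(5 * A * δ ^ 2)) = -(n * (5 * A * δ ^ 2 * t ^ 6)) := by ring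
  have e8 : ((1 + δ) * t + δ * ((1 + δ) * t)) * (n * p) =
      (1 + δ) * t * (n * p) + δ * ((1 + δ) * t) * (n * p) := by ring
  rw [e2]
  rw [e8] at b2
  linarith only [e6, b2, a1]

theorem ldp_realM (hA : 0 < A) (h0 : 0 < δ) (h1 : δ ≤ 1 / 10) (he : 0 ≤ e)
    (ht : 0 < t) (hn : 0 ≤ n) {l1 q : ℝ}
    (H1 : |l1 - ((1 + δ) * t) * (n * p) - A * n * ((1 + δ) * t) ^ 6| ≤
      e * n * ((1 + δ) * t) ^ 6)
    (H : l1 - 1 ≤ ((1 + δ) * t) * (n * (p + (1 + 20 * δ) * (6 * A * t ^ 5))) + q) :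
    -(5 * A * n * t ^ 6) - (138 * A * δ + 2 * e) * (n * t ^ 6) - 1 ≤ q := by
  have hp3 := ldp_p3 h0.le h1
  have hx6 : ((1 + δ) * t) ^ 6 = (1 + δ) ^ 6 * t ^ 6 := by ring
  rw [hx6] at H1
  obtain ⟨a1, -⟩ := abs_le.1 H1
  have hp0 : 1 ≤ (1 + δ) ^ 6 := one_le_pow₀ (by linarith only [h0])
  have hnt : 0 ≤ n * t ^ 6 := by positivity
  have f1 : ((1 + δ) * t) * (n * (p + (1 + 20 * δ) * (6 * A * t ^ 5))) =
      (1 + δ) * t * (n * p) + n * t ^ 6 * (A * (6 * ((1 + δ) * (1 + 20 * δ)))) := by ring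
  have q1 : 6 * ((1 + δ) * (1 + 20 * δ)) ≤ 6 + 138 * δ := by (by_contra nlg; linarith only [nlg, mul_nonneg (le_of_lt (sub_pos.2 h0)) (sub_nonneg.2 h1), mul_nonneg (le_of_lt (sub_pos.2 (not_le.1 nlg))) (sub_nonneg.2 h1), mul_pos (sub_pos.2 (not_le.1 nlg)) (sub_pos.2 h0)])
  have f2 : A * (6 * ((1 + δ) * (1 + 20 * δ))) ≤ A * (6 + 138 * δ) :=
    mul_le_mul_of_nonneg_left q1 hA.le
  have f3 : n * t ^ 6 * (A * (6 * ((1 + δ) * (1 + 20 * δ)))) ≤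
      n * t ^ 6 * (A * (6 + 138 * δ)) := mul_le_mul_of_nonneg_left f2 hnt
  have f4 : 1 * (A * (n * t ^ 6)) ≤ (1 + δ) ^ 6 * (A * (n * t ^ 6)) :=
    mul_le_mul_of_nonneg_right hp0 (by positivity)
  have f5 : (1 + δ) ^ 6 * (e * (n * t ^ 6)) ≤ 2 * (e * (n * t ^ 6)) :=
    mul_le_mul_of_nonneg_right hp3 (by positivity)
  have f6 : A * n * ((1 + δ) ^ 6 * t ^ 6) = (1 + δ) ^ 6 * (A * (n * t ^ 6)) := by ring
  have f7 : e * n * ((1 + δ) ^ 6 * t ^ 6) = (1 + δ) ^ 6 * (e * (n * t ^ 6)) := by ring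
  have f8 : n * t ^ 6 * (A * (6 + 138 * δ)) =
      5 * A * n * t ^ 6 + 1 * (A * (n * t ^ 6)) + 138 * A * δ * (n * t ^ 6) := by ring
  have f9 : (138 * A * δ + 2 * e) * (n * t ^ 6) =
      138 * A * δ * (n * t ^ 6) + 2 * (e * (n * t ^ 6)) := by ring
  rw [f9]
  rw [f1] at H
  rw [f6, f7] at a1
  linarith only [f5, f4, f3, a1, H]

theorem ldp_exp2 : Real.exp (-2) ≤ 1 / 4 := by
  have q1 : (2 : ℝ) ≤ Real.exp 1 := by
    have := Real.add_one_le_exp (1 : ℝ)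
    linarith
  have q2 : Real.exp (-2) * (Real.exp 1 * Real.exp 1) = 1 := by
    rw [← Real.exp_add, ← Real.exp_add]
    norm_num
  have q3 := Real.exp_pos (-2)
  have q4 : 4 ≤ Real.exp 1 * Real.exp 1 := by (by_contra nlg; linarith [mul_nonneg (sub_nonneg.2 q1) (sub_nonneg.2 q1), mul_nonneg (le_of_lt (sub_pos.2 (not_le.1 nlg))) (sub_nonneg.2 q1), mul_pos (sub_pos.2 (not_le.1 nlg)) (sub_pos.2 (not_le.1 nlg)), mul_nonneg (mul_self_nonneg (Real.exp 1 : ℝ)) (sub_nonneg.2 q1), mul_nonneg (mul_self_nonneg (Real.exp 1 : ℝ)) (le_of_lt (sub_pos.2 (not_le.1 nlg)))])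
  nlinarith

theorem ldp_quarter {M M' c : ℝ} (hM : 0 < M) (hM' : 0 < M')
    (h : c + Real.log M' ≤ Real.log M - 2) : Real.exp c * M' ≤ M / 4 := by
  calc Real.exp c * M' = Real.exp (c + Real.log M') := by
        rw [Real.exp_add, Real.exp_log hM']
    _ ≤ Real.exp (Real.log M + -2) := Real.exp_le_exp.2 (by linarith)
    _ = M * Real.exp (-2) := by rw [Real.exp_add, Real.exp_log hM]
    _ ≤ M * (1 / 4) := mul_le_mul_of_nonneg_left ldp_exp2 hM.le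
    _ = M / 4 := by ring

end real

section core

variable {Ω : Type*} [MeasurableSpace Ω] {μ : Measure Ω} [IsProbabilityMeasure μ] {X : Ω → ℝ}

/-- one `n`: the lower bound -/
theorem ldp_low (hm : Measurable X)
    (hX : ∀ x : ℝ, Integrable (fun ω => Real.exp (x * X ω)) μ) {p A : ℝ}
    {δ e t n : ℝ} (hA : 0 < A) (h0 : 0 < δ) (h1 : δ ≤ 1 / 10) (he : 0 ≤ e)
    (he1 : 5 * e ≤ A * δ ^ 2) (ht : 0 < t) (hn : 0 ≤ n)
    (H1 : |Real.log (∫ ω, Real.exp (((1 + δ) * t) * X ω) ∂μ) - ((1 + δ) * t) * (n * p) -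
      A * n * ((1 + δ) * t) ^ 6| ≤ e * n * ((1 + δ) * t) ^ 6)
    (H2 : |Real.log (∫ ω, Real.exp (((1 + δ) * t - δ * ((1 + δ) * t)) * X ω) ∂μ) -
      ((1 + δ) * t - δ * ((1 + δ) * t)) * (n * p) -
      A * n * ((1 + δ) * t - δ * ((1 + δ) * t)) ^ 6| ≤
        e * n * ((1 + δ) * t - δ * ((1 + δ) * t)) ^ 6)
    (H3 : |Real.log (∫ ω, Real.exp (((1 + δ) * t + δ * ((1 + δ) * t)) * X ω) ∂μ) -
      ((1 + δ) * t + δ * ((1 + δ) * t)) * (n * p) -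
      A * n * ((1 + δ) * t + δ * ((1 + δ) * t)) ^ 6| ≤
        e * n * ((1 + δ) * t + δ * ((1 + δ) * t)) ^ 6)
    (hn2 : 2 ≤ n * (5 * A * δ ^ 2 * t ^ 6)) :
    0 < μ.real {ω | n * (p + 6 * A * t ^ 5) ≤ X ω} ∧
    -(5 * A * n * t ^ 6) - (138 * A * δ + 2 * e) * (n * t ^ 6) - 1 ≤
      Real.log (μ.real {ω | n * (p + 6 * A * t ^ 5) ≤ X ω}) := by
  have k1 := integral_exp_pos (hX ((1 + δ) * t))
  have k2 := integral_exp_pos (hX ((1 + δ) * t - δ * ((1 + δ) * t)))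
  have k3 := integral_exp_pos (hX ((1 + δ) * t + δ * ((1 + δ) * t)))
  have L := ldp_realL hA h0 h1 he he1 ht hn H1 H2
  have R := ldp_realR hA h0 h1 he he1 ht hn H1 H3
  have L' := ldp_quarter k1 k2 (L.trans (by linarith only [hn2]))
  have R' := ldp_quarter k1 k3 (R.trans (by linarith only [hn2]))
  have T := ldp_tilt (μ := μ) (a := n * (p + 6 * A * t ^ 5))
    (b := n * (p + (1 + 20 * δ) * (6 * A * t ^ 5))) hm hX
    (show 0 ≤ (1 + δ) * t by positivity) (show 0 ≤ δ * ((1 + δ) * t) by positivity)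
  generalize (∫ ω, Real.exp (((1 + δ) * t) * X ω) ∂μ) = M1 at *
  generalize μ.real {ω | n * (p + 6 * A * t ^ 5) ≤ X ω} = P at *
  have T2 : M1 / 2 ≤ Real.exp (((1 + δ) * t) * (n * (p + (1 + 20 * δ) * (6 * A * t ^ 5)))) * P := by
    linarith only [T, R', L']
  have T3 : 0 < P := by
    have q1 : 0 < Real.exp (((1 + δ) * t) * (n * (p + (1 + 20 * δ) * (6 * A * t ^ 5)))) * P := by
      linarith only [T2, k1]
    exact pos_of_mul_pos_right q1 (Real.exp_pos _).le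
  refine ⟨T3, ldp_realM hA h0 h1 he ht hn H1 ?_⟩
  have T4 : Real.log (M1 / 2) ≤
      ((1 + δ) * t) * (n * (p + (1 + 20 * δ) * (6 * A * t ^ 5))) + Real.log P := by
    rw [← Real.log_exp (((1 + δ) * t) * (n * (p + (1 + 20 * δ) * (6 * A * t ^ 5)))),
      ← Real.log_mul (Real.exp_pos _).ne' T3.ne']
    exact Real.log_le_log (by positivity) T2
  rw [Real.log_div k1.ne' two_ne_zero] at T4
  have hl2 : Real.log 2 ≤ 1 := by
    have := Real.log_le_sub_one_of_pos (show (0 : ℝ) < 2 by norm_num)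
    linarith only [this]
  linarith only [hl2, T4]

/-- one `n`: the upper bound -/
theorem ldp_up (hX : ∀ x : ℝ, Integrable (fun ω => Real.exp (x * X ω)) μ) {p A e t n : ℝ}
    (ht : 0 < t)
    (H : |Real.log (∫ ω, Real.exp (t * X ω) ∂μ) - t * (n * p) - A * n * t ^ 6| ≤ e * n * t ^ 6)
    (hP : 0 < μ.real {ω | n * (p + 6 * A * t ^ 5) ≤ X ω}) :
    Real.log (μ.real {ω | n * (p + 6 * A * t ^ 5) ≤ X ω}) ≤
      -(5 * A * n * t ^ 6) + e * n * t ^ 6 := by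
  have k := integral_exp_pos (hX t)
  have h1 := Real.log_le_log hP (ldp_chernoff (a := n * (p + 6 * A * t ^ 5)) hX ht.le)
  rw [Real.log_mul (Real.exp_pos _).ne' k.ne', Real.log_exp] at h1
  obtain ⟨-, h2⟩ := abs_le.1 H
  have h3 : t * (n * (p + 6 * A * t ^ 5)) = t * (n * p) + 6 * (A * n * t ^ 6) := by ring
  rw [h3] at h1
  linarith

end core

section asym

variable {Ω : ℕ → Type*} [∀ n, MeasurableSpace (Ω n)] {μ : ∀ n, Measure (Ω n)}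
  [∀ n, IsProbabilityMeasure (μ n)] {X : ∀ n, Ω n → ℝ}

theorem ldp_t (hm : ∀ n, Measurable (X n))
    (hX : ∀ (n : ℕ) (x : ℝ), Integrable (fun ω => Real.exp (x * X n ω)) (μ n)) {p A : ℝ}
    (hA : 0 < A)
    (H : ∀ ε : ℝ, 0 < ε → ∃ x₀ : ℝ, 0 < x₀ ∧ ∀ x : ℝ, 0 < x → x ≤ x₀ → ∀ᶠ n : ℕ in atTop,
      |Real.log (∫ ω, Real.exp (x * X n ω) ∂(μ n)) - x * (n * p) - A * n * x ^ 6| ≤
        ε * n * x ^ 6) {ε : ℝ} (hε : 0 < ε) :
    ∃ t₀ : ℝ, 0 < t₀ ∧ ∀ t : ℝ, 0 < t → t ≤ t₀ → ∀ᶠ n : ℕ in atTop,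
      |Real.log ((μ n).real {ω | n * (p + 6 * A * t ^ 5) ≤ X n ω}) + 5 * A * n * t ^ 6| ≤
        ε * n * t ^ 6 := by
  obtain ⟨δ, h0, h1, hδ⟩ : ∃ δ : ℝ, 0 < δ ∧ δ ≤ 1 / 10 ∧ 138 * A * δ ≤ ε / 4 := by
    refine ⟨min (1 / 10) (ε / (552 * A)), by positivity, min_le_left _ _, ?_⟩
    have h2 : min (1 / 10) (ε / (552 * A)) ≤ ε / (552 * A) := min_le_right _ _
    calc 138 * A * min (1 / 10) (ε / (552 * A)) ≤ 138 * A * (ε / (552 * A)) :=
          mul_le_mul_of_nonneg_left h2 (by positivity)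
      _ = ε / 4 := by field_simp; norm_num
  obtain ⟨e, he, he1, he2⟩ : ∃ e : ℝ, 0 < e ∧ 5 * e ≤ A * δ ^ 2 ∧ 2 * e ≤ ε / 4 := by
    refine ⟨min (A * δ ^ 2 / 5) (ε / 8), by positivity, ?_, ?_⟩
    · have := min_le_left (A * δ ^ 2 / 5) (ε / 8)
      linarith only [this]
    · have := min_le_right (A * δ ^ 2 / 5) (ε / 8)
      linarith only [this]
  obtain ⟨x₀, hx₀, hH⟩ := H e he
  refine ⟨x₀ / 2, by positivity, fun t ht ht0 => ?_⟩
  have c1 : 0 < (1 + δ) * t := by positivity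
  have c2 : (1 + δ) * t ≤ x₀ := by (by_contra nlg; linarith only [nlg, mul_nonneg (sub_nonneg.2 h1) (le_of_lt (sub_pos.2 c1)), mul_nonneg (sub_nonneg.2 h1) (sub_nonneg.2 ht0), mul_nonneg (le_of_lt (sub_pos.2 h0)) (sub_nonneg.2 ht0), mul_pos (sub_pos.2 h0) (sub_pos.2 ht), mul_nonneg (le_of_lt (sub_pos.2 (not_le.1 nlg))) (sub_nonneg.2 h1), mul_pos (sub_pos.2 (not_le.1 nlg)) (sub_pos.2 h0)])
  have c3 : 0 < (1 + δ) * t - δ * ((1 + δ) * t) := by (by_contra nlg; linarith only [nlg, mul_nonneg (sub_nonneg.2 h1) (le_of_lt (sub_pos.2 c1)), mul_pos (sub_pos.2 h0) (sub_pos.2 c1), mul_nonneg (sub_nonneg.2 (not_lt.1 nlg)) (sub_nonneg.2 h1), mul_nonneg (sub_nonneg.2 (not_lt.1 nlg)) (le_of_lt (sub_pos.2 h0))])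
  have c4 : (1 + δ) * t - δ * ((1 + δ) * t) ≤ x₀ := by nlinarith
  have c5 : 0 < (1 + δ) * t + δ * ((1 + δ) * t) := by positivity
  have c6 : (1 + δ) * t + δ * ((1 + δ) * t) ≤ x₀ := by
    have : (1 + δ) * t + δ * ((1 + δ) * t) = (1 + δ) ^ 2 * t := by ring
    rw [this]
    have h2 : (1 + δ) ^ 2 ≤ 2 := by (by_contra nlg; linarith only [nlg, mul_nonneg (sub_nonneg.2 h1) (le_of_lt (sub_pos.2 c5)), mul_nonneg (sub_nonneg.2 h1) (le_of_lt (sub_pos.2 c3)), mul_pos (sub_pos.2 h0) (sub_pos.2 c5), mul_pos (sub_pos.2 (not_le.1 nlg)) (sub_pos.2 c5), mul_pos (sub_pos.2 (not_le.1 nlg)) (sub_pos.2 c3)])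
    (by_contra nlg; linarith only [nlg, mul_nonneg (le_of_lt (sub_pos.2 c3)) (sub_nonneg.2 h2), mul_nonneg (sub_nonneg.2 ht0) (sub_nonneg.2 h2), mul_nonneg (le_of_lt (sub_pos.2 h0)) (sub_nonneg.2 ht0), mul_nonneg (le_of_lt (sub_pos.2 (not_le.1 nlg))) (sub_nonneg.2 h2), mul_pos (sub_pos.2 (not_le.1 nlg)) (sub_pos.2 h0)])
  have n1 : ∀ᶠ n : ℕ in atTop, 2 ≤ (n : ℝ) * (5 * A * δ ^ 2 * t ^ 6) := by
    have h2 : 0 < 5 * A * δ ^ 2 * t ^ 6 := by positivity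
    exact (tendsto_natCast_atTop_atTop.atTop_mul_const h2).eventually_ge_atTop 2
  have n2 : ∀ᶠ n : ℕ in atTop, 1 ≤ (n : ℝ) * (ε / 4 * t ^ 6) := by
    have h2 : 0 < ε / 4 * t ^ 6 := by positivity
    exact (tendsto_natCast_atTop_atTop.atTop_mul_const h2).eventually_ge_atTop 1
  filter_upwards [hH t ht (by linarith only [ht0, ht]), hH _ c1 c2, hH _ c3 c4, hH _ c5 c6, n1, n2]
    with n k0 k1 k2 k3 k4 k5
  have hn : (0 : ℝ) ≤ n := Nat.cast_nonneg n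
  obtain ⟨hP, hlow⟩ := ldp_low (hm n) (hX n) hA h0 h1 he.le he1 ht hn k1 k2 k3 k4
  have hup := ldp_up (hX n) ht k0 hP
  have hnt : 0 ≤ (n : ℝ) * t ^ 6 := by (clear * - ht; positivity)
  have d1 : (138 * A * δ + 2 * e) * ((n : ℝ) * t ^ 6) ≤ (ε / 4 + ε / 4) * (n * t ^ 6) :=
    mul_le_mul_of_nonneg_right (add_le_add hδ he2) hnt
  have d2 : e * n * t ^ 6 ≤ ε * n * t ^ 6 := by
    have : e ≤ ε := by linarith only [he2, he]
    rw [mul_assoc, mul_assoc]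
    exact mul_le_mul_of_nonneg_right this hnt
  have d3 : ε * n * t ^ 6 = (ε / 4 + ε / 4) * (n * t ^ 6) + n * (ε / 4 * t ^ 6) +
      n * (ε / 4 * t ^ 6) := by ring
  rw [abs_le]
  constructor
  · rw [d3]
    linarith
  · linarith only [d2, hup]

/-- from moments to the tail -/
theorem ldp_abs (hm : ∀ n, Measurable (X n))
    (hX : ∀ (n : ℕ) (x : ℝ), Integrable (fun ω => Real.exp (x * X n ω)) (μ n)) {p A : ℝ}
    (hA : 0 < A)
    (H : ∀ ε : ℝ, 0 < ε → ∃ x₀ : ℝ, 0 < x₀ ∧ ∀ x : ℝ, 0 < x → x ≤ x₀ → ∀ᶠ n : ℕ in atTop,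
      |Real.log (∫ ω, Real.exp (x * X n ω) ∂(μ n)) - x * (n * p) - A * n * x ^ 6| ≤
        ε * n * x ^ 6) :
    ∃ J : ℝ, 0 < J ∧ ∀ ε : ℝ, 0 < ε → ∃ s₀ : ℝ, 0 < s₀ ∧
    ∀ s : ℝ, 0 < s → s ≤ s₀ → ∀ᶠ n : ℕ in atTop,
      |Real.log ((μ n).real {ω | n * (p + s) ≤ X n ω}) + J * n * s ^ (6 / 5 : ℝ)| ≤
        ε * n * s ^ (6 / 5 : ℝ) := by
  have hA6 : 0 < 6 * A := by positivity
  have key : ∀ s : ℝ, 0 < s → ∃ t : ℝ, 0 < t ∧ s = 6 * A * t ^ 5 ∧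
      s ^ (6 / 5 : ℝ) = (6 * A) ^ (6 / 5 : ℝ) * t ^ 6 := by
    intro s hs
    refine ⟨(s / (6 * A)) ^ (1 / 5 : ℝ), by positivity, ?_, ?_⟩
    · rw [← Real.rpow_natCast, ← Real.rpow_mul (by positivity)]
      norm_num
      field_simp
    · rw [← Real.rpow_natCast, ← Real.rpow_mul (by positivity)]
      rw [show (1 / 5 : ℝ) * ((6 : ℕ) : ℝ) = 6 / 5 by norm_num, ← Real.mul_rpow (by positivity)
        (by positivity)]
      congr 1
      field_simp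
  set κ : ℝ := (6 * A) ^ (6 / 5 : ℝ) with hκ
  have hκ0 : 0 < κ := by positivity
  refine ⟨5 * A / κ, by positivity, fun ε hε => ?_⟩
  obtain ⟨t₀, ht₀, h⟩ := ldp_t hm hX hA H (show 0 < ε * κ by positivity)
  refine ⟨6 * A * t₀ ^ 5, by positivity, fun s hs hs0 => ?_⟩
  obtain ⟨t, ht, hst, hst2⟩ := key s hs
  have htt : t ≤ t₀ := by
    rw [hst] at hs0
    exact le_of_pow_le_pow_left₀ (by norm_num) ht₀.le (le_of_mul_le_mul_left hs0 hA6)
  filter_upwards [h t ht htt] with n hn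
  rw [hst2, hst]
  have e1 : 5 * A / κ * n * (κ * t ^ 6) = 5 * A * n * t ^ 6 := by field_simp
  have e2 : ε * n * (κ * t ^ 6) = ε * κ * n * t ^ 6 := by ring
  rw [e1, e2]
  exact hn

end asym

end Vale.Agent.P146.Sh
end

section

/-!
# P146, Sh: the sharp upper tail, uniformly down to a power of `n` (moderate deviations)
-/

open MeasureTheory ProbabilityTheory Filter Topology Set

namespace Vale.Agent.P146.Sh

section asymU

variable {Ω : ℕ → Type*} [∀ n, MeasurableSpace (Ω n)] {μ : ∀ n, Measure (Ω n)}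
  [∀ n, IsProbabilityMeasure (μ n)] {X : ∀ n, Ω n → ℝ}

theorem ldpu_pow {a : ℝ} (ha6 : 6 * a < 1) (M : ℝ) :
    ∃ N : ℕ, 1 ≤ N ∧ ∀ n : ℕ, N ≤ n → ∀ t : ℝ, (n : ℝ) ^ (-a) ≤ t → M ≤ n * t ^ 6 := by
  have h1 : Tendsto (fun n : ℕ => (n : ℝ) ^ (1 - 6 * a)) atTop atTop :=
    (tendsto_rpow_atTop (by linarith)).comp tendsto_natCast_atTop_atTop
  obtain ⟨N, hN⟩ := eventually_atTop.1 (h1.eventually_ge_atTop M)
  refine ⟨max N 1, le_max_right _ _, fun n hn t ht => ?_⟩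
  have hn1 : 1 ≤ n := (le_max_right _ _).trans hn
  have hn0 : (0 : ℝ) < n := by exact_mod_cast hn1
  have h2 := hN n ((le_max_left _ _).trans hn)
  have h3 : (n : ℝ) ^ (1 - 6 * a) = n * ((n : ℝ) ^ (-a)) ^ 6 := by
    rw [← Real.rpow_natCast ((n : ℝ) ^ (-a)) 6, ← Real.rpow_mul hn0.le,
      show (1 : ℝ) - 6 * a = 1 + (-a) * ((6 : ℕ) : ℝ) by push_cast; ring,
      Real.rpow_add hn0, Real.rpow_one]
  have h4 : ((n : ℝ) ^ (-a)) ^ 6 ≤ t ^ 6 := pow_le_pow_left₀ (by positivity) ht 6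
  calc M ≤ (n : ℝ) ^ (1 - 6 * a) := h2
    _ = n * ((n : ℝ) ^ (-a)) ^ 6 := h3
    _ ≤ n * t ^ 6 := mul_le_mul_of_nonneg_left h4 hn0.le

theorem ldp_t_u (hm : ∀ n, Measurable (X n))
    (hX : ∀ (n : ℕ) (x : ℝ), Integrable (fun ω => Real.exp (x * X n ω)) (μ n)) {p A a : ℝ}
    (hA : 0 < A) (ha6 : 6 * a < 1)
    (H : ∀ ε : ℝ, 0 < ε → ∃ x₀ : ℝ, 0 < x₀ ∧ ∃ N : ℕ, ∀ n : ℕ, N ≤ n → ∀ x : ℝ,
      (n : ℝ) ^ (-a) ≤ x → x ≤ x₀ →
      |Real.log (∫ ω, Real.exp (x * X n ω) ∂(μ n)) - x * (n * p) - A * n * x ^ 6| ≤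
        ε * n * x ^ 6) {ε : ℝ} (hε : 0 < ε) :
    ∃ t₀ : ℝ, 0 < t₀ ∧ ∃ N : ℕ, ∀ n : ℕ, N ≤ n → ∀ t : ℝ, 2 * (n : ℝ) ^ (-a) ≤ t → t ≤ t₀ →
      |Real.log ((μ n).real {ω | n * (p + 6 * A * t ^ 5) ≤ X n ω}) + 5 * A * n * t ^ 6| ≤
        ε * n * t ^ 6 := by
  obtain ⟨δ, h0, h1, hδ⟩ : ∃ δ : ℝ, 0 < δ ∧ δ ≤ 1 / 10 ∧ 138 * A * δ ≤ ε / 4 := by
    refine ⟨min (1 / 10) (ε / (552 * A)), by positivity, min_le_left _ _, ?_⟩
    have h2 : min (1 / 10) (ε / (552 * A)) ≤ ε / (552 * A) := min_le_right _ _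
    calc 138 * A * min (1 / 10) (ε / (552 * A)) ≤ 138 * A * (ε / (552 * A)) :=
          mul_le_mul_of_nonneg_left h2 (by positivity)
      _ = ε / 4 := by field_simp; norm_num
  obtain ⟨e, he, he1, he2⟩ : ∃ e : ℝ, 0 < e ∧ 5 * e ≤ A * δ ^ 2 ∧ 2 * e ≤ ε / 4 := by
    refine ⟨min (A * δ ^ 2 / 5) (ε / 8), by positivity, ?_, ?_⟩
    · have := min_le_left (A * δ ^ 2 / 5) (ε / 8)
      linarith only [this]
    · have := min_le_right (A * δ ^ 2 / 5) (ε / 8)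
      linarith only [this]
  obtain ⟨x₀, hx₀, N0, hH⟩ := H e he
  obtain ⟨N1, hN1, hM1⟩ := ldpu_pow ha6 (2 / (5 * A * δ ^ 2))
  obtain ⟨N2, hN2, hM2⟩ := ldpu_pow ha6 (4 / ε)
  refine ⟨x₀ / 2, by positivity, max N0 (max N1 N2), fun n hn t htn ht0 => ?_⟩
  have m0 : N0 ≤ n := (le_max_left _ _).trans hn
  have m1 : N1 ≤ n := ((le_max_left _ _).trans (le_max_right _ _)).trans hn
  have m2 : N2 ≤ n := ((le_max_right _ _).trans (le_max_right _ _)).trans hn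
  have hn0 : (0 : ℝ) < n := by exact_mod_cast hN1.trans m1
  have hna : 0 < (n : ℝ) ^ (-a) := Real.rpow_pos_of_pos hn0 _
  have ht : 0 < t := by linarith only [hna, htn]
  have c1 : (n : ℝ) ^ (-a) ≤ (1 + δ) * t := by (by_contra nlg; linarith only [nlg, mul_nonneg (sub_nonneg.2 h1) (le_of_lt (sub_pos.2 ht)), mul_nonneg (sub_nonneg.2 h1) (sub_nonneg.2 htn), mul_pos (sub_pos.2 h0) (sub_pos.2 hna), mul_nonneg (le_of_lt (sub_pos.2 h0)) (sub_nonneg.2 htn), mul_nonneg (le_of_lt (sub_pos.2 (not_le.1 nlg))) (sub_nonneg.2 h1), mul_pos (sub_pos.2 (not_le.1 nlg)) (sub_pos.2 h0)])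
  have c2 : (1 + δ) * t ≤ x₀ := by (by_contra nlg; linarith only [nlg, mul_nonneg (sub_nonneg.2 h1) (sub_nonneg.2 c1), mul_nonneg (sub_nonneg.2 h1) (le_of_lt (sub_pos.2 hna)), mul_nonneg (sub_nonneg.2 h1) (sub_nonneg.2 ht0), mul_pos (sub_pos.2 h0) (sub_pos.2 hna), mul_nonneg (le_of_lt (sub_pos.2 h0)) (sub_nonneg.2 ht0), mul_nonneg (le_of_lt (sub_pos.2 h0)) (sub_nonneg.2 htn), mul_nonneg (le_of_lt (sub_pos.2 (not_le.1 nlg))) (sub_nonneg.2 h1), mul_pos (sub_pos.2 (not_le.1 nlg)) (sub_pos.2 h0)])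
  have c3 : (n : ℝ) ^ (-a) ≤ (1 + δ) * t - δ * ((1 + δ) * t) := by
    have e1 : (1 + δ) * t - δ * ((1 + δ) * t) = t * (1 - δ ^ 2) := by ring
    have e2 : 1 / 2 ≤ 1 - δ ^ 2 := by (by_contra nlg; linarith only [nlg, mul_nonneg (sub_nonneg.2 h1) (sub_nonneg.2 c1), mul_nonneg (sub_nonneg.2 h1) (le_of_lt (sub_pos.2 hna)), mul_nonneg (le_of_lt (sub_pos.2 h0)) (sub_nonneg.2 c1), mul_pos (sub_pos.2 h0) (sub_pos.2 hna), mul_nonneg (le_of_lt (sub_pos.2 h0)) (sub_nonneg.2 htn), mul_pos (sub_pos.2 (not_le.1 nlg)) (sub_pos.2 ht)])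
    rw [e1]
    (by_contra nlg; linarith only [nlg, mul_nonneg (sub_nonneg.2 c1) (sub_nonneg.2 e2), mul_nonneg (le_of_lt (sub_pos.2 hna)) (sub_nonneg.2 e2), mul_nonneg (sub_nonneg.2 h1) (sub_nonneg.2 htn), mul_nonneg (le_of_lt (sub_pos.2 h0)) (sub_nonneg.2 htn), mul_nonneg (le_of_lt (sub_pos.2 (not_le.1 nlg))) (sub_nonneg.2 h1), mul_pos (sub_pos.2 (not_le.1 nlg)) (sub_pos.2 h0)])
  have c4 : (1 + δ) * t - δ * ((1 + δ) * t) ≤ x₀ := by (by_contra nlg; linarith only [nlg, mul_nonneg (sub_nonneg.2 h1) (sub_nonneg.2 c3), mul_nonneg (sub_nonneg.2 h1) (sub_nonneg.2 c2), mul_nonneg (sub_nonneg.2 h1) (le_of_lt (sub_pos.2 hna)), mul_nonneg (sub_nonneg.2 h1) (sub_nonneg.2 ht0), mul_pos (sub_pos.2 h0) (sub_pos.2 hna), mul_nonneg (le_of_lt (sub_pos.2 h0)) (sub_nonneg.2 ht0), mul_nonneg (le_of_lt (sub_pos.2 h0)) (sub_nonneg.2 htn), mul_nonneg (le_of_lt (sub_pos.2 (not_le.1 nlg)))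 (sub_nonneg.2 h1), mul_pos (sub_pos.2 (not_le.1 nlg)) (sub_pos.2 h0)])
  have c5 : (n : ℝ) ^ (-a) ≤ (1 + δ) * t + δ * ((1 + δ) * t) := by (by_contra nlg; linarith only [nlg, mul_nonneg (sub_nonneg.2 h1) (le_of_lt (sub_pos.2 ht)), mul_nonneg (sub_nonneg.2 h1) (sub_nonneg.2 htn), mul_nonneg (le_of_lt (sub_pos.2 h0)) (sub_nonneg.2 c3), mul_pos (sub_pos.2 h0) (sub_pos.2 hna), mul_nonneg (le_of_lt (sub_pos.2 h0)) (sub_nonneg.2 htn), mul_nonneg (le_of_lt (sub_pos.2 (not_le.1 nlg))) (sub_nonneg.2 h1), mul_pos (sub_pos.2 (not_le.1 nlg)) (sub_pos.2 h0)])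
  have c6 : (1 + δ) * t + δ * ((1 + δ) * t) ≤ x₀ := by
    have : (1 + δ) * t + δ * ((1 + δ) * t) = (1 + δ) ^ 2 * t := by ring
    rw [this]
    have h2 : (1 + δ) ^ 2 ≤ 2 := by (by_contra nlg; linarith only [nlg, mul_nonneg (sub_nonneg.2 h1) (sub_nonneg.2 c5), mul_nonneg (sub_nonneg.2 h1) (sub_nonneg.2 c3), mul_nonneg (sub_nonneg.2 h1) (le_of_lt (sub_pos.2 ht)), mul_nonneg (sub_nonneg.2 h1) (le_of_lt (sub_pos.2 hna)), mul_nonneg (le_of_lt (sub_pos.2 h0)) (sub_nonneg.2 c5), mul_pos (sub_pos.2 h0) (sub_pos.2 hna), mul_pos (sub_pos.2 (not_le.1 nlg)) (sub_pos.2 ht)])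
    (by_contra nlg; linarith only [nlg, mul_nonneg (sub_nonneg.2 c3) (sub_nonneg.2 h2), mul_nonneg (le_of_lt (sub_pos.2 hna)) (sub_nonneg.2 h2), mul_nonneg (sub_nonneg.2 ht0) (sub_nonneg.2 h2), mul_nonneg (le_of_lt (sub_pos.2 h0)) (sub_nonneg.2 ht0), mul_nonneg (le_of_lt (sub_pos.2 (not_le.1 nlg))) (sub_nonneg.2 h2), mul_pos (sub_pos.2 (not_le.1 nlg)) (sub_pos.2 h0)])
  have ct : (n : ℝ) ^ (-a) ≤ t := by linarith only [hna, htn]
  have k0 := hH n m0 t ct (by linarith only [hna, ht0, htn])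
  have k1 := hH n m0 _ c1 c2
  have k2 := hH n m0 _ c3 c4
  have k3 := hH n m0 _ c5 c6
  have k4 : 2 ≤ (n : ℝ) * (5 * A * δ ^ 2 * t ^ 6) := by
    have h2 := hM1 n m1 t ct
    rw [div_le_iff₀ (by positivity)] at h2
    linarith only [h2]
  have k5 : 1 ≤ (n : ℝ) * (ε / 4 * t ^ 6) := by
    have h2 := hM2 n m2 t ct
    rw [div_le_iff₀ hε] at h2
    linarith only [h2]
  have hn' : (0 : ℝ) ≤ n := hn0.le
  obtain ⟨hP, hlow⟩ := ldp_low (hm n) (hX n) hA h0 h1 he.le he1 ht hn' k1 k2 k3 k4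
  have hup := ldp_up (hX n) ht k0 hP
  have hnt : 0 ≤ (n : ℝ) * t ^ 6 := by positivity
  have d1 : (138 * A * δ + 2 * e) * ((n : ℝ) * t ^ 6) ≤ (ε / 4 + ε / 4) * (n * t ^ 6) :=
    mul_le_mul_of_nonneg_right (add_le_add hδ he2) hnt
  have d2 : e * n * t ^ 6 ≤ ε * n * t ^ 6 := by
    have : e ≤ ε := by linarith only [he2, he]
    rw [mul_assoc, mul_assoc]
    exact mul_le_mul_of_nonneg_right this hnt
  have d3 : ε * n * t ^ 6 = (ε / 4 + ε / 4) * (n * t ^ 6) + n * (ε / 4 * t ^ 6) +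
      n * (ε / 4 * t ^ 6) := by ring
  rw [abs_le]
  constructor
  · rw [d3]
    linarith only [d1, hlow, k5, h1, h0]
  · linarith only [d2, hup]

/-- from moments to the tail, uniformly for `n ^ (-b) ≤ s ≤ s₀` -/
theorem ldp_abs_u (hm : ∀ n, Measurable (X n))
    (hX : ∀ (n : ℕ) (x : ℝ), Integrable (fun ω => Real.exp (x * X n ω)) (μ n)) {p A a b : ℝ}
    (hA : 0 < A) (ha6 : 6 * a < 1) (hb : b < 5 * a)
    (H : ∀ ε : ℝ, 0 < ε → ∃ x₀ : ℝ, 0 < x₀ ∧ ∃ N : ℕ, ∀ n : ℕ, N ≤ n → ∀ x : ℝ,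
      (n : ℝ) ^ (-a) ≤ x → x ≤ x₀ →
      |Real.log (∫ ω, Real.exp (x * X n ω) ∂(μ n)) - x * (n * p) - A * n * x ^ 6| ≤
        ε * n * x ^ 6) :
    ∀ ε : ℝ, 0 < ε → ∃ s₀ : ℝ, 0 < s₀ ∧ ∃ N : ℕ, ∀ n : ℕ, N ≤ n →
    ∀ s : ℝ, (n : ℝ) ^ (-b) ≤ s → s ≤ s₀ →
      |Real.log ((μ n).real {ω | n * (p + s) ≤ X n ω}) +
        5 / 6 * (6 * A) ^ (-(1 / 5) : ℝ) * n * s ^ (6 / 5 : ℝ)| ≤ ε * n * s ^ (6 / 5 : ℝ) := by
  have hA6 : 0 < 6 * A := by positivity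
  intro ε hε
  set κ : ℝ := (6 * A) ^ (6 / 5 : ℝ) with hκ
  have hκ0 : 0 < κ := by positivity
  obtain ⟨t₀, ht₀, N0, h⟩ := ldp_t_u hm hX hA ha6 H (show 0 < ε * κ by positivity)
  -- `2 n^(-a) ≤ (s/(6A))^(1/5)` for large `n`
  have h1 : Tendsto (fun n : ℕ => (n : ℝ) ^ (5 * a - b)) atTop atTop :=
    (tendsto_rpow_atTop (by linarith)).comp tendsto_natCast_atTop_atTop
  obtain ⟨N1, hN1⟩ := eventually_atTop.1 (h1.eventually_ge_atTop (6 * A * 32))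
  refine ⟨6 * A * t₀ ^ 5, by positivity, max N0 (max N1 1), fun n hn s hsn hs0 => ?_⟩
  have m0 : N0 ≤ n := (le_max_left _ _).trans hn
  have m1 : N1 ≤ n := ((le_max_left _ _).trans (le_max_right _ _)).trans hn
  have m2 : 1 ≤ n := ((le_max_right _ _).trans (le_max_right _ _)).trans hn
  have hn0 : (0 : ℝ) < n := by exact_mod_cast m2
  have hs : 0 < s := (Real.rpow_pos_of_pos hn0 _).trans_le hsn
  obtain ⟨t, ht, hst, hst2⟩ : ∃ t : ℝ, 0 < t ∧ s = 6 * A * t ^ 5 ∧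
      s ^ (6 / 5 : ℝ) = κ * t ^ 6 := by
    refine ⟨(s / (6 * A)) ^ (1 / 5 : ℝ), by positivity, ?_, ?_⟩
    · rw [← Real.rpow_natCast, ← Real.rpow_mul (by positivity)]
      norm_num
      field_simp
    · rw [← Real.rpow_natCast, ← Real.rpow_mul (by positivity)]
      rw [show (1 / 5 : ℝ) * ((6 : ℕ) : ℝ) = 6 / 5 by norm_num, hκ,
        ← Real.mul_rpow (by positivity) (by positivity)]
      congr 1
      field_simp
  have htt : t ≤ t₀ := by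
    rw [hst] at hs0
    exact le_of_pow_le_pow_left₀ (by norm_num) ht₀.le (le_of_mul_le_mul_left hs0 hA6)
  have htn : 2 * (n : ℝ) ^ (-a) ≤ t := by
    have q1 := hN1 n m1
    have q2 : (2 * (n : ℝ) ^ (-a)) ^ 5 * (6 * A) ≤ t ^ 5 * (6 * A) := by
      calc (2 * (n : ℝ) ^ (-a)) ^ 5 * (6 * A) = (6 * A * 32) * ((n : ℝ) ^ (-a)) ^ 5 := by ring
        _ ≤ (n : ℝ) ^ (5 * a - b) * ((n : ℝ) ^ (-a)) ^ 5 :=
            mul_le_mul_of_nonneg_right q1 (by positivity)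
        _ = (n : ℝ) ^ (-b) := by
            rw [← Real.rpow_natCast ((n : ℝ) ^ (-a)) 5, ← Real.rpow_mul hn0.le,
              ← Real.rpow_add hn0]
            congr 1
            push_cast
            ring
        _ ≤ s := hsn
        _ = t ^ 5 * (6 * A) := by rw [hst]; ring
    exact le_of_pow_le_pow_left₀ (by norm_num) ht.le (le_of_mul_le_mul_right q2 hA6)
  have hfin := h n m0 t htn htt
  have eJ : 5 / 6 * (6 * A) ^ (-(1 / 5) : ℝ) * κ = 5 * A := by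
    rw [hκ, mul_assoc, ← Real.rpow_add hA6]
    norm_num
    ring
  rw [hst2, hst]
  have e1 : 5 / 6 * (6 * A) ^ (-(1 / 5) : ℝ) * n * (κ * t ^ 6) = 5 * A * n * t ^ 6 := by
    rw [← eJ]
    ring
  have e2 : ε * n * (κ * t ^ 6) = ε * κ * n * t ^ 6 := by ring
  rw [e1, e2]
  exact hfin

end asymU

end Vale.Agent.P146.Sh
end

section

/-!
# P146, Sh: the constant near the critical temperature (over the bricks)
-/

open MeasureTheory ProbabilityTheory Filter Topology Set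

namespace Vale.Agent.P146.Sh

open Vale.Agent.P157.Par
open Vale.Agent.P146.Gap
open Vale.Agent.P146.Pw2
open Vale.Agent.P146.Lb
open Vale.Agent.P367.Cl

theorem tc_cb_tanh : Sp7Cb Real.tanh :=
  ⟨continuous_iff_continuousAt.2 fun x => (GoodX.good_tanh x).continuousAt, 1,
    fun x => (Real.abs_tanh_lt_one x).le⟩

/-- `E (1 - tanh²)² ≤ 1 - E tanh²` -/
theorem tc_Ml {n : ℕ} {m r : ℕ → ℝ} (hm : Exponents n m) (hr : Path n r) :
    Ml n m r n ≤ 1 - spR n m r n := by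
  have hF : Fl n m r n = lc := fl_last
  have e1 : Ml n m r n = Ee n m r n (fun x => (1 - Real.tanh x ^ 2) ^ 2) := by
    unfold Ml
    rw [hF, GoodX.good_lc2]
  have e2 : spR n m r n = Ee n m r n (fun x => Real.tanh x ^ 2) := by
    rw [spR_eq hm hr le_rfl, hF, GoodX.good_lc1]
  have c1 : Sp7Cb (fun x => Real.tanh x ^ 2) := sp7_cb_sq tc_cb_tanh
  have c2 : Sp7Cb (fun x => (1 - Real.tanh x ^ 2) ^ 2) := by
    refine sp7_cb_sq ?_
    have := sp7_cb_add (sp7_cb_const 1) (sp7_cb_neg c1)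
    simpa [sub_eq_add_neg] using this
  have h1 := ee_add hm hr le_rfl c2 c1
  have h2 : Ee n m r n (fun x => (1 - Real.tanh x ^ 2) ^ 2 + Real.tanh x ^ 2) ≤
      Ee n m r n (fun _ => 1) := by
    refine ee_mono hm hr le_rfl (sp7_cb_add c2 c1) (sp7_cb_const 1) fun x => ?_
    have h3 := Real.tanh_sq_lt_one x
    have h4 := sq_nonneg (Real.tanh x)
    (by_contra nlg; linarith only [nlg, mul_nonneg (le_of_lt (sub_pos.2 h3)) (sub_nonneg.2 h4), mul_nonneg (le_of_lt (sub_pos.2 (not_le.1 nlg))) (sub_nonneg.2 h4), mul_pos (sub_pos.2 (not_le.1 nlg)) (sub_pos.2 h3)])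
  rw [ee_const hm hr le_rfl, h1, ← e1, ← e2] at h2
  linarith

/-- the top of the minimiser is small near the critical temperature -/
theorem tc_top {b e : ℝ} (hb : 0 < b) {n d l : ℕ} (hl : l + 1 = n) {r : ℕ → ℝ}
    (hr : IsMinD b n d r)
    (h : |Mb n (gm n) r l (r (l + 1) - r l) - 1 / b ^ 2| ≤ e) : r n ≤ b ^ 2 - 1 + b ^ 2 * e := by
  have hm := gm_exponents n
  have hB := hr.1
  have h1 := Mb_last hm hB.2.1 (show l < n by omega)
  rw [h1, hl] at h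
  have h2 := tc_Ml hm hB.2.1
  have h3 := statD hb hr n le_rfl
  have h4 := (abs_le.1 h).1
  have hb2 : 0 < b ^ 2 := by positivity
  have h5 : spR n (gm n) r n ≤ 1 - 1 / b ^ 2 + e := by linarith only [h4, h2]
  rw [h3]
  calc b ^ 2 * spR n (gm n) r n ≤ b ^ 2 * (1 - 1 / b ^ 2 + e) :=
        mul_le_mul_of_nonneg_left h5 hb2.le
    _ = b ^ 2 - 1 + b ^ 2 * e := by field_simp

/-- the derivatives at the origin near the critical temperature -/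
theorem tc_vk : ∃ C : ℝ, 1 ≤ C ∧ ∀ (n : ℕ) (r : ℕ → ℝ), BPath 2 n r → 1 ≤ n →
    |vv n r - 1| ≤ C * r n ∧ |kk n r - 2| ≤ C * √(r n) := by
  obtain ⟨C, hC, h⟩ := kv 2
  refine ⟨C, hC, fun n r hB hn => ?_⟩
  obtain ⟨l, hl⟩ : ∃ l, l + 1 = n := ⟨n - 1, by omega⟩
  have hmono : r l ≤ r (l + 1) := hB.2.1.2 l (by omega)
  have h1 := h n r hB l (by omega) (r (l + 1) - r l) ⟨by linarith, le_rfl⟩
  have e1 : r l + (r (l + 1) - r l) = r n := by rw [← hl]; ring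
  have e2 : Gb n (gm n) r l (r (l + 1) - r l) = lc := by
    rw [Gb_last (gm_exponents n) (by omega), hl]
    exact fl_last
  rw [e1, e2, GoodX.good_lc2, GoodX.good_lc4] at h1
  simp only [Real.tanh_zero] at h1
  obtain ⟨h2, h3⟩ := h1
  constructor
  · rw [abs_sub_comm]
    have e : (1 : ℝ) - 0 ^ 2 - vv n r = 1 - vv n r := by ring
    rw [e] at h2
    exact h2
  · have e : (6 * (0 : ℝ) ^ 2 - 2) * (1 - 0 ^ 2) + kk n r = kk n r - 2 := by ring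
    rw [e] at h3
    exact h3

/-- algebra -/
theorem tc_alg {c K v k ρ C : ℝ} (hc : 0 < c) (hK : 1 ≤ K) (hC : 1 ≤ C) (hv : c ≤ v)
    (hv1 : v ≤ 1) (hk : c ≤ k) (hkK : k ≤ K) (hρ : 0 ≤ ρ) (hρ4 : ρ ≤ 4)
    (h1 : |v - 1| ≤ C * ρ) (h2 : |k - 2| ≤ C * √ρ) :
    |9 / 80 * v ^ 12 / k ^ 6 - 9 / 5120| ≤ (C * (2000 + 6 * (K + 2) ^ 5) / c ^ 6) * √ρ := by
  have hk0 : 0 < k := by linarith
  have hv0 : 0 < v := by linarith
  have hs : 0 ≤ √ρ := Real.sqrt_nonneg ρ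
  have hs2 : √ρ ^ 2 = ρ := Real.sq_sqrt hρ
  have hs4 : √ρ ≤ 2 := by
    rw [Real.sqrt_le_left (by norm_num)]
    linarith
  have hρs : ρ ≤ 2 * √ρ := by (by_contra nlg; linarith only [nlg, mul_eq_zero_of_left (sub_eq_zero.2 hs2) (2 - (√ρ)), mul_nonneg (sub_nonneg.2 hs) (sub_nonneg.2 hs4), mul_eq_zero_of_left (sub_eq_zero.2 hs2) (√ρ - (0)), mul_pos (sub_pos.2 (not_le.1 nlg)) (sub_pos.2 hv0), mul_nonneg (le_of_lt (sub_pos.2 (not_le.1 nlg))) (sub_nonneg.2 hv1)])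
  have a1 : |v ^ 12 - 1| ≤ 12 * |v - 1| := by
    have e : v ^ 12 - 1 = (v - 1) * (∑ i ∈ Finset.range 12, v ^ i) := by
      rw [mul_comm, geom_sum_mul]
    rw [e, abs_mul, mul_comm]
    refine mul_le_mul_of_nonneg_right ?_ (abs_nonneg _)
    rw [abs_of_nonneg (Finset.sum_nonneg fun i _ => pow_nonneg hv0.le i)]
    calc ∑ i ∈ Finset.range 12, v ^ i ≤ ∑ i ∈ Finset.range 12, (1 : ℝ) :=
          Finset.sum_le_sum fun i _ => pow_le_one₀ hv0.le hv1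
      _ = 12 := by simp
  have a2 : |k ^ 6 - 64| ≤ 6 * (K + 2) ^ 5 * |k - 2| := by
    have e : k ^ 6 - 64 = (k - 2) * (k ^ 5 + 2 * k ^ 4 + 4 * k ^ 3 + 8 * k ^ 2 + 16 * k + 32) := by
      ring
    rw [e, abs_mul, mul_comm]
    refine mul_le_mul_of_nonneg_right ?_ (abs_nonneg _)
    rw [abs_of_nonneg (by positivity)]
    have b1 : ∀ i ≤ 5, k ^ i * 2 ^ (5 - i) ≤ (K + 2) ^ 5 := by
      intro i hi
      calc k ^ i * 2 ^ (5 - i) ≤ (K + 2) ^ i * (K + 2) ^ (5 - i) := by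
            gcongr <;> linarith
        _ = (K + 2) ^ 5 := by rw [← pow_add]; congr 1; omega
    have c0 := b1 0 (by norm_num)
    have c1 := b1 1 (by norm_num)
    have c2 := b1 2 (by norm_num)
    have c3 := b1 3 (by norm_num)
    have c4 := b1 4 (by norm_num)
    have c5 := b1 5 (by norm_num)
    norm_num at c0 c1 c2 c3 c4 c5
    linarith only [c5, c4, c3, c2, c1, c0]
  have e : 9 / 80 * v ^ 12 / k ^ 6 - 9 / 5120 =
      (9 / 80 * (v ^ 12 - 1) - 9 / 5120 * (k ^ 6 - 64)) / k ^ 6 := by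
    field_simp
    ring
  have hk6 : c ^ 6 ≤ k ^ 6 := pow_le_pow_left₀ hc.le hk 6
  have hc6 : 0 < c ^ 6 := by positivity
  rw [e, abs_div, abs_of_pos (by positivity : 0 < k ^ 6)]
  have hnum : |9 / 80 * (v ^ 12 - 1) - 9 / 5120 * (k ^ 6 - 64)| ≤
      C * (2000 + 6 * (K + 2) ^ 5) * √ρ := by
    have b1 : |9 / 80 * (v ^ 12 - 1) - 9 / 5120 * (k ^ 6 - 64)| ≤
        |v ^ 12 - 1| + |k ^ 6 - 64| := by
      rw [abs_le]
      have := abs_le.1 (le_refl |v ^ 12 - 1|)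
      have := abs_le.1 (le_refl |k ^ 6 - 64|)
      have := abs_nonneg (v ^ 12 - 1)
      have := abs_nonneg (k ^ 6 - 64)
      constructor <;> linarith
    have b2 : |v ^ 12 - 1| ≤ C * 2000 * √ρ := by
      have : 12 * |v - 1| ≤ 12 * (C * (2 * √ρ)) := by
        have := mul_le_mul_of_nonneg_left hρs (by linarith only [hC] : 0 ≤ C)
        linarith only [this, h1]
      have h3 : 0 ≤ C * √ρ := by positivity
      linarith only [h3, this, a1]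
    have b3 : |k ^ 6 - 64| ≤ C * (6 * (K + 2) ^ 5) * √ρ := by
      have h3 : 0 ≤ 6 * (K + 2) ^ 5 := by positivity
      have := mul_le_mul_of_nonneg_left h2 h3
      linarith only [this, a2]
    have : C * (2000 + 6 * (K + 2) ^ 5) * √ρ =
        C * 2000 * √ρ + C * (6 * (K + 2) ^ 5) * √ρ := by ring
    linarith only [b3, b2, b1]
  calc _ ≤ C * (2000 + 6 * (K + 2) ^ 5) * √ρ / k ^ 6 :=
        div_le_div_of_nonneg_right hnum (by positivity)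
    _ ≤ C * (2000 + 6 * (K + 2) ^ 5) * √ρ / c ^ 6 :=
        div_le_div_of_nonneg_left (by positivity) hc6 hk6
    _ = _ := by ring

end Vale.Agent.P146.Sh
end
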