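import Mathlib
import Vale.Agent.P146.Bd4.B1
import Vale.Agent.P146.Bd3.B6

set_option linter.all false

section

/-!
# P146, Sh, ShSeg0: the segment of squares, `seg` with its inputs as hypotheses
-/

open MeasureTheory ProbabilityTheory Filter Topology Set

namespace Vale.Agent.P146.Sh

open Vale.Agent.P157.Par
open Vale.Agent.P146.Gap
open Vale.Agent.P146.Pw2
open Vale.Agent.P146.Lb
open Vale.Agent.P367.Cl

/-- The segment of squares between two paths. -/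
noncomputable def segP (N L : ℕ) (ρ ρ' : ℕ → ℝ) (k l : ℕ) : ℝ :=
  if l < L then √((1 - (k : ℝ) / N) * ρ l ^ 2 + (k : ℝ) / N * ρ' l ^ 2) else ρ l

section basic

variable {N L : ℕ} {ρ ρ' : ℕ → ℝ}

lemma segP_ge {k l : ℕ} (hl : L ≤ l) : segP N L ρ ρ' k l = ρ l := by
  unfold segP
  rw [if_neg (by omega)]

lemma segP_lt {k l : ℕ} (hl : l < L) : segP N L ρ ρ' k l =
    √((1 - (k : ℝ) / N) * ρ l ^ 2 + (k : ℝ) / N * ρ' l ^ 2) := by
  unfold segP
  rw [if_pos hl]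

lemma segP_zero (h0 : ∀ l < L, 0 ≤ ρ l) : segP N L ρ ρ' 0 = ρ := by
  funext l
  rcases lt_or_ge l L with hl | hl
  · rw [segP_lt hl]
    simp [Real.sqrt_sq (h0 l hl)]
  · exact segP_ge hl

lemma segP_last (hN : 0 < N) (h0 : ∀ l < L, 0 ≤ ρ' l) (ht : ∀ l, L ≤ l → ρ' l = ρ l) :
    segP N L ρ ρ' N = ρ' := by
  have hN' : (N : ℝ) ≠ 0 := by positivity
  funext l
  rcases lt_or_ge l L with hl | hl
  · rw [segP_lt hl, div_self hN']
    simp [Real.sqrt_sq (h0 l hl)]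
  · rw [segP_ge hl, ht l hl]

lemma seg_wt (hN : 0 < N) {k : ℕ} (hk : k ≤ N) : 0 ≤ (k : ℝ) / N ∧ 0 ≤ 1 - (k : ℝ) / N := by
  have hN' : (0 : ℝ) < N := by positivity
  refine ⟨by (clear * - hN; positivity), ?_⟩
  have : (k : ℝ) / N ≤ 1 := by
    rw [div_le_one hN']
    exact_mod_cast hk
  linarith only [this]

lemma segP_sq (hN : 0 < N) {k l : ℕ} (hk : k ≤ N) (hl : l < L) : segP N L ρ ρ' k l ^ 2 =
    (1 - (k : ℝ) / N) * ρ l ^ 2 + (k : ℝ) / N * ρ' l ^ 2 := by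
  obtain ⟨h1, h2⟩ := seg_wt hN hk
  rw [segP_lt hl, Real.sq_sqrt (by (clear * - h2 hN; positivity))]

lemma segP_nonneg {k l : ℕ} (hl : l < L) : 0 ≤ segP N L ρ ρ' k l := by
  rw [segP_lt hl]
  exact Real.sqrt_nonneg _

lemma segP_le (hN : 0 < N) {k l : ℕ} (hk : k ≤ N) (hl : l < L) {R : ℝ} (h0 : 0 ≤ ρ l)
    (h0' : 0 ≤ ρ' l) (h1 : ρ l ≤ R) (h1' : ρ' l ≤ R) : segP N L ρ ρ' k l ≤ R := by
  obtain ⟨w1, w2⟩ := seg_wt hN hk
  have hR : 0 ≤ R := h0.trans h1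
  rw [segP_lt hl]
  refine Real.sqrt_le_iff.2 ⟨hR, ?_⟩
  have e1 : ρ l ^ 2 ≤ R ^ 2 := pow_le_pow_left₀ h0 h1 2
  have e2 : ρ' l ^ 2 ≤ R ^ 2 := pow_le_pow_left₀ h0' h1' 2
  linarith only [mul_le_mul_of_nonneg_left e2 w1, mul_le_mul_of_nonneg_left e1 w2]

lemma segP_fam {b : ℝ} {n : ℕ} {R : ℝ} (hL : 1 ≤ L) (hLn : L ≤ n) (h : Fam b n L R ρ ρ)
    (h' : Fam b n L R ρ ρ') (hN : 0 < N) {k : ℕ} (hk : k ≤ N) (q : ℕ → ℝ)
    (hq : ∀ l, L ≤ l → ρ l = q l) : Fam b n L R q (segP N L ρ ρ' k) := by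
  obtain ⟨p0, p1, p2⟩ := h.path
  obtain ⟨p0', p1', p2'⟩ := h'.path
  have nn : ∀ l ≤ n, 0 ≤ ρ l := fun l hl => by
    induction l with
    | zero => exact p0.ge
    | succ l ih => exact (ih (by omega)).trans (p1.2 l (by omega))
  have nn' : ∀ l ≤ n, 0 ≤ ρ' l := fun l hl => by
    induction l with
    | zero => exact p0'.ge
    | succ l ih => exact (ih (by omega)).trans (p1'.2 l (by omega))
  obtain ⟨w1, w2⟩ := seg_wt hN hk
  have hle : ∀ l < L, segP N L ρ ρ' k l ≤ R := fun l hl =>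
    segP_le hN hk hl (nn l (by omega)) (nn' l (by omega)) (h.le l hl) (h'.le l hl)
  refine ⟨⟨?_, ⟨?_, fun l hl => ?_⟩, ?_⟩, hle, ?_, fun l hl => ?_⟩
  · rw [segP_lt (by omega), p0, p0']
    simp
  · rw [segP_lt (by omega)]
    exact Real.sqrt_nonneg _
  · rcases lt_or_ge l L with hl1 | hl1
    · rcases lt_or_ge (l + 1) L with hl2 | hl2
      · rw [segP_lt hl1, segP_lt hl2]
        refine Real.sqrt_le_sqrt ?_
        have e1 : ρ l ^ 2 ≤ ρ (l + 1) ^ 2 := pow_le_pow_left₀ (nn l (by omega)) (p1.2 l hl) 2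
        have e2 : ρ' l ^ 2 ≤ ρ' (l + 1) ^ 2 := pow_le_pow_left₀ (nn' l (by omega)) (p1'.2 l hl) 2
        exact add_le_add (mul_le_mul_of_nonneg_left e1 w2) (mul_le_mul_of_nonneg_left e2 w1)
      · have e : l + 1 = L := by omega
        rw [segP_ge hl2, e]
        exact (hle l hl1).trans h.ge
    · rw [segP_ge hl1, segP_ge (by omega)]
      exact p1.2 l hl
  · rw [segP_ge hLn]
    exact p2
  · rw [segP_ge le_rfl]
    exact h.ge
  · rw [segP_ge hl]
    exact hq l hl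

lemma seg_sqrt_sub {a c : ℝ} (ha : 0 ≤ a) (hc : 0 ≤ c) : |√a - √c| ≤ √|a - c| := by
  refine Real.le_sqrt_of_sq_le ?_
  rw [sq_abs]
  have h1 := Real.sq_sqrt ha
  have h2 := Real.sq_sqrt hc
  have h3 := Real.sqrt_nonneg a
  have h4 := Real.sqrt_nonneg c
  rcases le_total (√a) (√c) with h | h
  · have : (√a - √c) ^ 2 ≤ c - a := by linarith only [mul_nonneg (sub_nonneg.2 h3) (sub_nonneg.2 h), h2, h1]
    exact this.trans (by rw [abs_sub_comm]; exact le_abs_self _)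
  · have : (√a - √c) ^ 2 ≤ a - c := by linarith only [mul_nonneg (sub_nonneg.2 h4) (sub_nonneg.2 h), h2, h1]
    exact this.trans (le_abs_self _)

lemma segP_diff (hN : 0 < N) {k l : ℕ} (hk : k + 1 ≤ N) (hl : l < L) {R : ℝ} (h0 : 0 ≤ ρ l)
    (h0' : 0 ≤ ρ' l) (h1 : ρ l ≤ R) (h1' : ρ' l ≤ R) :
    |segP N L ρ ρ' (k + 1) l - segP N L ρ ρ' k l| ≤ R / √N := by
  obtain ⟨w1, w2⟩ := seg_wt hN hk
  obtain ⟨w1', w2'⟩ := seg_wt hN (show k ≤ N by omega)
  have hR : 0 ≤ R := h0.trans h1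
  have hN' : (0 : ℝ) < N := by positivity
  rw [segP_lt hl, segP_lt hl]
  refine (seg_sqrt_sub (by (clear * - w2 hN; positivity)) (by positivity)).trans ?_
  have e : (1 - ((k + 1 : ℕ) : ℝ) / N) * ρ l ^ 2 + ((k + 1 : ℕ) : ℝ) / N * ρ' l ^ 2 -
      ((1 - (k : ℝ) / N) * ρ l ^ 2 + (k : ℝ) / N * ρ' l ^ 2) = (ρ' l ^ 2 - ρ l ^ 2) / N := by
    push_cast
    field_simp
    ring
  rw [e, abs_div, abs_of_pos hN', Real.sqrt_div (abs_nonneg _)]
  gcongr
  refine Real.sqrt_le_iff.2 ⟨hR, ?_⟩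
  have e1 : ρ l ^ 2 ≤ R ^ 2 := pow_le_pow_left₀ h0 h1 2
  have e2 : ρ' l ^ 2 ≤ R ^ 2 := pow_le_pow_left₀ h0' h1' 2
  rw [abs_le]
  constructor <;> nlinarith [sq_nonneg (ρ l), sq_nonneg (ρ' l)]

lemma segP_tel (hN : 0 < N) {l : ℕ} (hl : l < L) (h0 : 0 ≤ ρ l) (h0' : 0 ≤ ρ' l) :
    ∑ k ∈ Finset.range N, |segP N L ρ ρ' (k + 1) l - segP N L ρ ρ' k l| = |ρ' l - ρ l| := by
  have hN' : (0 : ℝ) < N := by positivity
  have z0 : segP N L ρ ρ' 0 l = ρ l := by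
    rw [segP_lt hl]
    simp [Real.sqrt_sq h0]
  have z1 : segP N L ρ ρ' N l = ρ' l := by
    rw [segP_lt hl, div_self hN'.ne']
    simp [Real.sqrt_sq h0']
  have key : ∀ k, ((1 - ((k + 1 : ℕ) : ℝ) / N) * ρ l ^ 2 + ((k + 1 : ℕ) : ℝ) / N * ρ' l ^ 2) -
      ((1 - (k : ℝ) / N) * ρ l ^ 2 + (k : ℝ) / N * ρ' l ^ 2) = (ρ' l ^ 2 - ρ l ^ 2) / N := by
    intro k
    push_cast
    field_simp
    ring
  rcases le_total (ρ l) (ρ' l) with h | h
  · have e1 : ρ l ^ 2 ≤ ρ' l ^ 2 := pow_le_pow_left₀ h0 h 2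
    have hp : 0 ≤ (ρ' l ^ 2 - ρ l ^ 2) / N := div_nonneg (by linarith only [e1]) hN'.le
    have : ∀ k ∈ Finset.range N, |segP N L ρ ρ' (k + 1) l - segP N L ρ ρ' k l| =
        segP N L ρ ρ' (k + 1) l - segP N L ρ ρ' k l := fun k _ => by
      refine abs_of_nonneg (sub_nonneg.2 ?_)
      rw [segP_lt hl, segP_lt hl]
      refine Real.sqrt_le_sqrt ?_
      linarith [key k]
    rw [Finset.sum_congr rfl this, Finset.sum_range_sub (fun k => segP N L ρ ρ' k l), z0, z1,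
      abs_of_nonneg (by linarith only [h])]
  · have e1 : ρ' l ^ 2 ≤ ρ l ^ 2 := pow_le_pow_left₀ h0' h 2
    have hp : 0 ≤ (ρ l ^ 2 - ρ' l ^ 2) / N := div_nonneg (by linarith) hN'.le
    have e2 : (ρ' l ^ 2 - ρ l ^ 2) / N = -((ρ l ^ 2 - ρ' l ^ 2) / N) := by ring
    have : ∀ k ∈ Finset.range N, |segP N L ρ ρ' (k + 1) l - segP N L ρ ρ' k l| =
        -(segP N L ρ ρ' (k + 1) l - segP N L ρ ρ' k l) := fun k _ => by
      refine abs_of_nonpos (sub_nonpos.2 ?_)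
      rw [segP_lt hl, segP_lt hl]
      refine Real.sqrt_le_sqrt ?_
      linarith [key k]
    rw [Finset.sum_congr rfl this, Finset.sum_neg_distrib,
      Finset.sum_range_sub (fun k => segP N L ρ ρ' k l), z0, z1, abs_of_nonpos (by linarith only [h])]

end basic

theorem seg_of {b : ℝ}
    (hkvc : ∃ C : ℝ, 1 ≤ C ∧ ∀ (n L : ℕ) (s : ℝ) (r ρ : ℕ → ℝ), BPath b n r →
      BPath b n ρ → 1 ≤ L → L ≤ n → (∀ l, L ≤ l → ρ l = r l) → r (L - 1) ≤ s → ρ (L - 1) ≤ s →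
      s ≤ r L → |vv n ρ - vv n r| ≤ C * s ∧ |kk n ρ - kk n r| ≤ C * √s)
    (hbd : ∃ c K : ℝ, 0 < c ∧ 1 ≤ K ∧ ∀ (n : ℕ) (r : ℕ → ℝ), BPath b n r →
      c ≤ vv n r ∧ vv n r ≤ 1 ∧ c ≤ kk n r ∧ kk n r ≤ K)
    (hstep : ∀ D : ℝ, ∃ C : ℝ, 1 ≤ C ∧ ∀ (n L : ℕ) (R X v a : ℝ)
      (ρ ρ' : ℕ → ℝ), Fam b n L R ρ ρ → Fam b n L R ρ ρ' → 1 ≤ L → L ≤ n → 0 < X → X ≤ 1 → R ≤ X →
      gm n L ≤ X → 0 ≤ v → v ≤ 1 → 0 ≤ a → a ≤ D → |v - vv n ρ| ≤ D * √X →
      |4 * v ^ 3 * a - kk n ρ ^ 2| ≤ D * √X →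
      ∑ l ∈ Finset.range L, ρ' l ^ 2 = ∑ l ∈ Finset.range L, ρ l ^ 2 →
      SKr b n (gm n) ρ' ≤ SKr b n (gm n) ρ + (Nw n L R v a ρ' - Nw n L R v a ρ) +
        C * (1 / ((n : ℝ) + 1) * ∑ l ∈ Finset.range L, (ρ' l - ρ l) ^ 2) +
        C * (X ^ 3 * √X) * (1 / ((n : ℝ) + 1) * ∑ l ∈ Finset.range L, |ρ' l - ρ l|)) (D : ℝ) :
    ∃ C : ℝ, 1 ≤ C ∧ ∀ (n L : ℕ) (R X v a : ℝ)
    (ρ ρ' : ℕ → ℝ), Fam b n L R ρ ρ → Fam b n L R ρ ρ' → 1 ≤ L → L ≤ n → 0 < X → X ≤ 1 → R ≤ X →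
    gm n L ≤ X → 0 ≤ v → v ≤ 1 → 0 ≤ a → a ≤ D → |v - vv n ρ| ≤ D * √X →
    |4 * v ^ 3 * a - kk n ρ ^ 2| ≤ D * √X →
    ∑ l ∈ Finset.range L, ρ' l ^ 2 = ∑ l ∈ Finset.range L, ρ l ^ 2 →
    SKr b n (gm n) ρ' ≤ SKr b n (gm n) ρ + (Nw n L R v a ρ' - Nw n L R v a ρ) +
      C * (X ^ 3 * √X) * (1 / ((n : ℝ) + 1) * ∑ l ∈ Finset.range L, |ρ' l - ρ l|) := by
  obtain ⟨C₁, hC₁, h1⟩ := hkvc
  obtain ⟨c₂, K, hc₂, hK, h2⟩ := hbd
  obtain ⟨C, hC, h3⟩ := hstep (D + C₁ * (2 * K))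
  refine ⟨C, hC, ?_⟩
  intro n L R X v a ρ ρ' hρ hρ' hL hLn hX hX1 hRX hgX hv hv1 ha haD hvv hkk hsum
  have p0 : ρ 0 = 0 := hρ.path.1
  have hR0 : 0 ≤ R := by
    have := hρ.le 0 (by omega)
    rwa [p0] at this
  have nn : ∀ l < L, 0 ≤ ρ l := fun l hl => by
    have hl' : l ≤ n := by omega
    clear hl
    induction l with
    | zero => exact p0.ge
    | succ l ih => exact (ih (by omega)).trans (hρ.path.2.1.2 l (by omega))
  have nn' : ∀ l < L, 0 ≤ ρ' l := fun l hl => by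
    have hl' : l ≤ n := by omega
    clear hl
    induction l with
    | zero => exact hρ'.path.1.ge
    | succ l ih => exact (ih (by omega)).trans (hρ'.path.2.1.2 l (by omega))
  have hsX : √R ≤ √X := Real.sqrt_le_sqrt hRX
  have hX2 : X ≤ √X := by
    have := Real.sqrt_nonneg X
    have h' := Real.sq_sqrt hX.le
    have h'' : √X ≤ 1 := Real.sqrt_le_one.2 hX1
    nlinarith
  have hX0 : 0 ≤ √X := Real.sqrt_nonneg X
  have hn0 : (0 : ℝ) < 1 / ((n : ℝ) + 1) := by (clear * -; positivity)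
  -- the inequality for `N` steps
  have main : ∀ N : ℕ, 0 < N → SKr b n (gm n) ρ' ≤ SKr b n (gm n) ρ +
      (Nw n L R v a ρ' - Nw n L R v a ρ) +
      C * (1 / ((n : ℝ) + 1) * (R / √N * ∑ l ∈ Finset.range L, |ρ' l - ρ l|)) +
      C * (X ^ 3 * √X) * (1 / ((n : ℝ) + 1) * ∑ l ∈ Finset.range L, |ρ' l - ρ l|) := by
    intro N hN
    set P : ℕ → ℕ → ℝ := segP N L ρ ρ' with hP
    have st : ∀ k < N, SKr b n (gm n) (P (k + 1)) ≤ SKr b n (gm n) (P k) +
        (Nw n L R v a (P (k + 1)) - Nw n L R v a (P k)) +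
        C * (1 / ((n : ℝ) + 1) * ∑ l ∈ Finset.range L, R / √N * |P (k + 1) l - P k l|) +
        C * (X ^ 3 * √X) *
          (1 / ((n : ℝ) + 1) * ∑ l ∈ Finset.range L, |P (k + 1) l - P k l|) := by
      intro k hk
      have f0 : Fam b n L R ρ (P k) := segP_fam hL hLn hρ hρ' hN hk.le ρ (fun _ _ => rfl)
      have f1 : Fam b n L R (P k) (P k) := segP_fam hL hLn hρ hρ' hN hk.le (P k)
        (fun l hl => (segP_ge hl).symm)
      have f2 : Fam b n L R (P k) (P (k + 1)) := segP_fam hL hLn hρ hρ' hN hk (P k)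
        (fun l hl => (segP_ge hl).symm)
      obtain ⟨e1, e2⟩ := h1 n L R ρ (P k) hρ.path f0.path hL hLn f0.top (hρ.le _ (by omega))
        (f0.le _ (by omega)) hρ.ge
      obtain ⟨-, -, b1, b2⟩ := h2 n ρ hρ.path
      obtain ⟨-, -, b3, b4⟩ := h2 n (P k) f0.path
      have e3 : C₁ * R ≤ C₁ * (2 * K) * √X := by
        have : R ≤ 2 * K * √X := by (by_contra nlg; linarith only [nlg, mul_nonneg (sub_nonneg.2 hR0) (sub_nonneg.2 hX2), mul_nonneg (sub_nonneg.2 hv1) (sub_nonneg.2 hX2), mul_nonneg (sub_nonneg.2 hv) (sub_nonneg.2 hX2), mul_nonneg (sub_nonneg.2 hRX) (sub_nonneg.2 hX0), mul_nonneg (sub_nonneg.2 hX1) (sub_nonneg.2 hX0), mul_nonneg (sub_nonneg.2 hX1) (sub_nonneg.2 hRX), mul_pos (sub_pos.2 hX) (sub_pos.2 hX), mul_nonneg (sub_nonneg.2 hK) (sub_nonneg.2 hX0), mul_nonneg (le_of_lt (sub_pos.2 (not_le.1 nlg))) (sub_nonneg.2 hv1), mul_nonneg (le_of_lt (sub_pos.2 (not_le.1 nlg))) (sub_nonneg.2 hv)])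
        (by_contra nlg; linarith only [nlg, mul_nonneg (sub_nonneg.2 hR0) (sub_nonneg.2 hX2), mul_nonneg (sub_nonneg.2 hv1) (sub_nonneg.2 hX2), mul_nonneg (sub_nonneg.2 hv) (sub_nonneg.2 hX2), mul_nonneg (sub_nonneg.2 hRX) (sub_nonneg.2 hX0), mul_nonneg (sub_nonneg.2 hX1) (sub_nonneg.2 hX0), mul_nonneg (sub_nonneg.2 hX1) (sub_nonneg.2 hRX), mul_pos (sub_pos.2 hX) (sub_pos.2 hX), mul_nonneg (sub_nonneg.2 hK) (sub_nonneg.2 hX0), mul_nonneg (sub_nonneg.2 hC₁) (sub_nonneg.2 this), mul_nonneg (le_of_lt (sub_pos.2 (not_le.1 nlg))) (sub_nonneg.2 hv1), mul_nonneg (le_of_lt (sub_pos.2 (not_le.1 nlg))) (sub_nonneg.2 hv)])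
      have e4 : |kk n (P k) ^ 2 - kk n ρ ^ 2| ≤ C₁ * (2 * K) * √X := by
        have : kk n (P k) ^ 2 - kk n ρ ^ 2 = (kk n (P k) - kk n ρ) * (kk n (P k) + kk n ρ) := by
          ring
        rw [this, abs_mul, abs_of_nonneg (show 0 ≤ kk n (P k) + kk n ρ by linarith only [b3, b1, hc₂])]
        have h5 : |kk n (P k) - kk n ρ| ≤ C₁ * √X :=
          e2.trans (mul_le_mul_of_nonneg_left hsX (by linarith only [hC₁]))
        calc |kk n (P k) - kk n ρ| * (kk n (P k) + kk n ρ) ≤ (C₁ * √X) * (2 * K) := by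
              refine mul_le_mul h5 (by linarith only [b4, b2]) (by linarith only [b3, b1, hc₂]) (by positivity)
          _ = C₁ * (2 * K) * √X := by ring
      have hD : a ≤ D + C₁ * (2 * K) := by
        have : 0 ≤ C₁ * (2 * K) := by positivity
        linarith only [this, haD]
      have g1 : |v - vv n (P k)| ≤ (D + C₁ * (2 * K)) * √X := by
        have : |v - vv n (P k)| ≤ |v - vv n ρ| + |vv n (P k) - vv n ρ| := by
          have e : v - vv n (P k) = (v - vv n ρ) - (vv n (P k) - vv n ρ) := by ring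
          rw [e]
          exact abs_sub _ _
        linarith only [this, e3, e1, hvv]
      have g2 : |4 * v ^ 3 * a - kk n (P k) ^ 2| ≤ (D + C₁ * (2 * K)) * √X := by
        have : |4 * v ^ 3 * a - kk n (P k) ^ 2| ≤ |4 * v ^ 3 * a - kk n ρ ^ 2| +
            |kk n (P k) ^ 2 - kk n ρ ^ 2| := by
          have e : 4 * v ^ 3 * a - kk n (P k) ^ 2 = (4 * v ^ 3 * a - kk n ρ ^ 2) -
            (kk n (P k) ^ 2 - kk n ρ ^ 2) := by ring
          rw [e]
          exact abs_sub _ _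
        linarith only [this, e4, hkk]
      have hs2 : ∀ j ≤ N, ∑ l ∈ Finset.range L, P j l ^ 2 = ∑ l ∈ Finset.range L, ρ l ^ 2 := by
        intro j hj
        have : ∀ l ∈ Finset.range L, P j l ^ 2 = (1 - (j : ℝ) / N) * ρ l ^ 2 +
            (j : ℝ) / N * ρ' l ^ 2 := fun l hl => segP_sq hN hj (Finset.mem_range.1 hl)
        rw [Finset.sum_congr rfl this, Finset.sum_add_distrib, ← Finset.mul_sum,
          ← Finset.mul_sum, hsum]
        ring
      have s3 := h3 n L R X v a (P k) (P (k + 1)) f1 f2 hL hLn hX hX1 hRX hgX hv hv1 ha hD g1 g2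
        (by rw [hs2 (k + 1) hk, hs2 k hk.le])
      refine s3.trans ?_
      gcongr with l hl
      have hl' := Finset.mem_range.1 hl
      have d1 := segP_diff (R := R) hN hk hl' (nn l hl') (nn' l hl') (hρ.le l hl') (hρ'.le l hl')
      rw [← sq_abs, sq]
      exact mul_le_mul_of_nonneg_right d1 (abs_nonneg _)
    have tot : SKr b n (gm n) (P N) ≤ SKr b n (gm n) (P 0) +
        (Nw n L R v a (P N) - Nw n L R v a (P 0)) +
        ∑ k ∈ Finset.range N, (C * (1 / ((n : ℝ) + 1) *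
          ∑ l ∈ Finset.range L, R / √N * |P (k + 1) l - P k l|) +
        C * (X ^ 3 * √X) *
          (1 / ((n : ℝ) + 1) * ∑ l ∈ Finset.range L, |P (k + 1) l - P k l|)) := by
      have : ∀ M ≤ N, SKr b n (gm n) (P M) ≤ SKr b n (gm n) (P 0) +
        (Nw n L R v a (P M) - Nw n L R v a (P 0)) +
        ∑ k ∈ Finset.range M, (C * (1 / ((n : ℝ) + 1) *
          ∑ l ∈ Finset.range L, R / √N * |P (k + 1) l - P k l|) +
        C * (X ^ 3 * √X) *
          (1 / ((n : ℝ) + 1) * ∑ l ∈ Finset.range L, |P (k + 1) l - P k l|)) := by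
        intro M hM
        induction M with
        | zero => simp
        | succ M ih =>
          have := st M (by omega)
          have := ih (by omega)
          rw [Finset.sum_range_succ]
          linarith
      exact this N le_rfl
    have hPN : P N = ρ' := segP_last hN nn' (fun l hl => hρ'.top l hl)
    have hP0 : P 0 = ρ := segP_zero nn
    rw [hPN, hP0] at tot
    refine tot.trans (le_of_eq ?_)
    rw [Finset.sum_add_distrib, ← Finset.mul_sum, ← Finset.mul_sum, ← Finset.mul_sum,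
      ← Finset.mul_sum]
    have ex : ∑ k ∈ Finset.range N, ∑ l ∈ Finset.range L, |P (k + 1) l - P k l| =
        ∑ l ∈ Finset.range L, |ρ' l - ρ l| := by
      rw [Finset.sum_comm]
      refine Finset.sum_congr rfl fun l hl => ?_
      have hl' := Finset.mem_range.1 hl
      exact segP_tel hN hl' (nn l hl') (nn' l hl')
    have ex2 : ∑ k ∈ Finset.range N, ∑ l ∈ Finset.range L, R / √N * |P (k + 1) l - P k l| =
        R / √N * ∑ l ∈ Finset.range L, |ρ' l - ρ l| := by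
      rw [← ex, Finset.mul_sum]
      refine Finset.sum_congr rfl fun k _ => ?_
      rw [Finset.mul_sum]
    rw [ex, ex2]
    ring
  have lim : Tendsto (fun N : ℕ => SKr b n (gm n) ρ +
      (Nw n L R v a ρ' - Nw n L R v a ρ) +
      C * (1 / ((n : ℝ) + 1) * (R / √(N : ℝ) * ∑ l ∈ Finset.range L, |ρ' l - ρ l|)) +
      C * (X ^ 3 * √X) * (1 / ((n : ℝ) + 1) * ∑ l ∈ Finset.range L, |ρ' l - ρ l|)) atTop
      (𝓝 (SKr b n (gm n) ρ + (Nw n L R v a ρ' - Nw n L R v a ρ) +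
      C * (1 / ((n : ℝ) + 1) * (0 * ∑ l ∈ Finset.range L, |ρ' l - ρ l|)) +
      C * (X ^ 3 * √X) * (1 / ((n : ℝ) + 1) * ∑ l ∈ Finset.range L, |ρ' l - ρ l|))) := by
    have h0 : Tendsto (fun N : ℕ => R / √(N : ℝ)) atTop (𝓝 0) :=
      Tendsto.div_atTop tendsto_const_nhds
        (Real.tendsto_sqrt_atTop.comp tendsto_natCast_atTop_atTop)
    exact ((((h0.mul_const _).const_mul _).const_mul _).const_add _).add_const _
  have fin := ge_of_tendsto lim (Filter.eventually_atTop.2 ⟨1, fun N hN => main N (by omega)⟩)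
  simpa using fin

end Vale.Agent.P146.Sh
end

section

/-!
# P146, Sh: piecewise integration of the functional on the first blocks
-/

open MeasureTheory Filter Topology Set

namespace Vale.Agent.P146.Sh

lemma piece_mvt {f f' : ℝ → ℝ} {a b C : ℝ} (hab : a ≤ b) (hc : ContinuousOn f (Icc a b))
    (hd : ∀ t ∈ Ioo a b, HasDerivAt f (f' t) t) (hC : ∀ t ∈ Ioo a b, |f' t| ≤ C) :
    |f b - f a| ≤ C * (b - a) := by
  rcases hab.eq_or_lt with rfl | hlt
  · simp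
  · obtain ⟨c, hc1, hc2⟩ := exists_hasDerivAt_eq_slope f f' hlt hc hd
    have h3 : b - a ≠ 0 := (sub_pos.2 hlt).ne'
    have h2 : f b - f a = f' c * (b - a) := by
      rw [hc2]
      field_simp
    rw [h2, abs_mul, abs_of_pos (sub_pos.2 hlt)]
    exact mul_le_mul_of_nonneg_right (hC c hc1) (sub_pos.2 hlt).le

lemma piece_mono {L : ℕ} {ρ top : ℕ → ℝ} (hmono : ∀ l < L, ρ l ≤ top l)
    (htop : ∀ l, l + 1 < L → top l = ρ (l + 1)) : ∀ i j, i ≤ j → j < L → ρ i ≤ ρ j := by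
  intro i j hij hj
  induction j, hij using Nat.le_induction with
  | base => exact le_rfl
  | succ j hij ih =>
    have h := htop j hj
    exact (ih (by omega)).trans ((hmono j (by omega)).trans h.le)

/-- The derivative of the exponent integral inside the block `l`. -/
lemma piece_dA {L : ℕ} {δ R : ℝ} {ρ : ℕ → ℝ} {l : ℕ} (hl : l < L) {u : ℝ}
    (h1 : ∀ j, j ≤ l → ρ j < u) (h2 : ∀ j, l < j → j < L → u < ρ j) :
    HasDerivAt (fun u => ∑ j ∈ Finset.range L, δ * (R - max u (ρ j)))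
      (-(δ * ((l : ℝ) + 1))) u := by
  have key : ∀ j ∈ Finset.range L, HasDerivAt (fun u => δ * (R - max u (ρ j)))
      (if j ≤ l then -δ else 0) u := by
    intro j hj
    rw [Finset.mem_range] at hj
    split_ifs with h
    · have e : (fun u => δ * (R - max u (ρ j))) =ᶠ[𝓝 u] fun u => δ * (R - u) := by
        filter_upwards [lt_mem_nhds (h1 j h)] with y hy
        rw [max_eq_left hy.le]
      refine HasDerivAt.congr_of_eventuallyEq ?_ e
      have := ((hasDerivAt_id u).const_sub R).const_mul δ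
      simpa using this
    · have e : (fun u => δ * (R - max u (ρ j))) =ᶠ[𝓝 u] fun _ => δ * (R - ρ j) := by
        filter_upwards [gt_mem_nhds (h2 j (by omega) hj)] with y hy
        rw [max_eq_right hy.le]
      exact HasDerivAt.congr_of_eventuallyEq (hasDerivAt_const u _) e
  have h := HasDerivAt.fun_sum key
  refine h.congr_deriv ?_
  rw [← Finset.sum_filter, Finset.sum_const, nsmul_eq_mul]
  have hc : (Finset.filter (fun j => j ≤ l) (Finset.range L)).card = l + 1 := by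
    have : Finset.filter (fun j => j ≤ l) (Finset.range L) = Finset.range (l + 1) := by
      ext j
      simp only [Finset.mem_filter, Finset.mem_range]
      omega
    rw [this, Finset.card_range]
  rw [hc]
  push_cast
  ring

lemma piece_cA (L : ℕ) (δ R : ℝ) (ρ : ℕ → ℝ) :
    Continuous (fun u => ∑ j ∈ Finset.range L, δ * (R - max u (ρ j))) := by
  refine continuous_finsetSum _ fun j _ => ?_
  fun_prop

theorem piece {L : ℕ} (hL : 1 ≤ L) {δ R E v a : ℝ} (hδ : 0 ≤ δ) (hE : 0 ≤ E) {ρ top S : ℕ → ℝ}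
    (h0 : ρ 0 = 0) (hmono : ∀ l < L, ρ l ≤ top l) (htop : ∀ l, l + 1 < L → top l = ρ (l + 1))
    (htopL : top (L - 1) = R) {Rf Mf M1f : ℕ → ℝ → ℝ}
    (hRc : ∀ l < L, ContinuousOn (Rf l) (Icc 0 (top l - ρ l)))
    (hMc : ∀ l < L, ContinuousOn (Mf l) (Icc 0 (top l - ρ l)))
    (hR : ∀ l < L, ∀ t ∈ Ioo 0 (top l - ρ l), HasDerivAt (Rf l) (Mf l t) t)
    (hM : ∀ l < L, ∀ t ∈ Ioo 0 (top l - ρ l), HasDerivAt (Mf l) (M1f l t) t)
    (h1 : ∀ l < L, ∀ t ∈ Ioo 0 (top l - ρ l),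
      |M1f l t - (4 * v ^ 3 * a * (ρ l + t) - 2 * v ^ 3 * (δ * ((l : ℝ) + 1)))| ≤ E)
    (hR0 : ∀ l < L, Rf l 0 = S l) (hS0 : S 0 = 0)
    (hRt : ∀ l, l + 1 < L → Rf l (top l - ρ l) = S (l + 1))
    (hMm : ∀ l, l + 1 < L → Mf l (top l - ρ l) = Mf (l + 1) 0) :
    ∀ l < L, |S l - (Mf (L - 1) (R - ρ (L - 1)) * ρ l + 2 * v ^ 3 *
      ∫ u in (0 : ℝ)..(ρ l), ((∑ j ∈ Finset.range L, δ * (R - max u (ρ j)))
        - a * (R ^ 2 - u ^ 2)))| ≤ E * R * ρ l := by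
  have hm := piece_mono hmono htop
  have hpos : ∀ l < L, 0 ≤ ρ l := fun l hl => by
    have := hm 0 l (Nat.zero_le _) hl
    rwa [h0] at this
  have htopR : ∀ l < L, top l ≤ R := by
    intro l hl
    by_cases h : l + 1 < L
    · rw [htop l h]
      refine (hm (l + 1) (L - 1) (by omega) (by omega)).trans ?_
      rw [← htopL]
      exact hmono (L - 1) (by omega)
    · have : l = L - 1 := by omega
      rw [this, htopL]
  have hρR : ∀ l < L, ρ l ≤ R := fun l hl => (hmono l hl).trans (htopR l hl)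
  have hR0' : 0 ≤ R := (hpos 0 (by omega)).trans (hρR 0 (by omega))
  set μ := Mf (L - 1) (R - ρ (L - 1)) with hμ
  set A : ℝ → ℝ := fun u => ∑ j ∈ Finset.range L, δ * (R - max u (ρ j)) with hA
  have hAc : Continuous A := piece_cA L δ R ρ
  set Φ : ℝ → ℝ := fun u => μ + 2 * v ^ 3 * (A u - a * (R ^ 2 - u ^ 2)) with hΦ
  have hΦc : Continuous Φ := by
    rw [hΦ]
    fun_prop
  -- derivative of `Φ` inside the block `l`
  have hΦd : ∀ l < L, ∀ t ∈ Ioo 0 (top l - ρ l), HasDerivAt (fun t => Φ (ρ l + t))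
      (4 * v ^ 3 * a * (ρ l + t) - 2 * v ^ 3 * (δ * ((l : ℝ) + 1))) t := by
    intro l hl t ht
    have hu1 : ∀ j, j ≤ l → ρ j < ρ l + t := fun j hj => by
      have := hm j l hj hl
      linarith only [ht.1, this]
    have hu2 : ∀ j, l < j → j < L → ρ l + t < ρ j := fun j hj hjL => by
      have h3 := hm (l + 1) j hj hjL
      have h4 := htop l (by omega)
      linarith only [ht.2, h4, h3]
    have hd := piece_dA (δ := δ) (R := R) hl hu1 hu2
    have h5 : HasDerivAt Φ (2 * v ^ 3 * (-(δ * ((l : ℝ) + 1)) - a * (0 - 2 * (ρ l + t)))) (ρ l + t) := by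
      have h6 : HasDerivAt (fun u : ℝ => R ^ 2 - u ^ 2) (0 - 2 * (ρ l + t)) (ρ l + t) := by
        have := ((hasDerivAt_id (ρ l + t)).pow 2).const_sub (R ^ 2)
        simpa using this
      have h7 := ((hd.sub (h6.const_mul a)).const_mul (2 * v ^ 3)).const_add μ
      exact h7
    have h8 : HasDerivAt (fun t : ℝ => ρ l + t) 1 t := by
      simpa using (hasDerivAt_id t).const_add (ρ l)
    exact (h5.comp t h8).congr_deriv (by ring)
  -- `|M - Φ| ≤ E (R - u)`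
  have hMbd : ∀ k, k < L → ∀ t ∈ Icc 0 (top (L - 1 - k) - ρ (L - 1 - k)),
      |Mf (L - 1 - k) t - Φ (ρ (L - 1 - k) + t)| ≤ E * (R - (ρ (L - 1 - k) + t)) := by
    intro k
    induction k with
    | zero =>
      intro hk t ht
      simp only [Nat.sub_zero] at ht ⊢
      have h2 := piece_mvt (f := fun t => Mf (L - 1) t - Φ (ρ (L - 1) + t))
        (f' := fun t => M1f (L - 1) t - (4 * v ^ 3 * a * (ρ (L - 1) + t)
          - 2 * v ^ 3 * (δ * (((L - 1 : ℕ) : ℝ) + 1)))) (C := E) ht.2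
        (((hMc (L - 1) (by omega)).mono (Icc_subset_Icc_left ht.1)).sub
          (hΦc.comp (by fun_prop)).continuousOn)
        (fun s hs => (hM (L - 1) (by omega) s ⟨ht.1.trans_lt hs.1, hs.2⟩).sub
          (hΦd (L - 1) (by omega) s ⟨ht.1.trans_lt hs.1, hs.2⟩))
        (fun s hs => h1 (L - 1) (by omega) s ⟨ht.1.trans_lt hs.1, hs.2⟩)
      have h3 : Mf (L - 1) (top (L - 1) - ρ (L - 1)) -
          Φ (ρ (L - 1) + (top (L - 1) - ρ (L - 1))) = 0 := by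
        rw [htopL]
        have h4 : ρ (L - 1) + (R - ρ (L - 1)) = R := by ring
        rw [h4]
        have h5 : A R = 0 := by
          simp only [hA]
          refine Finset.sum_eq_zero fun j hj => ?_
          rw [max_eq_left (hρR j (Finset.mem_range.1 hj))]
          ring
        simp only [hΦ, h5]
        rw [hμ]
        ring
      simp only [h3, zero_sub, abs_neg] at h2
      rw [htopL] at h2
      calc |Mf (L - 1) t - Φ (ρ (L - 1) + t)| ≤ E * (R - ρ (L - 1) - t) := h2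
        _ = E * (R - (ρ (L - 1) + t)) := by ring
    | succ k ih =>
      intro hk t ht
      set l := L - 1 - (k + 1) with hldef
      have hl1 : L - 1 - k = l + 1 := by omega
      have hlL : l + 1 < L := by omega
      rw [hl1] at ih
      have ih0 := ih (by omega) 0 ⟨le_rfl, by linarith only [hmono (l + 1) hlL]⟩
      have h2 := piece_mvt (f := fun t => Mf l t - Φ (ρ l + t))
        (f' := fun t => M1f l t - (4 * v ^ 3 * a * (ρ l + t)
          - 2 * v ^ 3 * (δ * ((l : ℝ) + 1)))) (C := E) ht.2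
        (((hMc l (by omega)).mono (Icc_subset_Icc_left ht.1)).sub
          (hΦc.comp (by fun_prop)).continuousOn)
        (fun s hs => (hM l (by omega) s ⟨ht.1.trans_lt hs.1, hs.2⟩).sub
          (hΦd l (by omega) s ⟨ht.1.trans_lt hs.1, hs.2⟩))
        (fun s hs => h1 l (by omega) s ⟨ht.1.trans_lt hs.1, hs.2⟩)
      have h3 : Mf l (top l - ρ l) - Φ (ρ l + (top l - ρ l)) =
          Mf (l + 1) 0 - Φ (ρ (l + 1) + 0) := by
        rw [hMm l hlL, htop l hlL]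
        congr 2
        ring
      have e1 : Mf l t - Φ (ρ l + t) = (Mf (l + 1) 0 - Φ (ρ (l + 1) + 0)) -
          ((Mf l (top l - ρ l) - Φ (ρ l + (top l - ρ l))) - (Mf l t - Φ (ρ l + t))) := by
        rw [h3]
        ring
      rw [e1]
      refine (abs_sub _ _).trans ?_
      have e2 : E * (R - (ρ l + t)) = E * (R - (ρ (l + 1) + 0)) + E * (top l - ρ l - t) := by
        rw [htop l hlL]
        ring
      rw [e2]
      exact add_le_add ih0 h2
  have hMbd' : ∀ l < L, ∀ t ∈ Icc 0 (top l - ρ l),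
      |Mf l t - Φ (ρ l + t)| ≤ E * R := by
    intro l hl t ht
    have h2 := hMbd (L - 1 - l) (by omega)
    have h3 : L - 1 - (L - 1 - l) = l := by omega
    rw [h3] at h2
    refine (h2 t ht).trans ?_
    have h4 := hpos l hl
    exact mul_le_mul_of_nonneg_left (by linarith only [ht.1, h4]) hE
  -- integrate
  have hΨd : ∀ x, HasDerivAt (fun x => ∫ u in (0 : ℝ)..x, Φ u) (Φ x) x := fun x =>
    intervalIntegral.integral_hasDerivAt_right (hΦc.intervalIntegrable _ _)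
      (hΦc.stronglyMeasurableAtFilter _ _) hΦc.continuousAt
  have hS : ∀ l, l < L → |S l - ∫ u in (0 : ℝ)..(ρ l), Φ u| ≤ E * R * ρ l := by
    intro l
    induction l with
    | zero =>
      intro _
      rw [h0, hS0]
      simp
    | succ l ih =>
      intro hl
      have ih' := ih (by omega)
      have hT : 0 ≤ top l - ρ l := by linarith only [hmono l (by omega)]
      have hΨc : Continuous (fun x => ∫ u in (0 : ℝ)..x, Φ u) :=
        continuous_iff_continuousAt.2 fun x => (hΨd x).continuousAt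
      have h2 := piece_mvt (f := fun t => Rf l t - ∫ u in (0 : ℝ)..(ρ l + t), Φ u)
        (f' := fun t => Mf l t - Φ (ρ l + t)) (C := E * R) hT
        ((hRc l (by omega)).sub (hΨc.comp (by fun_prop)).continuousOn)
        (fun s hs => (hR l (by omega) s hs).sub (by
          have h8 : HasDerivAt (fun t : ℝ => ρ l + t) 1 s := by
            simpa using (hasDerivAt_id s).const_add (ρ l)
          exact ((hΨd (ρ l + s)).comp s h8).congr_deriv (by ring)))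
        (fun s hs => hMbd' l (by omega) s ⟨hs.1.le, hs.2.le⟩)
      simp only [add_zero, sub_zero] at h2
      rw [hRt l hl, hR0 l (by omega)] at h2
      have h3 : ρ l + (top l - ρ l) = ρ (l + 1) := by
        rw [htop l hl]
        ring
      rw [h3] at h2
      have e1 : S (l + 1) - ∫ u in (0 : ℝ)..(ρ (l + 1)), Φ u =
          (S (l + 1) - (∫ u in (0 : ℝ)..(ρ (l + 1)), Φ u) - (S l - ∫ u in (0 : ℝ)..(ρ l), Φ u)) +
          (S l - ∫ u in (0 : ℝ)..(ρ l), Φ u) := by ring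
      rw [e1]
      refine (abs_add_le _ _).trans ?_
      have e2 : E * R * ρ (l + 1) = E * R * (top l - ρ l) + E * R * ρ l := by
        rw [htop l hl]
        ring
      rw [e2]
      exact add_le_add h2 ih'
  intro l hl
  have h2 := hS l hl
  have h3 : ∫ u in (0 : ℝ)..(ρ l), Φ u = μ * ρ l + 2 * v ^ 3 *
      ∫ u in (0 : ℝ)..(ρ l), (A u - a * (R ^ 2 - u ^ 2)) := by
    simp only [hΦ]
    rw [intervalIntegral.integral_add (by simp)
      (Continuous.intervalIntegrable (by fun_prop) _ _),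
      intervalIntegral.integral_const_mul]
    simp only [intervalIntegral.integral_const, smul_eq_mul, sub_zero]
    ring
  rw [h3] at h2
  exact h2

end Vale.Agent.P146.Sh
end

section

/-!
# P146, Sh: expansion of `spR` along the first blocks (from the statements of ShM1, ShBd)
-/

open MeasureTheory ProbabilityTheory Filter Topology Set

namespace Vale.Agent.P146.Sh

open Vale.Agent.P157.Par
open Vale.Agent.P146.Gap
open Vale.Agent.P146.Pw2
open Vale.Agent.P146.Lb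
open Vale.Agent.P367.Cl

/-- cubes of numbers of the unit interval -/
theorem expd_cube {v w : ℝ} (hv : 0 ≤ v) (hv1 : v ≤ 1) (hw : 0 ≤ w) (hw1 : w ≤ 1) :
    |v ^ 3 - w ^ 3| ≤ 3 * |v - w| := by
  have e : v ^ 3 - w ^ 3 = (v - w) * (v ^ 2 + v * w + w ^ 2) := by ring
  have h1 : v ^ 2 ≤ 1 := pow_le_one₀ hv hv1
  have h2 : w ^ 2 ≤ 1 := pow_le_one₀ hw hw1
  have h3 : v * w ≤ 1 := mul_le_one₀ hv1 hw hw1
  have h4 : 0 ≤ v ^ 2 + v * w + w ^ 2 := by positivity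
  rw [e, abs_mul, abs_of_nonneg h4, mul_comm 3]
  exact mul_le_mul_of_nonneg_left (by linarith) (abs_nonneg _)

/-- the linear bound of the derivative with perturbed coefficients -/
theorem expd_lin {M K v w y σ g C₁ D X : ℝ} (hX : 0 ≤ X) (hσ : 0 ≤ σ) (hσX : σ ≤ X)
    (hg : 0 ≤ g) (hgX : g ≤ X) (hv : 0 ≤ v) (hv1 : v ≤ 1) (hw : 0 ≤ w) (hw1 : w ≤ 1)
    (h1 : |M - (K * σ - 2 * g * w ^ 3)| ≤ C₁ * (X * √X)) (h2 : |v - w| ≤ D * √X)
    (h3 : |y - K| ≤ D * √X) :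
    |M - (y * σ - 2 * v ^ 3 * g)| ≤ (C₁ + 7 * |D|) * (X * √X) := by
  have hs : 0 ≤ √X := Real.sqrt_nonneg X
  have hD : D * √X ≤ |D| * √X := mul_le_mul_of_nonneg_right (le_abs_self D) hs
  have hDs : 0 ≤ |D| * √X := by positivity
  have h4 := expd_cube hv hv1 hw hw1
  have e : M - (y * σ - 2 * v ^ 3 * g) = (M - (K * σ - 2 * g * w ^ 3)) -
      (y - K) * σ + 2 * g * (v ^ 3 - w ^ 3) := by ring
  have h5 : |(y - K) * σ| ≤ |D| * √X * X := by
    rw [abs_mul, abs_of_nonneg hσ]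
    exact mul_le_mul (h3.trans hD) hσX hσ hDs
  have h6 : |2 * g * (v ^ 3 - w ^ 3)| ≤ 2 * X * (3 * (|D| * √X)) := by
    rw [abs_mul, abs_of_nonneg (by positivity : 0 ≤ 2 * g)]
    refine mul_le_mul (by linarith) ?_ (abs_nonneg _) (by positivity)
    linarith only [h2.trans hD, h4]
  calc |M - (y * σ - 2 * v ^ 3 * g)| = |(M - (K * σ - 2 * g * w ^ 3)) -
      (y - K) * σ + 2 * g * (v ^ 3 - w ^ 3)| := by rw [e]
    _ ≤ |(M - (K * σ - 2 * g * w ^ 3)) - (y - K) * σ| + |2 * g * (v ^ 3 - w ^ 3)| :=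
        abs_add_le _ _
    _ ≤ |M - (K * σ - 2 * g * w ^ 3)| + |(y - K) * σ| + |2 * g * (v ^ 3 - w ^ 3)| := by
        gcongr
        exact abs_sub _ _
    _ ≤ C₁ * (X * √X) + |D| * √X * X + 2 * X * (3 * (|D| * √X)) := by gcongr
    _ = (C₁ + 7 * |D|) * (X * √X) := by ring

theorem expd_core {b C₁ D : ℝ} {n L : ℕ} {R X v a : ℝ} {ρ : ℕ → ℝ} (hC₁ : 0 ≤ C₁)
    (hF : Fam b n L R ρ ρ) (hL : 1 ≤ L) (hLn : L ≤ n) (hX : 0 < X) (hRX : R ≤ X)
    (hgX : gm n L ≤ X) (hv : 0 ≤ v) (hv1 : v ≤ 1) (hw : 0 ≤ vv n ρ) (hw1 : vv n ρ ≤ 1)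
    (h1 : ∀ l < n, gm n (l + 1) ≤ X → ∀ t ∈ Icc 0 (ρ (l + 1) - ρ l), ρ l + t ≤ X →
      |M1b n (gm n) ρ l t - (kk n ρ ^ 2 * (ρ l + t) - 2 * gm n (l + 1) * vv n ρ ^ 3)| ≤
        C₁ * (X * √X))
    (h2 : |v - vv n ρ| ≤ D * √X) (h3 : |4 * v ^ 3 * a - kk n ρ ^ 2| ≤ D * √X) :
    ∃ μ : ℝ, 0 ≤ μ ∧ μ ≤ 1 ∧ ∀ l < L, |spR n (gm n) ρ l - (μ * ρ l + 2 * v ^ 3 *
      ∫ u in (0 : ℝ)..(ρ l), (Aw n L R ρ u - a * (R ^ 2 - u ^ 2)))| ≤
        (C₁ + 7 * |D|) * (X ^ 3 * √X) := by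
  have hm := gm_exponents n
  have hr := hF.path
  have hP := hr.2.1
  have h0 : ρ 0 = 0 := hr.1
  have hs : 0 ≤ √X := Real.sqrt_nonneg X
  have hnn : ∀ l ≤ n, 0 ≤ ρ l := fun l hl => len_nonneg hr hl
  set top : ℕ → ℝ := fun l => if l + 1 < L then ρ (l + 1) else R with htop
  have hlast : L - 1 < n := by omega
  have heq : L - 1 + 1 = L := by omega
  have htop_le : ∀ l < L, top l ≤ ρ (l + 1) := by
    intro l hl
    simp only [htop]
    split_ifs with h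
    · exact le_rfl
    · have : l + 1 = L := by omega
      rw [this]
      exact hF.ge
  have hmono : ∀ l < L, ρ l ≤ top l := by
    intro l hl
    simp only [htop]
    split_ifs with h
    · exact len_mono hr (Nat.le_succ l) (by omega)
    · exact hF.le l hl
  have htopR : ∀ l < L, top l ≤ R := by
    intro l hl
    simp only [htop]
    split_ifs with h
    · exact hF.le (l + 1) h
    · exact le_rfl
  have htop1 : ∀ l, l + 1 < L → top l = ρ (l + 1) := by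
    intro l hl
    simp only [htop, if_pos hl]
  have htopL : top (L - 1) = R := by
    have : ¬ (L - 1 + 1 < L) := by omega
    simp only [htop, if_neg this]
  have hgl : ∀ l < L, gm n (l + 1) ≤ X := fun l hl =>
    (len_gm_mono (show l + 1 ≤ L by omega)).trans hgX
  have hgm : ∀ l : ℕ, gm n (l + 1) = 1 / ((n : ℝ) + 1) * ((l : ℝ) + 1) := by
    intro l
    unfold gm
    push_cast
    ring
  have hE : 0 ≤ (C₁ + 7 * |D|) * (X * √X) := by (clear * - hC₁ hX; positivity)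
  have key := piece (L := L) hL (δ := 1 / ((n : ℝ) + 1)) (R := R)
    (E := (C₁ + 7 * |D|) * (X * √X)) (v := v) (a := a) (by (clear * -; positivity)) hE
    (ρ := ρ) (top := top) (S := fun l => spR n (gm n) ρ l) h0 hmono htop1 htopL
    (Rf := fun l => Rb n (gm n) ρ l) (Mf := fun l => Mb n (gm n) ρ l)
    (M1f := fun l => M1b n (gm n) ρ l)
    (fun l hl => (Rb_cont hm hP (by omega)).mono
      (Icc_subset_Icc_right (by linarith only [htop_le l hl])))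
    (fun l hl => (Mb_cont hm hP (by omega)).mono
      (Icc_subset_Icc_right (by linarith only [htop_le l hl])))
    (fun l hl t ht => Rb_deriv hm hP (by omega)
      ⟨ht.1, ht.2.trans_le (by linarith only [htop_le l hl])⟩)
    (fun l hl t ht => Mb_deriv hm hP (by omega)
      ⟨ht.1, ht.2.trans_le (by linarith only [htop_le l hl])⟩)
    (fun l hl t ht => by
      have hlt : t < ρ (l + 1) - ρ l := ht.2.trans_le (by linarith only [htop_le l hl])
      have hσX : ρ l + t ≤ X := by linarith only [ht.2, htopR l hl, hRX]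
      have hσ : 0 ≤ ρ l + t := by linarith only [ht.1, hnn l (by omega)]
      have h4 := h1 l (by omega) (hgl l hl) t ⟨ht.1.le, hlt.le⟩ hσX
      have h5 := expd_lin (y := 4 * v ^ 3 * a) hX.le hσ hσX (grid_gm_nonneg n (l + 1)) (hgl l hl)
        hv hv1 hw hw1 h4 h2 h3
      rw [← hgm l]
      exact h5)
    (fun l hl => Rb_zero hm hP (by omega))
    (Vale.Agent.P146.Gap.spR_zero hm hP h0)
    (fun l hl => by
      rw [htop1 l hl]
      exact Rb_last hm hP (by omega))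
    (fun l hl => by
      rw [htop1 l hl, Mb_last hm hP (show l < n by omega), Mb_zero hm hP (show l + 1 < n by omega)])
  have hR0 : ρ (L - 1) ≤ R := hF.le (L - 1) (by omega)
  have hRL : R ≤ ρ L := hF.ge
  have hmem := Mb_mem hm hP hlast (t := R - ρ (L - 1)) ⟨by linarith only [hR0], by rw [heq]; linarith only [hRL]⟩
  refine ⟨Mb n (gm n) ρ (L - 1) (R - ρ (L - 1)), hmem.1, hmem.2, fun l hl => ?_⟩
  refine (key l hl).trans ?_
  have h6 : 0 ≤ ρ l := hnn l (by omega)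
  have h7 : ρ l ≤ X := (hF.le l hl).trans hRX
  have h8 : R * ρ l ≤ X * X := mul_le_mul hRX h7 h6 hX.le
  calc (C₁ + 7 * |D|) * (X * √X) * R * ρ l = (C₁ + 7 * |D|) * (X * √X) * (R * ρ l) := by ring
    _ ≤ (C₁ + 7 * |D|) * (X * √X) * (X * X) := mul_le_mul_of_nonneg_left h8 hE
    _ = (C₁ + 7 * |D|) * (X ^ 3 * √X) := by ring

theorem expd_of {b : ℝ} (D : ℝ)
    (hm1e : ∃ C : ℝ, 1 ≤ C ∧ ∀ (n : ℕ) (X : ℝ) (r : ℕ → ℝ), BPath b n r → 0 < X →
    X ≤ 1 → ∀ l < n, gm n (l + 1) ≤ X → ∀ t ∈ Icc 0 (r (l + 1) - r l), r l + t ≤ X →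
      |M1b n (gm n) r l t - (kk n r ^ 2 * (r l + t) - 2 * gm n (l + 1) * vv n r ^ 3)| ≤
        C * (X * √X))
    (hvk : ∃ c K : ℝ, 0 < c ∧ 1 ≤ K ∧ ∀ (n : ℕ) (r : ℕ → ℝ), BPath b n r →
    c ≤ vv n r ∧ vv n r ≤ 1 ∧ c ≤ kk n r ∧ kk n r ≤ K) :
    ∃ C : ℝ, 1 ≤ C ∧ ∀ (n L : ℕ) (R X v a : ℝ) (ρ : ℕ → ℝ),
    Fam b n L R ρ ρ → 1 ≤ L → L ≤ n → 0 < X → X ≤ 1 → R ≤ X → gm n L ≤ X → 0 ≤ v → v ≤ 1 →
    |v - vv n ρ| ≤ D * √X → |4 * v ^ 3 * a - kk n ρ ^ 2| ≤ D * √X →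
    ∃ μ : ℝ, 0 ≤ μ ∧ μ ≤ 1 ∧ ∀ l < L, |spR n (gm n) ρ l - (μ * ρ l + 2 * v ^ 3 *
      ∫ u in (0 : ℝ)..(ρ l), (Aw n L R ρ u - a * (R ^ 2 - u ^ 2)))| ≤ C * (X ^ 3 * √X) := by
  obtain ⟨C₁, hC₁, h1⟩ := hm1e
  obtain ⟨c, K, hc, _, hvk⟩ := hvk
  refine ⟨C₁ + 7 * |D|, by linarith only [abs_nonneg D, hC₁], fun n L R X v a ρ hF hL hLn hX hX1 hRX hgX
    hv hv1 h2 h3 => ?_⟩
  have hw := hvk n ρ hF.path
  exact expd_core (by linarith only [hC₁]) hF hL hLn hX hRX hgX hv hv1 (hc.le.trans hw.1) hw.2.1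
    (h1 n X ρ hF.path hX hX1) h2 h3

end Vale.Agent.P146.Sh
end

section

/-!
# P146, Sh: expansion of `spR` along the first blocks
-/

open MeasureTheory ProbabilityTheory Filter Topology Set

namespace Vale.Agent.P146.Sh

open Vale.Agent.P157.Par
open Vale.Agent.P146.Gap
open Vale.Agent.P146.Pw2
open Vale.Agent.P146.Lb
open Vale.Agent.P367.Cl

theorem expd (b D : ℝ) : ∃ C : ℝ, 1 ≤ C ∧ ∀ (n L : ℕ) (R X v a : ℝ) (ρ : ℕ → ℝ),
    Fam b n L R ρ ρ → 1 ≤ L → L ≤ n → 0 < X → X ≤ 1 → R ≤ X → gm n L ≤ X → 0 ≤ v → v ≤ 1 →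
    |v - vv n ρ| ≤ D * √X → |4 * v ^ 3 * a - kk n ρ ^ 2| ≤ D * √X →
    ∃ μ : ℝ, 0 ≤ μ ∧ μ ≤ 1 ∧ ∀ l < L, |spR n (gm n) ρ l - (μ * ρ l + 2 * v ^ 3 *
      ∫ u in (0 : ℝ)..(ρ l), (Aw n L R ρ u - a * (R ^ 2 - u ^ 2)))| ≤ C * (X ^ 3 * √X) :=
  expd_of D (m1e b) (vk_bd b)

end Vale.Agent.P146.Sh
end

section

/-!
# P146, Sh: real analysis for the brick `nwg`
-/

open MeasureTheory Set

namespace Vale.Agent.P146.Sh

lemma nwg_max_int {R t : ℝ} {g : ℝ → ℝ} (hg : Continuous g) (h0 : 0 ≤ t) (h1 : t ≤ R) :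
    ∫ u in (0:ℝ)..R, max u t * g u = t * (∫ u in (0:ℝ)..t, g u) + ∫ u in t..R, u * g u := by
  have hc : Continuous fun u : ℝ => max u t * g u := by fun_prop
  rw [← intervalIntegral.integral_add_adjacent_intervals (hc.intervalIntegrable 0 t)
    (hc.intervalIntegrable t R), ← intervalIntegral.integral_const_mul]
  congr 1
  · refine intervalIntegral.integral_congr fun u hu => ?_
    rw [uIcc_of_le h0] at hu
    rw [max_eq_right hu.2]
  · refine intervalIntegral.integral_congr fun u hu => ?_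
    rw [uIcc_of_le h1] at hu
    rw [max_eq_left hu.1]

lemma nwg_one {R p p' B : ℝ} {g : ℝ → ℝ} (hg : Continuous g) (h0 : 0 ≤ p) (h1 : p ≤ R)
    (h0' : 0 ≤ p') (h1' : p' ≤ R) (hB : ∀ u ∈ Icc (0:ℝ) R, |g u| ≤ B) :
    (p - p') * (∫ u in (0:ℝ)..p, g u)
      ≤ (∫ u in (0:ℝ)..R, (max u p - max u p') * g u) + B * (p' - p) ^ 2 := by
  have hc : ∀ t : ℝ, Continuous fun u : ℝ => max u t * g u := fun t => by fun_prop
  have e1 : ∫ u in (0:ℝ)..R, (max u p - max u p') * g u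
      = (∫ u in (0:ℝ)..R, max u p * g u) - ∫ u in (0:ℝ)..R, max u p' * g u := by
    rw [← intervalIntegral.integral_sub ((hc p).intervalIntegrable _ _)
      ((hc p').intervalIntegrable _ _)]
    refine intervalIntegral.integral_congr fun u _ => ?_
    ring
  have hug : Continuous fun u : ℝ => u * g u := by fun_prop
  have e2 : (∫ u in p..R, u * g u) - ∫ u in p'..R, u * g u = - ∫ u in p'..p, u * g u := by
    rw [← intervalIntegral.integral_add_adjacent_intervals (hug.intervalIntegrable p' p)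
      (hug.intervalIntegrable p R)]
    ring
  have e3 : (∫ u in (0:ℝ)..p, g u) = (∫ u in (0:ℝ)..p', g u) + ∫ u in p'..p, g u :=
    (intervalIntegral.integral_add_adjacent_intervals (hg.intervalIntegrable 0 p')
      (hg.intervalIntegrable p' p)).symm
  have e4 : ∫ u in p'..p, (p' - u) * g u = p' * (∫ u in p'..p, g u) - ∫ u in p'..p, u * g u := by
    rw [← intervalIntegral.integral_const_mul,
      ← intervalIntegral.integral_sub ((hg.const_mul p').intervalIntegrable _ _)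
      (hug.intervalIntegrable _ _)]
    refine intervalIntegral.integral_congr fun u _ => ?_
    ring
  have hbd : |∫ u in p'..p, (p' - u) * g u| ≤ (B * |p - p'|) * |p - p'| := by
    have := intervalIntegral.norm_integral_le_of_norm_le_const (a := p') (b := p)
      (f := fun u => (p' - u) * g u) (C := B * |p - p'|) (fun u hu => ?_)
    · simpa using this
    · have hu' : u ∈ uIcc p' p := uIoc_subset_uIcc hu
      have huI : u ∈ Icc (0:ℝ) R := by
        rcases le_total p' p with h | h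
        · rw [uIcc_of_le h] at hu'; exact ⟨h0'.trans hu'.1, hu'.2.trans h1⟩
        · rw [uIcc_of_ge h] at hu'; exact ⟨h0.trans hu'.1, hu'.2.trans h1'⟩
      have h2 : |p' - u| ≤ |p - p'| := by
        rcases le_total p' p with h | h
        · rw [uIcc_of_le h] at hu'
          rw [abs_of_nonpos (by linarith [hu'.1]), abs_of_nonneg (by linarith)]
          linarith [hu'.2]
        · rw [uIcc_of_ge h] at hu'
          rw [abs_of_nonneg (by linarith [hu'.2]), abs_of_nonpos (by linarith)]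
          linarith [hu'.1]
      rw [Real.norm_eq_abs, abs_mul, mul_comm B]
      exact mul_le_mul h2 (hB u huI) (abs_nonneg _) (abs_nonneg _)
  have hbd2 : (B * |p - p'|) * |p - p'| = B * (p' - p) ^ 2 := by
    rw [mul_assoc, ← pow_two, sq_abs]; ring
  rw [hbd2] at hbd
  have hlow := (abs_le.mp hbd).1
  rw [e1, nwg_max_int hg h0 h1, nwg_max_int hg h0' h1']
  have e5 := e4
  linarith only [mul_eq_zero_of_left (sub_eq_zero.2 e3) (p' - (0)), hlow, e4, e2]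

end Vale.Agent.P146.Sh
end

section

/-!
# P146, Sh: the brick `nwg`
-/

open MeasureTheory Set

namespace Vale.Agent.P146.Sh

lemma nwg_Aw_cont (n L : ℕ) (R : ℝ) (ρ : ℕ → ℝ) : Continuous (Aw n L R ρ) := by
  unfold Aw
  fun_prop

theorem nwg {n L : ℕ} {R v a B : ℝ} {ρ ρ' : ℕ → ℝ} (hR : 0 ≤ R) (hv : 0 ≤ v) (ha : 0 ≤ a)
    (h0 : ∀ l < L, 0 ≤ ρ l ∧ ρ l ≤ R) (h0' : ∀ l < L, 0 ≤ ρ' l ∧ ρ' l ≤ R)
    (hB : (L : ℝ) / ((n : ℝ) + 1) * R + a * R ^ 2 ≤ B) :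
    -(v ^ 3 * (1 / ((n : ℝ) + 1) * ∑ l ∈ Finset.range L, (ρ' l - ρ l) *
      ∫ u in (0 : ℝ)..(ρ l), (Aw n L R ρ u - a * (R ^ 2 - u ^ 2)))) ≤
      Nw n L R v a ρ' - Nw n L R v a ρ +
        v ^ 3 * B * (1 / ((n : ℝ) + 1) * ∑ l ∈ Finset.range L, (ρ' l - ρ l) ^ 2) := by
  set δ : ℝ := 1 / ((n : ℝ) + 1) with hδ
  have hδ0 : 0 < δ := by positivity
  set g : ℝ → ℝ := fun u => Aw n L R ρ u - a * (R ^ 2 - u ^ 2) with hg
  set g' : ℝ → ℝ := fun u => Aw n L R ρ' u - a * (R ^ 2 - u ^ 2) with hg'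
  have hgc : Continuous g := by
    have := nwg_Aw_cont n L R ρ
    fun_prop
  have hgc' : Continuous g' := by
    have := nwg_Aw_cont n L R ρ'
    fun_prop
  have hgB : ∀ u ∈ Icc (0:ℝ) R, |g u| ≤ B := by
    intro u hu
    have hA0 : 0 ≤ Aw n L R ρ u := by
      unfold Aw
      refine Finset.sum_nonneg fun j hj => ?_
      have := h0 j (Finset.mem_range.mp hj)
      have h2 : max u (ρ j) ≤ R := max_le hu.2 this.2
      exact mul_nonneg hδ0.le (by linarith only [h2])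
    have hA1 : Aw n L R ρ u ≤ (L : ℝ) / ((n : ℝ) + 1) * R := by
      unfold Aw
      calc ∑ j ∈ Finset.range L, 1 / ((n : ℝ) + 1) * (R - max u (ρ j))
          ≤ ∑ _j ∈ Finset.range L, δ * R := by
            refine Finset.sum_le_sum fun j hj => ?_
            have h2 : 0 ≤ max u (ρ j) := le_max_of_le_left hu.1
            exact mul_le_mul_of_nonneg_left (by linarith only [h2]) hδ0.le
        _ = (L : ℝ) / ((n : ℝ) + 1) * R := by
            rw [Finset.sum_const, Finset.card_range, nsmul_eq_mul, hδ]; ring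
    have hu2 : u ^ 2 ≤ R ^ 2 := pow_le_pow_left₀ hu.1 hu.2 2
    have h3 : 0 ≤ a * (R ^ 2 - u ^ 2) := mul_nonneg ha (by linarith only [hu2])
    have h4 : a * (R ^ 2 - u ^ 2) ≤ a * R ^ 2 := mul_le_mul_of_nonneg_left (by linarith only [sq_nonneg u]) ha
    have h5 : 0 ≤ (L : ℝ) / ((n : ℝ) + 1) * R := by (clear * - hR; positivity)
    have h6 : 0 ≤ a * R ^ 2 := by (clear * - ha; positivity)
    simp only [hg]
    rw [abs_le]
    constructor <;> linarith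
  -- step 1
  have h1 : ∫ u in (0:ℝ)..R, (g u ^ 2 + 2 * ((g' u - g u) * g u)) ≤ ∫ u in (0:ℝ)..R, g' u ^ 2 := by
    apply intervalIntegral.integral_mono_on hR
    · exact Continuous.intervalIntegrable (by fun_prop) _ _
    · exact Continuous.intervalIntegrable (by fun_prop) _ _
    · intro u _
      linarith only [sq_nonneg (g' u - g u)]
  have h2 : ∫ u in (0:ℝ)..R, (g u ^ 2 + 2 * ((g' u - g u) * g u))
      = (∫ u in (0:ℝ)..R, g u ^ 2) + 2 * ∫ u in (0:ℝ)..R, (g' u - g u) * g u := by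
    rw [intervalIntegral.integral_add (Continuous.intervalIntegrable (by fun_prop) _ _)
      (Continuous.intervalIntegrable (by fun_prop) _ _), intervalIntegral.integral_const_mul]
  -- step 2
  have h3 : ∀ u, (g' u - g u) * g u
      = ∑ j ∈ Finset.range L, δ * ((max u (ρ j) - max u (ρ' j)) * g u) := by
    intro u
    have : g' u - g u = ∑ j ∈ Finset.range L, δ * (max u (ρ j) - max u (ρ' j)) := by
      simp only [hg, hg', Aw]
      rw [sub_sub_sub_cancel_right, ← Finset.sum_sub_distrib]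
      refine Finset.sum_congr rfl fun j _ => ?_
      ring
    rw [this, Finset.sum_mul]
    refine Finset.sum_congr rfl fun j _ => ?_
    ring
  have h4 : ∫ u in (0:ℝ)..R, (g' u - g u) * g u
      = ∑ j ∈ Finset.range L, δ * ∫ u in (0:ℝ)..R, (max u (ρ j) - max u (ρ' j)) * g u := by
    simp only [h3]
    rw [intervalIntegral.integral_finsetSum]
    · refine Finset.sum_congr rfl fun j _ => ?_
      rw [intervalIntegral.integral_const_mul]
    · intro j _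
      exact Continuous.intervalIntegrable (by fun_prop) _ _
  -- step 3
  have h5 : -(∑ l ∈ Finset.range L, (ρ' l - ρ l) * ∫ u in (0 : ℝ)..(ρ l), g u)
      ≤ (∑ j ∈ Finset.range L, ∫ u in (0:ℝ)..R, (max u (ρ j) - max u (ρ' j)) * g u)
        + B * ∑ l ∈ Finset.range L, (ρ' l - ρ l) ^ 2 := by
    rw [← Finset.sum_neg_distrib, Finset.mul_sum, ← Finset.sum_add_distrib]
    refine Finset.sum_le_sum fun l hl => ?_
    have hl' := Finset.mem_range.mp hl
    have := nwg_one hgc (h0 l hl').1 (h0 l hl').2 (h0' l hl').1 (h0' l hl').2 hgB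
    linarith only [this]
  have h6 : Nw n L R v a ρ' - Nw n L R v a ρ
      = v ^ 3 / 2 * ((∫ u in (0:ℝ)..R, g' u ^ 2) - ∫ u in (0:ℝ)..R, g u ^ 2) := by
    unfold Nw
    simp only [hg, hg']
    ring
  rw [h6]
  have hv3 : 0 ≤ v ^ 3 := by (clear * - hv; positivity)
  have h7 : 2 * (δ * ∑ j ∈ Finset.range L, ∫ u in (0:ℝ)..R, (max u (ρ j) - max u (ρ' j)) * g u)
      ≤ (∫ u in (0:ℝ)..R, g' u ^ 2) - ∫ u in (0:ℝ)..R, g u ^ 2 := by
    rw [Finset.mul_sum, ← h4]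
    linarith only [h2, h1]
  have h8 := mul_le_mul_of_nonneg_left h5 (mul_nonneg hv3 hδ0.le)
  have h9 := mul_le_mul_of_nonneg_left h7 hv3
  calc -(v ^ 3 * (δ * ∑ l ∈ Finset.range L, (ρ' l - ρ l) * ∫ u in (0 : ℝ)..(ρ l), g u))
      = v ^ 3 * δ * -(∑ l ∈ Finset.range L, (ρ' l - ρ l) * ∫ u in (0 : ℝ)..(ρ l), g u) := by ring
    _ ≤ _ := h8
    _ ≤ _ := by linarith only [h9]

end Vale.Agent.P146.Sh
end

section

/-!
# P146, Sh: one step along a segment of paths with the same sum of squares (`step` with the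
statement `expd` as a hypothesis)
-/

open MeasureTheory ProbabilityTheory Filter Topology Set

namespace Vale.Agent.P146.Sh

open Vale.Agent.P157.Par
open Vale.Agent.P146.Gap
open Vale.Agent.P146.Pw2
open Vale.Agent.P146.Lb
open Vale.Agent.P367.Cl

/-- The algebra of one step. -/
lemma step_alg {L : ℕ} {δ μ w E : ℝ} (hδ : 0 ≤ δ) {ρ ρ' S J : ℕ → ℝ}
    (hs : ∑ l ∈ Finset.range L, ρ' l ^ 2 = ∑ l ∈ Finset.range L, ρ l ^ 2)
    (hS : ∀ l < L, |S l - (μ * ρ l + 2 * w * J l)| ≤ E) :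
    -(1 / 2 * (δ * ∑ l ∈ Finset.range L, S l * (ρ' l - ρ l))) ≤
      μ / 4 * (δ * ∑ l ∈ Finset.range L, (ρ' l - ρ l) ^ 2) +
      -(w * (δ * ∑ l ∈ Finset.range L, (ρ' l - ρ l) * J l)) +
      E / 2 * (δ * ∑ l ∈ Finset.range L, |ρ' l - ρ l|) := by
  have h1 : ∑ l ∈ Finset.range L, ρ l * (ρ' l - ρ l) =
      -(1 / 2) * ∑ l ∈ Finset.range L, (ρ' l - ρ l) ^ 2 := by
    have e : ∑ l ∈ Finset.range L, (ρ' l - ρ l) ^ 2 =
        ∑ l ∈ Finset.range L, ρ' l ^ 2 - ∑ l ∈ Finset.range L, ρ l ^ 2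
          - 2 * ∑ l ∈ Finset.range L, ρ l * (ρ' l - ρ l) := by
      rw [Finset.mul_sum, ← Finset.sum_sub_distrib, ← Finset.sum_sub_distrib]
      exact Finset.sum_congr rfl fun l _ => by ring
    rw [e, hs]
    ring
  have h2 : -(∑ l ∈ Finset.range L, S l * (ρ' l - ρ l)) ≤
      -(μ * ∑ l ∈ Finset.range L, ρ l * (ρ' l - ρ l)) +
      -(2 * w * ∑ l ∈ Finset.range L, (ρ' l - ρ l) * J l) +
      E * ∑ l ∈ Finset.range L, |ρ' l - ρ l| := by
    rw [Finset.mul_sum, Finset.mul_sum, Finset.mul_sum, ← Finset.sum_neg_distrib,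
      ← Finset.sum_neg_distrib, ← Finset.sum_neg_distrib, ← Finset.sum_add_distrib,
      ← Finset.sum_add_distrib]
    refine Finset.sum_le_sum fun l hl => ?_
    have h3 := hS l (Finset.mem_range.1 hl)
    have h4 : -((S l - (μ * ρ l + 2 * w * J l)) * (ρ' l - ρ l)) ≤ E * |ρ' l - ρ l| := by
      calc -((S l - (μ * ρ l + 2 * w * J l)) * (ρ' l - ρ l))
          ≤ |(S l - (μ * ρ l + 2 * w * J l)) * (ρ' l - ρ l)| := neg_le_abs _
        _ = |S l - (μ * ρ l + 2 * w * J l)| * |ρ' l - ρ l| := abs_mul _ _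
        _ ≤ E * |ρ' l - ρ l| := mul_le_mul_of_nonneg_right h3 (abs_nonneg _)
    linarith only [h4]
  rw [h1] at h2
  have h5 := mul_le_mul_of_nonneg_left h2 hδ
  linarith only [h5]

theorem step_of {b : ℝ} (D : ℝ)
    (hex : ∃ C : ℝ, 1 ≤ C ∧ ∀ (n L : ℕ) (R X v a : ℝ) (ρ : ℕ → ℝ),
      Fam b n L R ρ ρ → 1 ≤ L → L ≤ n → 0 < X → X ≤ 1 → R ≤ X → gm n L ≤ X → 0 ≤ v → v ≤ 1 →
      |v - vv n ρ| ≤ D * √X → |4 * v ^ 3 * a - kk n ρ ^ 2| ≤ D * √X →
      ∃ μ : ℝ, 0 ≤ μ ∧ μ ≤ 1 ∧ ∀ l < L, |spR n (gm n) ρ l - (μ * ρ l + 2 * v ^ 3 *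
        ∫ u in (0 : ℝ)..(ρ l), (Aw n L R ρ u - a * (R ^ 2 - u ^ 2)))| ≤ C * (X ^ 3 * √X)) :
    ∃ C : ℝ, 1 ≤ C ∧ ∀ (n L : ℕ) (R X v a : ℝ)
    (ρ ρ' : ℕ → ℝ), Fam b n L R ρ ρ → Fam b n L R ρ ρ' → 1 ≤ L → L ≤ n → 0 < X → X ≤ 1 → R ≤ X →
    gm n L ≤ X → 0 ≤ v → v ≤ 1 → 0 ≤ a → a ≤ D → |v - vv n ρ| ≤ D * √X →
    |4 * v ^ 3 * a - kk n ρ ^ 2| ≤ D * √X →
    ∑ l ∈ Finset.range L, ρ' l ^ 2 = ∑ l ∈ Finset.range L, ρ l ^ 2 →
    SKr b n (gm n) ρ' ≤ SKr b n (gm n) ρ + (Nw n L R v a ρ' - Nw n L R v a ρ) +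
      C * (1 / ((n : ℝ) + 1) * ∑ l ∈ Finset.range L, (ρ' l - ρ l) ^ 2) +
      C * (X ^ 3 * √X) * (1 / ((n : ℝ) + 1) * ∑ l ∈ Finset.range L, |ρ' l - ρ l|) := by
  obtain ⟨C₁, hC₁, hexpd⟩ := hex
  refine ⟨C₁ + |D| + 2, by linarith only [abs_nonneg D, hC₁], ?_⟩
  intro n L R X v a ρ ρ' hF hF' hL hLn hX hX1 hRX hgX hv hv1 ha haD hvv hkk hsum
  obtain ⟨μ, hμ0, hμ1, hS⟩ := hexpd n L R X v a ρ hF hL hLn hX hX1 hRX hgX hv hv1 hvv hkk
  have hn : (0 : ℝ) < (n : ℝ) + 1 := by positivity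
  have hδ : (0 : ℝ) ≤ 1 / ((n : ℝ) + 1) := by positivity
  have hρ0 : ∀ l < L, 0 ≤ ρ l ∧ ρ l ≤ R := fun l hl =>
    ⟨hF.path.2.1.nonneg l (by omega), hF.le l hl⟩
  have hρ0' : ∀ l < L, 0 ≤ ρ' l ∧ ρ' l ≤ R := fun l hl =>
    ⟨hF'.path.2.1.nonneg l (by omega), hF'.le l hl⟩
  have hR : 0 ≤ R := (hρ0 0 (by omega)).1.trans (hρ0 0 (by omega)).2
  have hB : (L : ℝ) / ((n : ℝ) + 1) * R + a * R ^ 2 ≤ 1 + |D| := by
    have h1 : (L : ℝ) / ((n : ℝ) + 1) ≤ 1 := by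
      have : gm n L = (L : ℝ) / ((n : ℝ) + 1) := rfl
      rw [← this]
      exact hgX.trans hX1
    have h2 : (0 : ℝ) ≤ (L : ℝ) / ((n : ℝ) + 1) := by (clear * - hL; positivity)
    have h3 : R ≤ 1 := hRX.trans hX1
    have h4 : R ^ 2 ≤ 1 := pow_le_one₀ hR h3
    have h5 : a ≤ |D| := haD.trans (le_abs_self D)
    have h6 : a * R ^ 2 ≤ |D| := (mul_le_of_le_one_right ha h4).trans h5
    have h7 : (L : ℝ) / ((n : ℝ) + 1) * R ≤ 1 := mul_le_one₀ h1 hR h3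
    linarith only [h7, h6]
  have hN := nwg (n := n) (v := v) hR hv ha hρ0 hρ0' hB
  have hT := tangent_path (gm_exponents n) hF.path.2.1 hF'.path.2.1
  have htop : ∀ l, L ≤ l → ρ' l = ρ l := fun l hl => hF'.top l hl
  -- the sums over all levels
  have hsplit : ∀ f : ℕ → ℝ, (∀ l, L ≤ l → f l = 0) →
      ∑ l ∈ Finset.range (n + 1), f l = ∑ l ∈ Finset.range L, f l := by
    intro f hf
    symm
    apply Finset.sum_subset (Finset.range_mono (by omega))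
    intro l _ hl
    exact hf l (by simpa using hl)
  have hsp : ∑ l ∈ Finset.range (n + 1), (gm n (l + 1) - gm n l) * spR n (gm n) ρ l *
      (ρ' l - ρ l) = 1 / ((n : ℝ) + 1) * ∑ l ∈ Finset.range L, spR n (gm n) ρ l * (ρ' l - ρ l) := by
    rw [hsplit _ (fun l hl => by rw [htop l hl]; ring), Finset.mul_sum]
    exact Finset.sum_congr rfl fun l _ => by rw [gm_sub]; ring
  have hq : ∑ l ∈ Finset.range (n + 1), (gm n (l + 1) - gm n l) * ρ' l ^ 2 =
      ∑ l ∈ Finset.range (n + 1), (gm n (l + 1) - gm n l) * ρ l ^ 2 := by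
    have h1 : ∑ l ∈ Finset.range (n + 1), (gm n (l + 1) - gm n l) * (ρ' l ^ 2 - ρ l ^ 2) = 0 := by
      rw [hsplit _ (fun l hl => by rw [htop l hl]; ring)]
      have h2 : ∑ l ∈ Finset.range L, (gm n (l + 1) - gm n l) * (ρ' l ^ 2 - ρ l ^ 2) =
          1 / ((n : ℝ) + 1) * (∑ l ∈ Finset.range L, ρ' l ^ 2 - ∑ l ∈ Finset.range L, ρ l ^ 2) := by
        rw [← Finset.sum_sub_distrib, Finset.mul_sum]
        exact Finset.sum_congr rfl fun l _ => by rw [gm_sub]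
      rw [h2, hsum]
      ring
    have h3 : ∑ l ∈ Finset.range (n + 1), (gm n (l + 1) - gm n l) * (ρ' l ^ 2 - ρ l ^ 2) =
        ∑ l ∈ Finset.range (n + 1), (gm n (l + 1) - gm n l) * ρ' l ^ 2 -
        ∑ l ∈ Finset.range (n + 1), (gm n (l + 1) - gm n l) * ρ l ^ 2 := by
      rw [← Finset.sum_sub_distrib]
      exact Finset.sum_congr rfl fun l _ => by ring
    linarith
  have hA := step_alg (w := v ^ 3) hδ hsum hS
  rw [hsp] at hT
  have hSK : SKr b n (gm n) ρ' - SKr b n (gm n) ρ =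
      spinPart n (gm n) ρ' - spinPart n (gm n) ρ := by
    unfold SKr
    rw [hq]
    ring
  set Q : ℝ := 1 / ((n : ℝ) + 1) * ∑ l ∈ Finset.range L, (ρ' l - ρ l) ^ 2 with hQ
  set P : ℝ := 1 / ((n : ℝ) + 1) * ∑ l ∈ Finset.range L, |ρ' l - ρ l| with hP
  have hQ0 : 0 ≤ Q := mul_nonneg hδ (Finset.sum_nonneg fun l _ => sq_nonneg _)
  have hP0 : 0 ≤ P := mul_nonneg hδ (Finset.sum_nonneg fun l _ => abs_nonneg _)
  have hE0 : 0 ≤ X ^ 3 * √X := by positivity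
  have hv3 : v ^ 3 ≤ 1 := pow_le_one₀ hv hv1
  have hv30 : 0 ≤ v ^ 3 := by (clear * - hv; positivity)
  have hD0 := abs_nonneg D
  have i1 : μ / 4 * Q ≤ 1 * Q := mul_le_mul_of_nonneg_right (by linarith only [hμ1]) hQ0
  have i2 : v ^ 3 * (1 + |D|) * Q ≤ (1 + |D|) * Q :=
    mul_le_mul_of_nonneg_right (mul_le_of_le_one_left (by linarith only [hD0]) hv3) hQ0
  have i3 : C₁ * (X ^ 3 * √X) / 2 * P ≤ (C₁ + |D| + 2) * (X ^ 3 * √X) * P := by
    apply mul_le_mul_of_nonneg_right _ hP0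
    rw [mul_div_right_comm]
    exact mul_le_mul_of_nonneg_right (by linarith only [hD0, hC₁]) hE0
  have i4 : 0 ≤ C₁ * Q := mul_nonneg (by linarith only [hC₁]) hQ0
  linarith only [i4, i3, i2, i1, hSK, hN, hA, hT]

end Vale.Agent.P146.Sh
end

section

/-!
# P146, Sh: the jump after the first block (the inputs are hypotheses)
-/

open MeasureTheory ProbabilityTheory Filter Topology Set

namespace Vale.Agent.P146.Sh

open Vale.Agent.P157.Par
open Vale.Agent.P146.Gap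
open Vale.Agent.P146.Pw2
open Vale.Agent.P146.Lb
open Vale.Agent.P367.Cl

/-- `M` increases at least with the slope `S` on the blocks up to the level `L`. -/
theorem lawc_inc {b S W : ℝ} {n d L : ℕ} {r : ℕ → ℝ} (hr : BPath b n r) (hL : L ≤ n)
    (hS : ∀ l < L, d ≤ l → ∀ t ∈ Icc 0 (r (l + 1) - r l), r l + t ≤ W →
      S ≤ M1b n (gm n) r l t) {l : ℕ} (hdl : d ≤ l) (hl : l < L) {T : ℝ}
    (hT : T ∈ Icc 0 (r (l + 1) - r l)) (hW : r l + T ≤ W) :
    Mb n (gm n) r l 0 + S * T ≤ Mb n (gm n) r l T := by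
  have hm := gm_exponents n
  have hln : l < n := hl.trans_le hL
  have h1 := lreal_ge (f := Mb n (gm n) r l) (f' := M1b n (gm n) r l) (a := S)
    hT.1 ((Mb_cont hm hr.2.1 hln).mono (Icc_subset_Icc_right hT.2))
    (fun s hs => Mb_deriv hm hr.2.1 hln ⟨hs.1, hs.2.trans_le hT.2⟩)
    (fun s hs => hS l hl hdl s ⟨hs.1.le, (hs.2.trans_le hT.2).le⟩ (by linarith only [hs.2, hW]))
  linarith only [h1]

theorem lawc_chain {b S W : ℝ} {n d L : ℕ} {r : ℕ → ℝ} (hr : BPath b n r) (hL : L ≤ n)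
    (hS : ∀ l < L, d ≤ l → ∀ t ∈ Icc 0 (r (l + 1) - r l), r l + t ≤ W →
      S ≤ M1b n (gm n) r l t) :
    ∀ i, d + i < L → r (d + i) ≤ W →
      Ml n (gm n) r d + S * (r (d + i) - r d) ≤ Ml n (gm n) r (d + i) := by
  have hm := gm_exponents n
  intro i
  induction i with
  | zero => intro _ _; simp
  | succ i ih =>
    intro hi hW
    have e : d + (i + 1) = d + i + 1 := rfl
    rw [e] at hi hW ⊢
    have hli : d + i < n := by omega
    have h2 : r (d + i) ≤ r (d + i + 1) := len_mono hr (Nat.le_succ _) hli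
    have h1 := ih (by omega) (h2.trans hW)
    have h4 := lawc_inc hr hL hS (l := d + i) (Nat.le_add_right _ _) (by omega)
      (T := r (d + i + 1) - r (d + i)) ⟨by linarith only [h2], le_rfl⟩ (by linarith only [hW])
    rw [Mb_last hm hr.2.1 hli, Mb_zero hm hr.2.1 hli] at h4
    linarith only [h4, h1]

/-- The increase of `M` between the level `d` and the time `r d + y` in the block `L - 1`. -/
theorem lawc_slope {b S y ε ν : ℝ} {n d L : ℕ} {r : ℕ → ℝ} (hr : BPath b n r) (hL : L ≤ n)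
    (hdL : d < L) (hlo : r (L - 1) ≤ r d + y) (hhi : r d + y ≤ r L)
    (hM : ∀ l, d ≤ l → l < n → ∀ t ∈ Icc 0 (r (l + 1) - r l),
      |Mb n (gm n) r l t - ν| ≤ ε)
    (hS : ∀ l < L, d ≤ l → ∀ t ∈ Icc 0 (r (l + 1) - r l), r l + t ≤ r d + y →
      S ≤ M1b n (gm n) r l t) : S * y ≤ 2 * ε := by
  have hm := gm_exponents n
  have hdn : d < n := by omega
  have hLn : L - 1 < n := by omega
  have e : L - 1 + 1 = L := by omega
  have h1 := lawc_chain hr hL hS (L - 1 - d) (by omega) (by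
    rw [show d + (L - 1 - d) = L - 1 by omega]
    exact hlo)
  rw [show d + (L - 1 - d) = L - 1 by omega] at h1
  have hT : r d + y - r (L - 1) ∈ Icc 0 (r (L - 1 + 1) - r (L - 1)) := by
    rw [e]
    exact ⟨by linarith only [hlo], by linarith only [hhi]⟩
  have h2 := lawc_inc hr hL hS (l := L - 1) (by omega) (by omega) hT (by linarith only [])
  rw [Mb_zero hm hr.2.1 hLn] at h2
  have h3 := (abs_le.1 (hM (L - 1) (by omega) hLn _ hT)).2
  have h4 := (abs_le.1 (hM d le_rfl hdn 0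
    ⟨le_rfl, by linarith only [len_mono hr (Nat.le_succ d) hdn]⟩)).1
  rw [Mb_zero hm hr.2.1 hdn] at h4
  have h5 : S * (r (L - 1) - r d) + S * (r d + y - r (L - 1)) = S * y := by ring
  linarith only [h4, h3, h2, h1]

theorem lawc_final {x v cv D g : ℝ} (hx : 0 < x) (hcv : 0 < cv) (hv : cv ≤ v)
    (hD : 0 ≤ D) (h : 3 * x * v ^ 3 - 2 * g * v ^ 3 ≤ D * (x * √x)) :
    3 / 2 * x - D / (2 * cv ^ 3) * (x * √x) ≤ g := by
  rcases le_total (3 * x) (2 * g) with h1 | h1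
  · have : 0 ≤ D / (2 * cv ^ 3) * (x * √x) := by positivity
    linarith
  · have h2 : cv ^ 3 ≤ v ^ 3 := pow_le_pow_left₀ hcv.le hv 3
    have h3 : cv ^ 3 * (3 * x - 2 * g) ≤ v ^ 3 * (3 * x - 2 * g) :=
      mul_le_mul_of_nonneg_right h2 (by linarith)
    have h4 : cv ^ 3 * (3 * x - 2 * g) ≤ D * (x * √x) := by linarith
    have h5 : 3 * x - 2 * g ≤ D * (x * √x) / cv ^ 3 := by
      rw [le_div_iff₀ (by positivity)]
      linarith
    have h6 : D / (2 * cv ^ 3) * (x * √x) = D * (x * √x) / cv ^ 3 / 2 := by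
      field_simp
    rw [h6]
    linarith only [h5]

theorem lawc_num {x A Cm CB v cv y g : ℝ} (hx : 0 < x) (hx1 : x ≤ 1) (hA : 1 ≤ A)
    (hCm : 0 ≤ Cm) (hCB : 0 ≤ CB) (hcv : 0 < cv) (hv : cv ≤ v)
    (h1 : y - 2 * g * v ^ 3 - Cm * (A * x * √(A * x)) ≤ 2 * x ^ 4)
    (h2 : -(CB * (x * √x)) ≤ y - 3 * x * v ^ 3) :
    3 / 2 * x - (CB + Cm * A ^ 2 + 2) / (2 * cv ^ 3) * (x * √x) ≤ g := by
  have hA0 : 0 ≤ A := by linarith
  have hsx : x ≤ √x := by
    rw [Real.le_sqrt hx.le hx.le]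
    (by_contra nlg; linarith only [nlg, mul_nonneg (le_of_lt (sub_pos.2 hx)) (sub_nonneg.2 hx1), mul_nonneg (le_of_lt (sub_pos.2 (not_le.1 nlg))) (sub_nonneg.2 hx1), mul_pos (sub_pos.2 (not_le.1 nlg)) (sub_pos.2 hx)])
  have h3 : x ^ 4 ≤ x * √x := by
    have h4 : x ^ 3 ≤ x := by
      have := pow_le_pow_of_le_one hx.le hx1 (show 1 ≤ 3 by norm_num)
      rwa [pow_one] at this
    calc x ^ 4 = x * x ^ 3 := by ring
      _ ≤ x * √x := mul_le_mul_of_nonneg_left (h4.trans hsx) hx.le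
  have h4 : A * x * √(A * x) ≤ A ^ 2 * (x * √x) := by
    rw [Real.sqrt_mul hA0]
    have h5 : √A ≤ A := by
      rw [Real.sqrt_le_left hA0]
      (by_contra nlg; linarith only [nlg, mul_nonneg (sub_nonneg.2 hA) (sub_nonneg.2 hA0), mul_nonneg (le_of_lt (sub_pos.2 (not_le.1 nlg))) (sub_nonneg.2 hx1), mul_pos (sub_pos.2 (not_le.1 nlg)) (sub_pos.2 hx)])
    have h6 : A * x * (√A * √x) = √A * (A * (x * √x)) := by ring
    rw [h6]
    have h7 : √A * (A * (x * √x)) ≤ A * (A * (x * √x)) :=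
      mul_le_mul_of_nonneg_right h5 (by positivity)
    linarith
  have h5 : Cm * (A * x * √(A * x)) ≤ Cm * (A ^ 2 * (x * √x)) :=
    mul_le_mul_of_nonneg_left h4 hCm
  exact lawc_final hx hcv hv (by positivity) (by linarith only [h5, h3, h2, h1])

/-- The lower bound of `M1b` on the jump. -/
theorem lawc_low {b X Cm W : ℝ} {n d L : ℕ} {r : ℕ → ℝ} (hr : BPath b n r) (hL : L ≤ n)
    (hWX : W ≤ X) (hg : gm n L ≤ X) (hv : 0 ≤ vv n r)
    (hm1 : ∀ l < n, gm n (l + 1) ≤ X → ∀ t ∈ Icc 0 (r (l + 1) - r l), r l + t ≤ X →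
      |M1b n (gm n) r l t - (kk n r ^ 2 * (r l + t) - 2 * gm n (l + 1) * vv n r ^ 3)| ≤
        Cm * (X * √X)) :
    ∀ l < L, d ≤ l → ∀ t ∈ Icc 0 (r (l + 1) - r l), r l + t ≤ W →
      kk n r ^ 2 * r d - 2 * gm n L * vv n r ^ 3 - Cm * (X * √X) ≤ M1b n (gm n) r l t := by
  intro l hl hdl t ht hW
  have hgl : gm n (l + 1) ≤ gm n L := grid_gm_mono hl
  have h1 := (abs_le.1 (hm1 l (hl.trans_le hL) (hgl.trans hg) t ht (hW.trans hWX))).1
  have h2 : r d ≤ r l + t := by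
    have := len_mono hr hdl (hl.trans_le hL).le
    linarith only [ht.1, this]
  have h3 : kk n r ^ 2 * r d ≤ kk n r ^ 2 * (r l + t) :=
    mul_le_mul_of_nonneg_left h2 (by positivity)
  have h5 : gm n (l + 1) * vv n r ^ 3 ≤ gm n L * vv n r ^ 3 :=
    mul_le_mul_of_nonneg_right hgl (pow_nonneg hv 3)
  linarith only [h5, h3, h1]

theorem lawc_two (n d : ℕ) : gm n (2 * d) = 2 * gm n d := by
  unfold gm
  push_cast
  ring

/-- The case of a jump at the level `L < 2 d`. -/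
theorem lawc_case {b c1 A Cm CB cv : ℝ} {n d L : ℕ} {r : ℕ → ℝ} (hr : BPath b n r)
    (hL : L ≤ n) (hd1 : 1 ≤ d) (hdL : d < L) (hL2 : L ≤ 2 * d)
    (hA : 1 ≤ A) (hc1 : c1 + 2 = A) (hc10 : 0 ≤ c1) (hCm : 0 ≤ Cm) (hCB : 0 ≤ CB) (hcv : 0 < cv)
    (hv : cv ≤ vv n r) (hxA : A * gm n d ≤ 1) (hrd : r d ≤ c1 * gm n d)
    (hlo : r (L - 1) ≤ r d + gm n d ^ 4) (hhi : r d + gm n d ^ 4 ≤ r L)
    (hM : ∀ l, d ≤ l → l < n → ∀ t ∈ Icc 0 (r (l + 1) - r l),
      |Mb n (gm n) r l t - 1 / b ^ 2| ≤ gm n d ^ 8)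
    (hm1 : ∀ l < n, gm n (l + 1) ≤ A * gm n d → ∀ t ∈ Icc 0 (r (l + 1) - r l),
      r l + t ≤ A * gm n d →
      |M1b n (gm n) r l t - (kk n r ^ 2 * (r l + t) - 2 * gm n (l + 1) * vv n r ^ 3)| ≤
        Cm * (A * gm n d * √(A * gm n d)))
    (hB : |kk n r ^ 2 * r d - 3 * gm n d * vv n r ^ 3| ≤ CB * (gm n d * √(gm n d))) :
    3 / 2 * gm n d - (CB + Cm * A ^ 2 + 2) / (2 * cv ^ 3) * (gm n d * √(gm n d)) ≤ gm n L := by
  have hx0 : 0 < gm n d := grid_gm_pos hd1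
  have hx1 : gm n d ≤ 1 := by
    have : 1 * gm n d ≤ A * gm n d := mul_le_mul_of_nonneg_right hA hx0.le
    linarith only [this, hxA]
  have hx4 : gm n d ^ 4 ≤ gm n d := by
    have := pow_le_pow_of_le_one hx0.le hx1 (show 1 ≤ 4 by norm_num)
    rwa [pow_one] at this
  have hx4' : 0 < gm n d ^ 4 := by positivity
  have hg2 : gm n L ≤ 2 * gm n d := by
    rw [← lawc_two]
    exact grid_gm_mono hL2
  have hAx : A * gm n d = c1 * gm n d + 2 * gm n d := by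
    rw [← hc1]
    ring
  have hcx : 0 ≤ c1 * gm n d := mul_nonneg hc10 hx0.le
  have hS := lawc_low (W := r d + gm n d ^ 4) (d := d) hr hL (by linarith only [hAx, hx4', hx4, hrd]) (by linarith only [hcx, hAx, hg2])
    (hcv.le.trans hv) hm1
  have h1 := lawc_slope hr hL hdL hlo hhi hM hS
  have h3 : 2 * gm n d ^ 8 = 2 * gm n d ^ 4 * gm n d ^ 4 := by ring
  rw [h3] at h1
  have h2 := le_of_mul_le_mul_right h1 hx4'
  exact lawc_num hx0 hx1 hA hCm hCB hcv hv h2 (abs_le.1 hB).1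

theorem lawC_of {b : ℝ}
    (hvkbd : ∃ c K : ℝ, 0 < c ∧ 1 ≤ K ∧ ∀ (n : ℕ) (r : ℕ → ℝ), BPath b n r →
      c ≤ vv n r ∧ vv n r ≤ 1 ∧ c ≤ kk n r ∧ kk n r ≤ K)
    (hm1e : ∃ C : ℝ, 1 ≤ C ∧ ∀ (n : ℕ) (X : ℝ) (r : ℕ → ℝ), BPath b n r → 0 < X →
      X ≤ 1 → ∀ l < n, gm n (l + 1) ≤ X → ∀ t ∈ Icc 0 (r (l + 1) - r l), r l + t ≤ X →
        |M1b n (gm n) r l t - (kk n r ^ 2 * (r l + t) - 2 * gm n (l + 1) * vv n r ^ 3)| ≤
          C * (X * √X))
    (hlawA : ∃ c C : ℝ, 0 < c ∧ 1 ≤ C ∧ ∀ (n d : ℕ) (r : ℕ → ℝ),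
      1 ≤ d → d ≤ n → IsMinD b n d r → gm n d ≤ c → C ≤ gm n d ^ 40 * (n + 1) →
        c * gm n d ≤ r d ∧ r d ≤ C * gm n d ∧ 2 * C * gm n d ≤ r n ∧
        ∀ l, d ≤ l → l < n → ∀ t ∈ Icc 0 (r (l + 1) - r l),
          |Mb n (gm n) r l t - 1 / b ^ 2| ≤ gm n d ^ 8)
    (hlawB : ∃ c C : ℝ, 0 < c ∧ 1 ≤ C ∧ ∀ (n d : ℕ) (r : ℕ → ℝ),
      1 ≤ d → d ≤ n → IsMinD b n d r → gm n d ≤ c → C ≤ gm n d ^ 40 * (n + 1) →
        |kk n r ^ 2 * r d - 3 * gm n d * vv n r ^ 3| ≤ C * (gm n d * √(gm n d)) ∧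
        ∫ s in (0 : ℝ)..(r d), (Rb n (gm n) r (d - 1) s - s / b ^ 2) ≤
          kk n r ^ 2 * r d ^ 4 / 72 + C * (gm n d ^ 4 * √(gm n d))) :
    ∃ c C : ℝ, 0 < c ∧ 1 ≤ C ∧ ∀ (n d : ℕ) (r : ℕ → ℝ),
    1 ≤ d → d ≤ n → IsMinD b n d r → gm n d ≤ c → C ≤ gm n d ^ 40 * (n + 1) →
      ∃ L : ℕ, d < L ∧ L ≤ 2 * d ∧ L ≤ n ∧ r (L - 1) ≤ r d + gm n d ^ 4 ∧
        3 / 2 * gm n d - C * (gm n d * √(gm n d)) ≤ gm n L := by
  obtain ⟨cA, CA, hcA, hCA, hA⟩ := hlawA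
  obtain ⟨cB, CB, hcB, hCB, hB⟩ := hlawB
  obtain ⟨Cm, hCm, hm1⟩ := hm1e
  obtain ⟨cv, Kv, hcv, hKv, hvk⟩ := hvkbd
  have hA1 : 1 ≤ CA + 2 := by linarith
  have hA0 : 0 < CA + 2 := by linarith
  refine ⟨min (min cA cB) (1 / (CA + 2)),
    max (max CA CB) (max ((CB + Cm * (CA + 2) ^ 2 + 2) / (2 * cv ^ 3)) 1), by positivity,
    (le_max_right _ _).trans (le_max_right _ _), fun n d r hd1 hdn hmin hx hC => ?_⟩
  have hx0 : 0 < gm n d := grid_gm_pos hd1
  have hr := hmin.1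
  obtain ⟨a1, a2, a3, a4⟩ := hA n d r hd1 hdn hmin
    (hx.trans ((min_le_left _ _).trans (min_le_left _ _)))
    ((le_max_left _ _).trans ((le_max_left _ _).trans hC))
  obtain ⟨b1, -⟩ := hB n d r hd1 hdn hmin
    (hx.trans ((min_le_left _ _).trans (min_le_right _ _)))
    ((le_max_right _ _).trans ((le_max_left _ _).trans hC))
  obtain ⟨v1, -, -, -⟩ := hvk n r hr
  have hxA : (CA + 2) * gm n d ≤ 1 := by
    have h1 : gm n d ≤ 1 / (CA + 2) := hx.trans (min_le_right _ _)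
    rw [le_div_iff₀ hA0] at h1
    linarith only [h1]
  have hcx : 1 * gm n d ≤ CA * gm n d := mul_le_mul_of_nonneg_right hCA hx0.le
  have hx1 : gm n d ≤ 1 := by linarith only [hcx, hxA, hx0]
  have hx4 : gm n d ^ 4 ≤ gm n d := by
    have := pow_le_pow_of_le_one hx0.le hx1 (show 1 ≤ 4 by norm_num)
    rwa [pow_one] at this
  have hx4' : 0 < gm n d ^ 4 := by positivity
  have hlast : r d + gm n d ^ 4 ≤ r n := by linarith only [hx4, hcx, a3, a2]
  have hxs : 0 ≤ gm n d * √(gm n d) := by positivity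
  -- the level after the jump
  have hex : ∃ l, r d + gm n d ^ 4 ≤ r l := ⟨n, hlast⟩
  classical
  obtain ⟨L0, hL0⟩ : ∃ L0, L0 = Nat.find hex := ⟨_, rfl⟩
  have hL0s : r d + gm n d ^ 4 ≤ r L0 := by
    rw [hL0]
    exact Nat.find_spec hex
  have hL0n : L0 ≤ n := by
    rw [hL0]
    exact Nat.find_min' hex hlast
  have hlt : ∀ l < L0, r l < r d + gm n d ^ 4 := fun l hl => by
    rw [hL0] at hl
    exact not_le.1 (Nat.find_min hex hl)
  have hdL0 : d < L0 := by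
    by_contra h
    push Not at h
    have := len_mono hr h hdn
    linarith only [this, hL0s, hx4']
  rcases Nat.lt_or_ge L0 (2 * d) with hcase | hcase
  · have hlo : r (L0 - 1) ≤ r d + gm n d ^ 4 := (hlt _ (by omega)).le
    refine ⟨L0, hdL0, hcase.le, hL0n, hlo, ?_⟩
    have h7 := lawc_case hr hL0n hd1 hdL0 hcase.le hA1 rfl (by linarith only [hx4', hx4, hcx, hxA, hCA])
      (zero_le_one.trans hCm) (zero_le_one.trans hCB) hcv v1 hxA a2 hlo hL0s a4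
      (fun l hl => hm1 n _ r hr (mul_pos hA0 hx0) hxA l hl) b1
    refine le_trans ?_ h7
    have h8 : (CB + Cm * (CA + 2) ^ 2 + 2) / (2 * cv ^ 3) ≤
        max (max CA CB) (max ((CB + Cm * (CA + 2) ^ 2 + 2) / (2 * cv ^ 3)) 1) :=
      (le_max_left _ _).trans (le_max_right _ _)
    have h9 := mul_le_mul_of_nonneg_right h8 hxs
    linarith only [h9]
  · refine ⟨2 * d, by omega, le_rfl, by omega, (hlt _ (by omega)).le, ?_⟩
    have h8 : 0 ≤ max (max CA CB) (max ((CB + Cm * (CA + 2) ^ 2 + 2) / (2 * cv ^ 3)) 1) :=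
      zero_le_one.trans ((le_max_right _ _).trans (le_max_right _ _))
    have h9 := mul_nonneg h8 hxs
    rw [lawc_two]
    linarith only [h9, hx4', hx4]

end Vale.Agent.P146.Sh
end
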