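import Mathlib
import Vale.Agent.P146.Bd3.B6
import Vale.Agent.P146.Bd4.B1
import Vale.Agent.P146.Bd4.B2
import Vale.Agent.P146.Bd4.B4
import Vale.Agent.P146.Bd4.B3
import Vale.Agent.P146.Bdl.B42

set_option linter.all false

section

/-!
# P146, Sh: `(V_n(d) - V_n(0)) / x_d⁵` is almost decreasing in `d`
-/

open MeasureTheory ProbabilityTheory Filter Topology Set

namespace Vale.Agent.P146.Sh

open Vale.Agent.P157.Par
open Vale.Agent.P146.Gap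
open Vale.Agent.P146.Pw2
open Vale.Agent.P146.Lb
open Vale.Agent.P367.Cl

/-- one step -/
theorem shiterB_step {δ x D D' B C : ℝ} (hδ : 0 < δ) (hx : 0 < x) (hC : 0 ≤ C) (hD : 0 ≤ D)
    (h1 : 9 / 80 * B * x ^ 5 ≤ D + C * (x ^ 5 * √x))
    (h2 : D' ≤ D + δ * (9 / 16 * B * x ^ 4 + C * (x ^ 4 * √x))) :
    D' / (x + δ) ^ 5 ≤ D / x ^ 5 + 12 * C * (√(x + δ) - √x) := by
  set s := √x with hs
  set t := √(x + δ) with ht
  have hs0 : 0 < s := Real.sqrt_pos.2 hx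
  have hst : s ≤ t := Real.sqrt_le_sqrt (by linarith only [hδ])
  have ht0 : 0 < t := hs0.trans_le hst
  have hs2 : s ^ 2 = x := Real.sq_sqrt hx.le
  have ht2 : t ^ 2 = x + δ := Real.sq_sqrt (by linarith only [hx, hδ])
  rw [div_le_iff₀ (by positivity)]
  have e1 : 9 / 16 * B * x ^ 4 ≤ 5 * D / x + 5 * C * (x ^ 4 * s) := by
    have e2 : 9 / 16 * B * x ^ 4 = 5 / x * (9 / 80 * B * x ^ 5) := by
      field_simp
      ring
    have e3 : 5 * D / x + 5 * C * (x ^ 4 * s) = 5 / x * (D + C * (x ^ 5 * s)) := by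
      field_simp
    rw [e2, e3]
    exact mul_le_mul_of_nonneg_left h1 (by positivity)
  have e4 : D' ≤ D * (1 + 5 * (δ / x)) + 6 * C * δ * (x ^ 4 * s) := by
    have e5 : δ * (9 / 16 * B * x ^ 4 + C * (x ^ 4 * s)) ≤
        δ * (5 * D / x + 5 * C * (x ^ 4 * s) + C * (x ^ 4 * s)) :=
      mul_le_mul_of_nonneg_left (by linarith only [e1]) hδ.le
    refine (h2.trans (by linarith only [e5] : _ ≤ D + δ * (5 * D / x + 5 * C * (x ^ 4 * s) +
      C * (x ^ 4 * s)))).trans (le_of_eq ?_)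
    ring
  have e6 : D * (1 + 5 * (δ / x)) ≤ D / x ^ 5 * (x + δ) ^ 5 := by
    have e7 : D / x ^ 5 * (x + δ) ^ 5 = D * (1 + δ / x) ^ 5 := by
      have : x + δ = x * (1 + δ / x) := by
        field_simp
      rw [this, mul_pow]
      field_simp
    rw [e7]
    refine mul_le_mul_of_nonneg_left ?_ hD
    have e8 := one_add_mul_le_pow (a := δ / x) (by
      have : 0 < δ / x := by positivity
      linarith only [this]) 5
    norm_num at e8 ⊢
    exact e8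
  have e9 : 6 * C * δ * (x ^ 4 * s) ≤ 12 * C * (t - s) * (x + δ) ^ 5 := by
    have f1 : δ = (t - s) * (t + s) := by
      have : δ = t ^ 2 - s ^ 2 := by rw [hs2, ht2]; ring
      rw [this]
      ring
    have f2 : (t + s) * s ^ 9 ≤ 2 * t ^ 10 := by
      have f3 : s ^ 9 ≤ t ^ 9 := pow_le_pow_left₀ hs0.le hst 9
      calc (t + s) * s ^ 9 ≤ (2 * t) * t ^ 9 := by
            refine mul_le_mul (by linarith only [hst]) f3 (by positivity) (by positivity)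
        _ = 2 * t ^ 10 := by ring
    have f4 : x ^ 4 * s = s ^ 9 := by
      rw [← hs2]
      ring
    have f5 : (x + δ) ^ 5 = t ^ 10 := by
      rw [← ht2]
      ring
    rw [f4, f5, f1]
    have f6 : 0 ≤ 6 * C * (t - s) := mul_nonneg (by linarith only [hC]) (by linarith only [hst])
    calc 6 * C * ((t - s) * (t + s)) * s ^ 9 = 6 * C * (t - s) * ((t + s) * s ^ 9) := by ring
      _ ≤ 6 * C * (t - s) * (2 * t ^ 10) := mul_le_mul_of_nonneg_left f2 f6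
      _ = 12 * C * (t - s) * t ^ 10 := by ring
  calc D' ≤ D * (1 + 5 * (δ / x)) + 6 * C * δ * (x ^ 4 * s) := e4
    _ ≤ D / x ^ 5 * (x + δ) ^ 5 + 12 * C * (t - s) * (x + δ) ^ 5 := add_le_add e6 e9
    _ = (D / x ^ 5 + 12 * C * (t - s)) * (x + δ) ^ 5 := by ring

theorem iter_of {b : ℝ} (hb : 1 < b)
    (hdown : ∃ c C : ℝ, 0 < c ∧ 1 ≤ C ∧ ∀ (n d : ℕ) (r : ℕ → ℝ),
      1 ≤ d → d ≤ n → IsMinD b n d r → gm n d ≤ c → C ≤ gm n d ^ 40 * (n + 1) →
        ∃ r', BPath b n r' ∧ SKr b n (gm n) r' + 9 / 80 * vv n r ^ 12 / kk n r ^ 6 * gm n d ^ 5 ≤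
          SKr b n (gm n) r + C * (gm n d ^ 5 * √(gm n d)))
    (hup : ∃ c C : ℝ, 0 < c ∧ 1 ≤ C ∧ ∀ (n d : ℕ) (r : ℕ → ℝ),
      1 ≤ d → d < n → IsMinD b n d r → gm n d ≤ c → C ≤ gm n d ^ 40 * (n + 1) →
        ∃ r', BPath b n r' ∧ (∀ l < d + 1, r' l = 0) ∧ SKr b n (gm n) r' ≤ SKr b n (gm n) r +
          1 / ((n : ℝ) + 1) * (9 / 16 * vv n r ^ 12 / kk n r ^ 6 * gm n d ^ 4 +
            C * (gm n d ^ 4 * √(gm n d)))) :
    ∃ c C : ℝ, 0 < c ∧ 1 ≤ C ∧ ∀ (n d₁ d₂ : ℕ)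
    (r₀ r₁ r₂ : ℕ → ℝ), 1 ≤ d₁ → d₁ ≤ d₂ → d₂ ≤ n → IsMinD b n 0 r₀ → IsMinD b n d₁ r₁ →
    IsMinD b n d₂ r₂ → gm n d₂ ≤ c → C ≤ gm n d₁ ^ 40 * (n + 1) →
      (SKr b n (gm n) r₂ - SKr b n (gm n) r₀) / gm n d₂ ^ 5 ≤
        (SKr b n (gm n) r₁ - SKr b n (gm n) r₀) / gm n d₁ ^ 5 + C * √(gm n d₂) := by
  obtain ⟨cd, Cd, hcd, hCd, hd⟩ := hdown
  obtain ⟨cu, Cu, hcu, hCu, hu⟩ := hup
  have hb0 : 0 < b := by linarith
  set C₀ := max Cd Cu with hC₀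
  have hCdle : Cd ≤ C₀ := le_max_left _ _
  have hCule : Cu ≤ C₀ := le_max_right _ _
  have hC1 : 1 ≤ C₀ := hCd.trans hCdle
  refine ⟨min cd cu, 12 * C₀, lt_min hcd hcu, by linarith, ?_⟩
  intro n d₁ d₂ r₀ r₁ r₂ h1 h12 h2 hr₀ hr₁ hr₂ hx hbig
  have hn : (0 : ℝ) < (n : ℝ) + 1 := by positivity
  have gpos : ∀ d, 1 ≤ d → 0 < gm n d := by
    intro d hd'
    unfold gm
    have : (0 : ℝ) < d := by exact_mod_cast hd'
    (clear * - hd'; positivity)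
  have gmono : ∀ d e, d ≤ e → gm n d ≤ gm n e := by
    intro d e h
    unfold gm
    exact div_le_div_of_nonneg_right (by exact_mod_cast h) hn.le
  have gsucc : ∀ d, gm n (d + 1) = gm n d + 1 / ((n : ℝ) + 1) := by
    intro d
    unfold gm
    push_cast
    ring
  have hmin0 : ∀ r, BPath b n r → SKr b n (gm n) r₀ ≤ SKr b n (gm n) r :=
    fun r hr => hr₀.2.2 r hr (fun l hl => absurd hl (Nat.not_lt_zero _))
  have key : ∀ m, d₁ + m ≤ d₂ → ∀ r, IsMinD b n (d₁ + m) r →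
      (SKr b n (gm n) r - SKr b n (gm n) r₀) / gm n (d₁ + m) ^ 5 ≤
        (SKr b n (gm n) r₁ - SKr b n (gm n) r₀) / gm n d₁ ^ 5 +
          12 * C₀ * (√(gm n (d₁ + m)) - √(gm n d₁)) := by
    intro m
    induction m with
    | zero =>
      intro _ r hr
      have e1 : SKr b n (gm n) r = SKr b n (gm n) r₁ :=
        le_antisymm (hr.2.2 _ hr₁.1 hr₁.2.1) (hr₁.2.2 _ hr.1 hr.2.1)
      rw [e1]
      simp
    | succ m ih =>
      intro hm r hr
      have hdm : 1 ≤ d₁ + m := by omega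
      obtain ⟨q, hq⟩ := exists_minD (n := n) (d := d₁ + m) hb0 (by omega)
      have ih' := ih (by omega) q hq
      have hxm : gm n (d₁ + m) ≤ min cd cu := (gmono _ _ (by omega)).trans hx
      have hgb : C₀ ≤ gm n (d₁ + m) ^ 40 * ((n : ℝ) + 1) := by
        have e2 : gm n d₁ ^ 40 * ((n : ℝ) + 1) ≤ gm n (d₁ + m) ^ 40 * ((n : ℝ) + 1) :=
          mul_le_mul_of_nonneg_right (pow_le_pow_left₀ (gpos _ h1).le (gmono _ _ (by omega)) 40)
            hn.le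
        linarith only [e2, hbig, hC1]
      obtain ⟨r', hr', hr'2⟩ := hd n (d₁ + m) q hdm (by omega) hq (hxm.trans (min_le_left _ _))
        (hCdle.trans hgb)
      obtain ⟨r'', hr'', hr''0, hr''2⟩ := hu n (d₁ + m) q hdm (by omega) hq
        (hxm.trans (min_le_right _ _)) (hCule.trans hgb)
      have e3 := hmin0 _ hr'
      have e4 : SKr b n (gm n) r ≤ SKr b n (gm n) r'' := hr.2.2 _ hr'' hr''0
      have hx0 := gpos _ hdm
      have hst := shiterB_step (δ := 1 / ((n : ℝ) + 1)) (x := gm n (d₁ + m))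
        (D := SKr b n (gm n) q - SKr b n (gm n) r₀) (D' := SKr b n (gm n) r - SKr b n (gm n) r₀)
        (B := vv n q ^ 12 / kk n q ^ 6) (C := C₀) (by (clear * -; positivity)) hx0 (by linarith only [hC1])
        (by linarith only [hmin0 _ hq.1]) (by
          have e5 : Cd * (gm n (d₁ + m) ^ 5 * √(gm n (d₁ + m))) ≤
              C₀ * (gm n (d₁ + m) ^ 5 * √(gm n (d₁ + m))) :=
            mul_le_mul_of_nonneg_right hCdle (by (clear * - hx0; positivity))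
          have e6 : 9 / 80 * (vv n q ^ 12 / kk n q ^ 6) * gm n (d₁ + m) ^ 5 =
              9 / 80 * vv n q ^ 12 / kk n q ^ 6 * gm n (d₁ + m) ^ 5 := by ring
          rw [e6]
          linarith only [e5, e3, hr'2]) (by
          have e5 : Cu * (gm n (d₁ + m) ^ 4 * √(gm n (d₁ + m))) ≤
              C₀ * (gm n (d₁ + m) ^ 4 * √(gm n (d₁ + m))) :=
            mul_le_mul_of_nonneg_right hCule (by (clear * - hx0; positivity))
          have e6 : 9 / 16 * (vv n q ^ 12 / kk n q ^ 6) * gm n (d₁ + m) ^ 4 =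
              9 / 16 * vv n q ^ 12 / kk n q ^ 6 * gm n (d₁ + m) ^ 4 := by ring
          rw [e6]
          have e7 : 1 / ((n : ℝ) + 1) * (9 / 16 * vv n q ^ 12 / kk n q ^ 6 * gm n (d₁ + m) ^ 4 +
              Cu * (gm n (d₁ + m) ^ 4 * √(gm n (d₁ + m)))) ≤
              1 / ((n : ℝ) + 1) * (9 / 16 * vv n q ^ 12 / kk n q ^ 6 * gm n (d₁ + m) ^ 4 +
              C₀ * (gm n (d₁ + m) ^ 4 * √(gm n (d₁ + m)))) :=
            mul_le_mul_of_nonneg_left (by linarith only [e5]) (by (clear * -; positivity))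
          linarith)
      rw [← gsucc] at hst
      change (SKr b n (gm n) r - SKr b n (gm n) r₀) / gm n (d₁ + m + 1) ^ 5 ≤ _
      have e8 : √(gm n (d₁ + (m + 1))) = √(gm n (d₁ + m + 1)) := rfl
      rw [e8]
      linarith only [hst, ih']
  obtain ⟨m, rfl⟩ := Nat.exists_eq_add_of_le h12
  refine (key m le_rfl r₂ hr₂).trans ?_
  have e9 : 0 ≤ 12 * C₀ * √(gm n d₁) := by (clear * - hCd; positivity)
  linarith

end Vale.Agent.P146.Sh
end

section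

/-! # P146, Sh: the second and fourth derivatives at the origin of two paths -/

open MeasureTheory ProbabilityTheory Filter Topology Set

namespace Vale.Agent.P146.Sh

open Vale.Agent.P157.Par
open Vale.Agent.P146.Gap
open Vale.Agent.P146.Pw2
open Vale.Agent.P146.Lb
open Vale.Agent.P367.Cl

theorem kvc (b : ℝ) : ∃ C : ℝ, 1 ≤ C ∧ ∀ (n L : ℕ) (s : ℝ) (r ρ : ℕ → ℝ), BPath b n r →
    BPath b n ρ → 1 ≤ L → L ≤ n → (∀ l, L ≤ l → ρ l = r l) → r (L - 1) ≤ s → ρ (L - 1) ≤ s →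
    s ≤ r L → |vv n ρ - vv n r| ≤ C * s ∧ |kk n ρ - kk n r| ≤ C * √s :=
  kvc_of (kv b)

end Vale.Agent.P146.Sh
end

section

/-!
# P146, Sh: one step along a segment of paths with the same sum of squares
-/

open MeasureTheory ProbabilityTheory Filter Topology Set

namespace Vale.Agent.P146.Sh

open Vale.Agent.P157.Par
open Vale.Agent.P146.Gap
open Vale.Agent.P146.Pw2
open Vale.Agent.P146.Lb
open Vale.Agent.P367.Cl

theorem step {b : ℝ} (hb : 0 < b) (D : ℝ) : ∃ C : ℝ, 1 ≤ C ∧ ∀ (n L : ℕ) (R X v a : ℝ)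
    (ρ ρ' : ℕ → ℝ), Fam b n L R ρ ρ → Fam b n L R ρ ρ' → 1 ≤ L → L ≤ n → 0 < X → X ≤ 1 → R ≤ X →
    gm n L ≤ X → 0 ≤ v → v ≤ 1 → 0 ≤ a → a ≤ D → |v - vv n ρ| ≤ D * √X →
    |4 * v ^ 3 * a - kk n ρ ^ 2| ≤ D * √X →
    ∑ l ∈ Finset.range L, ρ' l ^ 2 = ∑ l ∈ Finset.range L, ρ l ^ 2 →
    SKr b n (gm n) ρ' ≤ SKr b n (gm n) ρ + (Nw n L R v a ρ' - Nw n L R v a ρ) +
      C * (1 / ((n : ℝ) + 1) * ∑ l ∈ Finset.range L, (ρ' l - ρ l) ^ 2) +
      C * (X ^ 3 * √X) * (1 / ((n : ℝ) + 1) * ∑ l ∈ Finset.range L, |ρ' l - ρ l|) :=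
  step_of D (expd b D)

end Vale.Agent.P146.Sh
end

section

/-!
# P146, Sh: the segment of squares between two paths with the same sum of squares
-/

open MeasureTheory ProbabilityTheory Filter Topology Set

namespace Vale.Agent.P146.Sh

open Vale.Agent.P157.Par
open Vale.Agent.P146.Gap
open Vale.Agent.P146.Pw2
open Vale.Agent.P146.Lb
open Vale.Agent.P367.Cl

theorem seg {b : ℝ} (hb : 0 < b) (D : ℝ) : ∃ C : ℝ, 1 ≤ C ∧ ∀ (n L : ℕ) (R X v a : ℝ)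
    (ρ ρ' : ℕ → ℝ), Fam b n L R ρ ρ → Fam b n L R ρ ρ' → 1 ≤ L → L ≤ n → 0 < X → X ≤ 1 → R ≤ X →
    gm n L ≤ X → 0 ≤ v → v ≤ 1 → 0 ≤ a → a ≤ D → |v - vv n ρ| ≤ D * √X →
    |4 * v ^ 3 * a - kk n ρ ^ 2| ≤ D * √X →
    ∑ l ∈ Finset.range L, ρ' l ^ 2 = ∑ l ∈ Finset.range L, ρ l ^ 2 →
    SKr b n (gm n) ρ' ≤ SKr b n (gm n) ρ + (Nw n L R v a ρ' - Nw n L R v a ρ) +
      C * (X ^ 3 * √X) * (1 / ((n : ℝ) + 1) * ∑ l ∈ Finset.range L, |ρ' l - ρ l|) :=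
  seg_of (kvc b) (vk_bd b) (fun D => step hb D) D

end Vale.Agent.P146.Sh
end

section

/-!
# P146, Sh: the first block of the constrained minimiser
-/

open MeasureTheory ProbabilityTheory Filter Topology Set

namespace Vale.Agent.P146.Sh

open Vale.Agent.P157.Par
open Vale.Agent.P146.Gap
open Vale.Agent.P146.Pw2
open Vale.Agent.P146.Lb
open Vale.Agent.P367.Cl

theorem lawA {b : ℝ} (hb : 1 < b) : ∃ c C : ℝ, 0 < c ∧ 1 ≤ C ∧ ∀ (n d : ℕ) (r : ℕ → ℝ),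
    1 ≤ d → d ≤ n → IsMinD b n d r → gm n d ≤ c → C ≤ gm n d ^ 40 * (n + 1) →
      c * gm n d ≤ r d ∧ r d ≤ C * gm n d ∧ 2 * C * gm n d ≤ r n ∧
      ∀ l, d ≤ l → l < n → ∀ t ∈ Icc 0 (r (l + 1) - r l),
        |Mb n (gm n) r l t - 1 / b ^ 2| ≤ gm n d ^ 8 :=
  lawA_of hb (vk_bd b) (m1e b)

end Vale.Agent.P146.Sh
end

section

/-!
# P146, Sh: the law of the first block
-/

open MeasureTheory ProbabilityTheory Filter Topology Set

namespace Vale.Agent.P146.Sh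

open Vale.Agent.P157.Par
open Vale.Agent.P146.Gap
open Vale.Agent.P146.Pw2
open Vale.Agent.P146.Lb
open Vale.Agent.P367.Cl

theorem lawB {b : ℝ} (hb : 1 < b) : ∃ c C : ℝ, 0 < c ∧ 1 ≤ C ∧ ∀ (n d : ℕ) (r : ℕ → ℝ),
    1 ≤ d → d ≤ n → IsMinD b n d r → gm n d ≤ c → C ≤ gm n d ^ 40 * (n + 1) →
      |kk n r ^ 2 * r d - 3 * gm n d * vv n r ^ 3| ≤ C * (gm n d * √(gm n d)) ∧
      ∫ s in (0 : ℝ)..(r d), (Rb n (gm n) r (d - 1) s - s / b ^ 2) ≤
        kk n r ^ 2 * r d ^ 4 / 72 + C * (gm n d ^ 4 * √(gm n d)) :=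
  lawB_of hb (lawA hb) (m1e b)

end Vale.Agent.P146.Sh
end

section

/-!
# P146, Sh: the jump after the first block
-/

open MeasureTheory ProbabilityTheory Filter Topology Set

namespace Vale.Agent.P146.Sh

open Vale.Agent.P157.Par
open Vale.Agent.P146.Gap
open Vale.Agent.P146.Pw2
open Vale.Agent.P146.Lb
open Vale.Agent.P367.Cl

theorem lawC {b : ℝ} (hb : 1 < b) : ∃ c C : ℝ, 0 < c ∧ 1 ≤ C ∧ ∀ (n d : ℕ) (r : ℕ → ℝ),
    1 ≤ d → d ≤ n → IsMinD b n d r → gm n d ≤ c → C ≤ gm n d ^ 40 * (n + 1) →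
      ∃ L : ℕ, d < L ∧ L ≤ 2 * d ∧ L ≤ n ∧ r (L - 1) ≤ r d + gm n d ^ 4 ∧
        3 / 2 * gm n d - C * (gm n d * √(gm n d)) ≤ gm n L :=
  lawC_of (vk_bd b) (m1e b) (lawA hb) (lawB hb)

end Vale.Agent.P146.Sh
end

section

/-!
# P146, Sh: the value decreases by at least `B x⁵` when the constraint is removed
-/

open MeasureTheory ProbabilityTheory Filter Topology Set

namespace Vale.Agent.P146.Sh

open Vale.Agent.P157.Par
open Vale.Agent.P146.Gap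
open Vale.Agent.P146.Pw2
open Vale.Agent.P146.Lb
open Vale.Agent.P367.Cl

/-- The path made constant on the levels `[d, L)`. -/
noncomputable def dnR (d L : ℕ) (R : ℝ) (r : ℕ → ℝ) (l : ℕ) : ℝ :=
  if l < d then 0 else if l < L then R else r l

/-- The competitor. -/
noncomputable def dnC (L : ℕ) (ρ r : ℕ → ℝ) (l : ℕ) : ℝ := if l < L then ρ l else r l

theorem dn_path {b R : ℝ} {n d L : ℕ} {r : ℕ → ℝ} (hr : BPath b n r) (hd : 1 ≤ d)
    (hLn : L ≤ n) (hR : 0 ≤ R) (hRL : R ≤ r L) : BPath b n (dnR d L R r) := by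
  have h0 : dnR d L R r 0 = 0 := by simp [dnR, show 0 < d by omega]
  refine ⟨h0, ⟨h0.ge, fun l hl => ?_⟩, ?_⟩
  · unfold dnR
    have h1 : 0 ≤ r (l + 1) := len_nonneg hr (by omega)
    split_ifs with h2 h3 h4 h5 h6 h7 <;> first | omega | exact le_rfl | exact hR | exact h1 | skip
    · have : l + 1 = L := by omega
      rw [this]; exact hRL
    · exact hr.2.1.2 l hl
  · unfold dnR
    have h1 : r n ≤ b ^ 2 := hr.2.2
    split_ifs with h2 h3
    · positivity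
    · omega
    · exact h1

theorem dn_fam {b R : ℝ} {n d L : ℕ} {r : ℕ → ℝ} (hr : BPath b n r) (hd : 1 ≤ d) (hL : d < L)
    (hLn : L ≤ n) (hR : 0 ≤ R) (hRL : R ≤ r L) :
    Fam b n L R (dnR d L R r) (dnR d L R r) := by
  refine ⟨dn_path hr hd hLn hR hRL, fun l hl => ?_, ?_, fun _ _ => rfl⟩
  · unfold dnR
    split_ifs
    · exact hR
    · exact le_rfl
  · unfold dnR
    rw [if_neg (by omega), if_neg (by omega)]
    exact hRL

theorem dn_famC {b R : ℝ} {n d L : ℕ} {r ρ : ℕ → ℝ} (hr : BPath b n r) (hL : d < L)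
    (hLn : L ≤ n) (hRL : R ≤ r L) (h0 : ρ 0 = 0) (h1 : ∀ l, l + 1 < L → ρ l ≤ ρ (l + 1))
    (h2 : ∀ l < L, 0 ≤ ρ l ∧ ρ l ≤ R) : Fam b n L R (dnR d L R r) (dnC L ρ r) := by
  refine ⟨⟨?_, ⟨?_, fun l hl => ?_⟩, ?_⟩, fun l hl => ?_, ?_, fun l hl => ?_⟩
  · unfold dnC
    rw [if_pos (by omega)]
    exact h0
  · unfold dnC
    rw [if_pos (by omega)]
    exact h0.ge
  · unfold dnC
    split_ifs with h3 h4 h5
    · exact h1 l h4
    · have : l + 1 = L := by omega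
      rw [this]
      exact (h2 l h3).2.trans hRL
    · omega
    · exact hr.2.1.2 l hl
  · unfold dnC
    rw [if_neg (by omega)]
    exact hr.2.2
  · unfold dnC
    rw [if_pos hl]
    exact (h2 l hl).2
  · unfold dnC
    rw [if_neg (lt_irrefl L)]
    exact hRL
  · unfold dnC dnR
    rw [if_neg (by omega), if_neg (by omega), if_neg (by omega)]

/-- The sum of the squares. -/
theorem dn_sq {d L : ℕ} (hL : d ≤ L) (R : ℝ) (r : ℕ → ℝ) :
    ∑ l ∈ Finset.range L, dnR d L R r l ^ 2 = ((L : ℝ) - d) * R ^ 2 := by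
  obtain ⟨k, rfl⟩ := Nat.exists_eq_add_of_le hL
  rw [Finset.sum_range_add (fun l => dnR d (d + k) R r l ^ 2) d k]
  have h1 : ∑ l ∈ Finset.range d, dnR d (d + k) R r l ^ 2 = 0 := by
    refine Finset.sum_eq_zero fun l hl => ?_
    unfold dnR
    rw [if_pos (Finset.mem_range.1 hl)]
    ring
  have h2 : ∑ l ∈ Finset.range k, dnR d (d + k) R r (d + l) ^ 2 = k * R ^ 2 := by
    rw [Finset.sum_congr rfl (g := fun _ => R ^ 2)]
    · simp
    · intro l hl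
      have := Finset.mem_range.1 hl
      unfold dnR
      rw [if_neg (by omega), if_pos (by omega)]
  rw [h1, h2]
  push_cast
  ring

/-- The integrated exponents of the path with one block. -/
theorem dn_Aw {n d L : ℕ} (hL : d ≤ L) {R u : ℝ} (r : ℕ → ℝ) (hu : 0 ≤ u) (huR : u ≤ R) :
    Aw n L R (dnR d L R r) u = gm n d * (R - u) := by
  unfold Aw
  obtain ⟨k, rfl⟩ := Nat.exists_eq_add_of_le hL
  rw [Finset.sum_range_add (fun l => 1 / ((n : ℝ) + 1) * (R - max u (dnR d (d + k) R r l))) d k]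
  have h1 : ∑ l ∈ Finset.range d, 1 / ((n : ℝ) + 1) * (R - max u (dnR d (d + k) R r l)) =
      gm n d * (R - u) := by
    rw [Finset.sum_congr rfl (g := fun _ => 1 / ((n : ℝ) + 1) * (R - u))]
    · simp only [Finset.sum_const, Finset.card_range, nsmul_eq_mul]
      unfold gm
      ring
    · intro l hl
      unfold dnR
      rw [if_pos (Finset.mem_range.1 hl), max_eq_left hu]
  have h2 : ∑ l ∈ Finset.range k, 1 / ((n : ℝ) + 1) *
      (R - max u (dnR d (d + k) R r (d + l))) = 0 := by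
    refine Finset.sum_eq_zero fun l hl => ?_
    have := Finset.mem_range.1 hl
    unfold dnR
    rw [if_neg (by omega), if_pos (by omega), max_eq_right huR]
    ring
  rw [h1, h2, add_zero]

/-- The value of a path near a stationary path. -/
theorem dn_near {b : ℝ} (hb : 0 < b) {n : ℕ} {r ρ : ℕ → ℝ} (hr : BPath b n r)
    (hρ : BPath b n ρ) (hst : ∀ l ≤ n, r l = b ^ 2 * spR n (gm n) r l) :
    SKr b n (gm n) ρ ≤ SKr b n (gm n) r +
      (∑ l ∈ Finset.range (n + 1), 1 / ((n : ℝ) + 1) * (ρ l - r l) ^ 2) / (4 * b ^ 2) := by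
  have h1 := tangent_path (gm_exponents n) hr.2.1 hρ.2.1
  have hstep : ∀ l : ℕ, gm n (l + 1) - gm n l = 1 / (n + 1) := fun l => by
    unfold gm
    push_cast
    ring
  have hb2 : (0 : ℝ) < b ^ 2 := by positivity
  have e : ∑ l ∈ Finset.range (n + 1), (gm n (l + 1) - gm n l) * spR n (gm n) r l * (ρ l - r l) =
      (∑ l ∈ Finset.range (n + 1), 1 / ((n : ℝ) + 1) * (r l * (ρ l - r l))) / b ^ 2 := by
    rw [Finset.sum_div]
    refine Finset.sum_congr rfl fun l hl => ?_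
    have h2 := hst l (by have := Finset.mem_range.1 hl; omega)
    have h3 : spR n (gm n) r l = r l / b ^ 2 := by
      rw [eq_div_iff hb2.ne']
      linarith
    rw [hstep, h3]
    ring
  rw [e] at h1
  unfold SKr
  have e2 : (∑ l ∈ Finset.range (n + 1), (gm n (l + 1) - gm n l) * ρ l ^ 2) =
      (∑ l ∈ Finset.range (n + 1), (gm n (l + 1) - gm n l) * r l ^ 2) +
      (∑ l ∈ Finset.range (n + 1), 1 / ((n : ℝ) + 1) * (ρ l - r l) ^ 2) +
      2 * (∑ l ∈ Finset.range (n + 1), 1 / ((n : ℝ) + 1) * (r l * (ρ l - r l))) := by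
    rw [Finset.mul_sum, ← Finset.sum_add_distrib, ← Finset.sum_add_distrib]
    refine Finset.sum_congr rfl fun l _ => ?_
    rw [hstep]
    ring
  rw [e2]
  set S1 := ∑ l ∈ Finset.range (n + 1), (gm n (l + 1) - gm n l) * r l ^ 2
  set S2 := ∑ l ∈ Finset.range (n + 1), 1 / ((n : ℝ) + 1) * (ρ l - r l) ^ 2
  set S3 := ∑ l ∈ Finset.range (n + 1), 1 / ((n : ℝ) + 1) * (r l * (ρ l - r l))
  have e3 : (S1 + S2 + 2 * S3) / (4 * b ^ 2) = S1 / (4 * b ^ 2) + S2 / (4 * b ^ 2) +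
      1 / 2 * (S3 / b ^ 2) := by
    field_simp
    ring
  rw [e3]
  linarith only [h1]

/-- The path with one block is close to the minimiser. -/
theorem dn_first {b : ℝ} (hb : 1 < b) {n d L : ℕ} {r : ℕ → ℝ} (hr : BPath b n r)
    (hd : 1 ≤ d) (hL : d < L) (hLn : L ≤ n) (h0 : ∀ l < d, r l = 0)
    (hst : ∀ l ≤ n, r l = b ^ 2 * spR n (gm n) r l) {w : ℝ} (hw : r (L - 1) ≤ r d + w) :
    SKr b n (gm n) (dnR d L (r d) r) ≤ SKr b n (gm n) r + w ^ 2 := by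
  have hRL : r d ≤ r L := len_mono hr hL.le hLn
  have hR : 0 ≤ r d := len_nonneg hr (by omega)
  have h1 := dn_near (by linarith) hr (dn_path hr hd hLn hR hRL) hst
  have hw0 : 0 ≤ w := by
    have := len_mono hr (show d ≤ L - 1 by omega) (by omega)
    linarith only [this, hw]
  have h2 : ∑ l ∈ Finset.range (n + 1), 1 / ((n : ℝ) + 1) * (dnR d L (r d) r l - r l) ^ 2 ≤
      ∑ l ∈ Finset.range (n + 1), 1 / ((n : ℝ) + 1) * w ^ 2 := by
    refine Finset.sum_le_sum fun l hl => ?_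
    refine mul_le_mul_of_nonneg_left ?_ (by positivity)
    have hl' := Finset.mem_range.1 hl
    unfold dnR
    split_ifs with h3 h4
    · rw [h0 l h3]
      simpa using sq_nonneg w
    · have a1 := len_mono hr (show d ≤ l by omega) (by omega)
      have a2 := len_mono hr (show l ≤ L - 1 by omega) (by omega)
      have a3 : r l - r d ≤ w := by linarith only [a2, hw]
      have a4 : 0 ≤ r l - r d := by linarith only [a1]
      calc (r d - r l) ^ 2 = (r l - r d) ^ 2 := by ring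
        _ ≤ w ^ 2 := pow_le_pow_left₀ a4 a3 2
    · simpa using sq_nonneg w
  have h3 : ∑ l ∈ Finset.range (n + 1), 1 / ((n : ℝ) + 1) * w ^ 2 = w ^ 2 := by
    rw [Finset.sum_const, Finset.card_range, nsmul_eq_mul]
    push_cast
    field_simp
  rw [h3] at h2
  have h4 : (∑ l ∈ Finset.range (n + 1), 1 / ((n : ℝ) + 1) * (dnR d L (r d) r l - r l) ^ 2) /
      (4 * b ^ 2) ≤ w ^ 2 := by
    rw [div_le_iff₀ (by positivity)]
    have h5 : (1 : ℝ) ≤ 4 * b ^ 2 := by (by_contra nlg; linarith only [nlg, mul_pos (sub_pos.2 hb) (sub_pos.2 hb), mul_pos (sub_pos.2 (not_le.1 nlg)) (sub_pos.2 hb), mul_pos (sub_pos.2 (not_le.1 nlg)) (sub_pos.2 (not_le.1 nlg)), mul_nonneg (sq_nonneg (b : ℝ)) (le_of_lt (sub_pos.2 hb)), mul_nonneg (sq_nonneg (b : ℝ)) (le_of_lt (sub_pos.2 (not_le.1 nlg)))])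
    linarith only [mul_nonneg (sub_nonneg.2 h5) (sq_nonneg w), h2]
  linarith only [h4, h1]

/-- The model at the competitor. -/
theorem dn_model {n L : ℕ} {R v a e : ℝ} {ρ : ℕ → ℝ} (hR : 0 ≤ R) (hv : 0 ≤ v) (hv1 : v ≤ 1)
    (h : ∀ u ∈ Icc 0 R, |Aw n L R ρ u - a * (R ^ 2 - u ^ 2)| ≤ e) :
    Nw n L R v a ρ ≤ R * e ^ 2 := by
  unfold Nw
  have hc : Continuous (fun u => (Aw n L R ρ u - a * (R ^ 2 - u ^ 2)) ^ 2) := by
    unfold Aw
    fun_prop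
  have h1 : ∫ u in (0 : ℝ)..R, (Aw n L R ρ u - a * (R ^ 2 - u ^ 2)) ^ 2 ≤
      ∫ u in (0 : ℝ)..R, e ^ 2 := by
    refine intervalIntegral.integral_mono_on hR (hc.intervalIntegrable _ _)
      (continuous_const.intervalIntegrable _ _) fun u hu => ?_
    rw [← sq_abs]
    exact pow_le_pow_left₀ (abs_nonneg _) (h u hu) 2
  rw [intervalIntegral.integral_const, sub_zero, smul_eq_mul] at h1
  have h2 : v ^ 3 / 2 ≤ 1 := by
    have : v ^ 3 ≤ 1 := pow_le_one₀ hv hv1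
    linarith
  have h3 : 0 ≤ ∫ u in (0 : ℝ)..R, (Aw n L R ρ u - a * (R ^ 2 - u ^ 2)) ^ 2 :=
    intervalIntegral.integral_nonneg hR fun u _ => sq_nonneg _
  calc v ^ 3 / 2 * ∫ u in (0 : ℝ)..R, (Aw n L R ρ u - a * (R ^ 2 - u ^ 2)) ^ 2 ≤
      1 * ∫ u in (0 : ℝ)..R, (Aw n L R ρ u - a * (R ^ 2 - u ^ 2)) ^ 2 :=
        mul_le_mul_of_nonneg_right h2 h3
    _ ≤ R * e ^ 2 := by rw [one_mul]; exact h1

/-- The model at the path with one block. -/
theorem dn_block {n d L : ℕ} (hL : d ≤ L) {R v a : ℝ} (r : ℕ → ℝ) (hR : 0 ≤ R) (hv : 0 < v)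
    (ha : 0 < a) (hx : 0 < gm n d) (h : gm n d / 2 ≤ a * R) :
    9 / 5120 * v ^ 3 * gm n d ^ 5 / a ^ 3 ≤ Nw n L R v a (dnR d L R r) := by
  have h1 := quart hx ha h
  have h2 : ∫ u in (0 : ℝ)..R, (Aw n L R (dnR d L R r) u - a * (R ^ 2 - u ^ 2)) ^ 2 =
      ∫ u in (0 : ℝ)..R, (gm n d * (R - u) - a * (R ^ 2 - u ^ 2)) ^ 2 := by
    refine intervalIntegral.integral_congr fun u hu => ?_
    rw [uIcc_of_le hR] at hu
    show (Aw n L R (dnR d L R r) u - a * (R ^ 2 - u ^ 2)) ^ 2 = _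
    rw [dn_Aw hL r hu.1 hu.2]
  unfold Nw
  rw [h2]
  have h3 := mul_le_mul_of_nonneg_left h1 (by positivity : 0 ≤ v ^ 3 / 2)
  refine le_trans (le_of_eq ?_) h3
  ring

theorem dn_coef {v k x : ℝ} (hv : 0 < v) (hk : 0 < k) :
    9 / 5120 * v ^ 3 * x ^ 5 / (k ^ 2 / (4 * v ^ 3)) ^ 3 = 9 / 80 * v ^ 12 / k ^ 6 * x ^ 5 := by
  field_simp
  ring

theorem dn_gm {n d L : ℕ} (hL : L ≤ 2 * d) : gm n L ≤ 2 * gm n d := by
  unfold gm
  have h1 : (L : ℝ) ≤ 2 * d := by exact_mod_cast hL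
  calc (L : ℝ) / ((n : ℝ) + 1) ≤ 2 * d / (n + 1) := div_le_div_of_nonneg_right h1 (by positivity)
    _ = 2 * (d / (n + 1)) := by ring

theorem dn_dist {b R : ℝ} {n L : ℕ} {ρ ρ' q : ℕ → ℝ} (h1 : Fam b n L R q ρ)
    (h2 : Fam b n L R q ρ') (hLn : L ≤ n) :
    1 / ((n : ℝ) + 1) * ∑ l ∈ Finset.range L, |ρ' l - ρ l| ≤ gm n L * R := by
  have h3 : ∑ l ∈ Finset.range L, |ρ' l - ρ l| ≤ ∑ l ∈ Finset.range L, R := by
    refine Finset.sum_le_sum fun l hl => ?_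
    have hl' := Finset.mem_range.1 hl
    have a1 := h1.le l hl'
    have a2 := h2.le l hl'
    have a3 := len_nonneg h1.path (show l ≤ n by omega)
    have a4 := len_nonneg h2.path (show l ≤ n by omega)
    rw [abs_le]
    constructor <;> linarith
  rw [Finset.sum_const, Finset.card_range, nsmul_eq_mul] at h3
  have h4 := mul_le_mul_of_nonneg_left h3 (show 0 ≤ 1 / ((n : ℝ) + 1) by positivity)
  refine h4.trans (le_of_eq ?_)
  unfold gm
  ring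

/-- The parameters. -/
theorem dn_par {c0 K CB D x v k R : ℝ} (hc0 : 0 < c0) (hCB : 1 ≤ CB)
    (hD1 : 4 / c0 ^ 2 ≤ D) (hD2 : K ^ 2 / c0 ^ 3 ≤ D) (hD3 : CB / c0 ^ 3 ≤ D) (hx0 : 0 < x)
    (xK : x ≤ (c0 ^ 3 / CB) ^ 2) (hv0 : c0 ≤ v) (hv1 : v ≤ 1) (hk0 : c0 ≤ k) (hk1 : k ≤ K)
    (hlaw : |k ^ 2 * R - 3 * x * v ^ 3| ≤ CB * (x * √x)) {a : ℝ} (ha : a = k ^ 2 / (4 * v ^ 3)) :
    1 / D ≤ a ∧ a ≤ D ∧ |a * R - 3 / 4 * x| ≤ D * (x * √x) ∧ x / 2 ≤ a * R := by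
  have hvp : 0 < v := by linarith only [hv0, hc0]
  have hkp : 0 < k := by linarith only [hk0, hc0]
  have hv3 : c0 ^ 3 ≤ v ^ 3 := pow_le_pow_left₀ hc0.le hv0 3
  have hv31 : v ^ 3 ≤ 1 := pow_le_one₀ hvp.le hv1
  have hv3p : 0 < v ^ 3 := by positivity
  have hap : 0 < a := by rw [ha]; positivity
  have hk2 : c0 ^ 2 ≤ k ^ 2 := pow_le_pow_left₀ hc0.le hk0 2
  have hk2' : k ^ 2 ≤ K ^ 2 := pow_le_pow_left₀ hkp.le hk1 2
  have hDp : 0 < D := lt_of_lt_of_le (by positivity) hD1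
  have hsx0 : 0 < √x := Real.sqrt_pos.2 hx0
  have hlaw' : |a * R - 3 / 4 * x| ≤ CB / c0 ^ 3 / 4 * (x * √x) := by
    have h1 : a * R - 3 / 4 * x = (k ^ 2 * R - 3 * x * v ^ 3) / (4 * v ^ 3) := by
      rw [ha]
      field_simp
    rw [h1, abs_div, abs_of_pos (show 0 < 4 * v ^ 3 by positivity),
      div_le_iff₀ (by positivity)]
    refine hlaw.trans ?_
    have h2 : CB / c0 ^ 3 / 4 * (x * √x) * (4 * v ^ 3) = CB * (x * √x) * (v ^ 3 / c0 ^ 3) := by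
      ring
    rw [h2]
    refine le_mul_of_one_le_right (by positivity) ?_
    rw [one_le_div (by positivity)]
    exact hv3
  refine ⟨?_, ?_, ?_, ?_⟩
  · rw [div_le_iff₀ hDp]
    have h2 : c0 ^ 2 / 4 ≤ a := by
      rw [ha, div_le_div_iff₀ (by norm_num) (by positivity)]
      have h3 : c0 ^ 2 * v ^ 3 ≤ k ^ 2 * 1 := mul_le_mul hk2 hv31 hv3p.le (sq_nonneg k)
      linarith only [h3]
    calc (1 : ℝ) = c0 ^ 2 / 4 * (4 / c0 ^ 2) := by field_simp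
      _ ≤ a * D := mul_le_mul h2 hD1 (by positivity) hap.le
  · refine le_trans ?_ hD2
    rw [ha, div_le_div_iff₀ (by positivity) (by positivity)]
    have h2 : k ^ 2 * c0 ^ 3 ≤ K ^ 2 * v ^ 3 := mul_le_mul hk2' hv3 (by positivity) (by positivity)
    have h3 : 0 ≤ K ^ 2 * v ^ 3 := by positivity
    linarith only [h3, h2]
  · refine hlaw'.trans (mul_le_mul_of_nonneg_right ?_ (by positivity))
    have : 0 < CB / c0 ^ 3 := by positivity
    linarith only [hDp, hD3]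
  · have h1 := (abs_le.1 hlaw').1
    have h2 : √x ≤ c0 ^ 3 / CB := Real.sqrt_le_left (by positivity) |>.2 xK
    have h3 : CB / c0 ^ 3 / 4 * (x * √x) ≤ x / 4 := by
      calc CB / c0 ^ 3 / 4 * (x * √x) = x / 4 * (CB / c0 ^ 3) * √x := by ring
        _ ≤ x / 4 * (CB / c0 ^ 3) * (c0 ^ 3 / CB) := mul_le_mul_of_nonneg_left h2 (by positivity)
        _ = x / 4 := by field_simp
    linarith only [h3, h1]

/-- The sum of the errors. -/
theorem dn_sum {S0 S1 S2 N1 N2 x R CA CE CS Cx X T P : ℝ} (hx0 : 0 < x) (hx1 : x ≤ 1)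
    (hCA : 0 ≤ CA) (hCS : 0 ≤ CS) (hCx : 0 ≤ Cx) (h1 : S1 ≤ S0 + (x ^ 4) ^ 2)
    (h2 : S2 ≤ S1 + (N2 - N1) + CS * (X ^ 3 * √X) * T) (h3 : N2 ≤ R * (CE * (x ^ 2 * √x)) ^ 2)
    (h4 : P ≤ N1) (h5 : T ≤ X * X) (h6 : R ≤ CA * x) (hX : X = Cx * x) :
    S2 + P ≤ S0 + (1 + CS * Cx ^ 5 * √Cx + CA * CE ^ 2) * (x ^ 5 * √x) := by
  have hX0 : 0 ≤ X := by rw [hX]; positivity
  have t5 : CS * (X ^ 3 * √X) * T ≤ CS * Cx ^ 5 * √Cx * (x ^ 5 * √x) := by
    refine (mul_le_mul_of_nonneg_left h5 (by positivity)).trans (le_of_eq ?_)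
    rw [hX, Real.sqrt_mul hCx]
    ring
  have hxs : x ≤ √x := by
    rw [Real.le_sqrt hx0.le hx0.le]
    (by_contra nlg; linarith only [nlg, mul_nonneg (le_of_lt (sub_pos.2 hx0)) (sub_nonneg.2 hx1), mul_nonneg (le_of_lt (sub_pos.2 (not_le.1 nlg))) (sub_nonneg.2 hx1), mul_pos (sub_pos.2 (not_le.1 nlg)) (sub_pos.2 hx0)])
  have t6 : (x ^ 4) ^ 2 ≤ x ^ 5 * √x := by
    have h1 : x ^ 3 ≤ √x := by
      refine le_trans ?_ hxs
      calc x ^ 3 ≤ x ^ 1 := pow_le_pow_of_le_one hx0.le hx1 (by norm_num)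
        _ = x := pow_one x
    calc (x ^ 4) ^ 2 = x ^ 5 * x ^ 3 := by ring
      _ ≤ x ^ 5 * √x := mul_le_mul_of_nonneg_left h1 (by positivity)
  have t7 : R * (CE * (x ^ 2 * √x)) ^ 2 ≤ CA * CE ^ 2 * (x ^ 5 * √x) := by
    have h1 : (CE * (x ^ 2 * √x)) ^ 2 = CE ^ 2 * x ^ 4 * x := by
      rw [mul_pow, mul_pow, Real.sq_sqrt hx0.le]
      ring
    rw [h1]
    calc R * (CE ^ 2 * x ^ 4 * x) ≤ CA * x * (CE ^ 2 * x ^ 4 * √x) :=
          mul_le_mul h6 (mul_le_mul_of_nonneg_left hxs (by positivity)) (by positivity)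
            (by positivity)
      _ = CA * CE ^ 2 * (x ^ 5 * √x) := by ring
  linarith only [t7, t6, t5, h4, h3, h2, h1]

/-- The constants of the path with one block. -/
theorem dn_const {Ck K X s v k v' k' a D : ℝ} (hCk : 1 ≤ Ck) (hK : 1 ≤ K) (hX0 : 0 < X)
    (hX1 : X ≤ 1) (hsX : s ≤ X) (hD : Ck + 2 * K * Ck ≤ D) (h1 : |v' - v| ≤ Ck * s)
    (h2 : |k' - k| ≤ Ck * √s) (hk0 : 0 < k) (hk1 : k ≤ K) (hk0' : 0 < k') (hk1' : k' ≤ K)
    (ha : 4 * v ^ 3 * a = k ^ 2) :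
    |v - v'| ≤ D * √X ∧ |4 * v ^ 3 * a - k' ^ 2| ≤ D * √X := by
  have hsqX : X ≤ √X := by
    rw [Real.le_sqrt hX0.le hX0.le]
    (by_contra nlg; linarith only [nlg, mul_nonneg (le_of_lt (sub_pos.2 hX0)) (sub_nonneg.2 hX1), mul_nonneg (le_of_lt (sub_pos.2 (not_le.1 nlg))) (sub_nonneg.2 hX1), mul_pos (sub_pos.2 (not_le.1 nlg)) (sub_pos.2 hX0)])
  have hKC : 0 < K * Ck := by positivity
  constructor
  · rw [abs_sub_comm]
    refine h1.trans ?_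
    have h3 : Ck * s ≤ Ck * √X := mul_le_mul_of_nonneg_left (hsX.trans hsqX) (by linarith)
    have h4 : Ck * √X ≤ D * √X :=
      mul_le_mul_of_nonneg_right (by linarith) (Real.sqrt_nonneg _)
    exact h3.trans h4
  · rw [ha, show k ^ 2 - k' ^ 2 = (k' - k) * (-(k' + k)) by ring, abs_mul, abs_neg,
      abs_of_pos (show 0 < k' + k by linarith)]
    have h3 : |k' - k| ≤ Ck * √X := h2.trans
      (mul_le_mul_of_nonneg_left (Real.sqrt_le_sqrt hsX) (by linarith))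
    have h4 : |k' - k| * (k' + k) ≤ Ck * √X * (2 * K) :=
      mul_le_mul h3 (by linarith) (by linarith) (by positivity)
    have h5 : Ck * √X * (2 * K) ≤ D * √X := by
      calc Ck * √X * (2 * K) = 2 * K * Ck * √X := by ring
        _ ≤ D * √X := mul_le_mul_of_nonneg_right (by linarith) (Real.sqrt_nonneg _)
    exact h4.trans h5

theorem dn_AwC {n L : ℕ} {R u : ℝ} (ρ r : ℕ → ℝ) :
    Aw n L R (dnC L ρ r) u = Aw n L R ρ u := by
  unfold Aw
  refine Finset.sum_congr rfl fun l hl => ?_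
  unfold dnC
  rw [if_pos (Finset.mem_range.1 hl)]

theorem dn_sqC {L : ℕ} (ρ r : ℕ → ℝ) :
    ∑ l ∈ Finset.range L, dnC L ρ r l ^ 2 = ∑ l ∈ Finset.range L, ρ l ^ 2 := by
  refine Finset.sum_congr rfl fun l hl => ?_
  unfold dnC
  rw [if_pos (Finset.mem_range.1 hl)]

/-- The comparison, for given data. -/
theorem dn_main {b : ℝ} (hb : 1 < b) {CA CE CS Cx Ck K D x R v k a : ℝ} {n d L : ℕ}
    {r ρ : ℕ → ℝ} (hd1 : 1 ≤ d) (hdn : d ≤ n) (hmin : IsMinD b n d r) (hdL : d < L)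
    (hL2 : L ≤ 2 * d) (hLn : L ≤ n) (hCA : 1 ≤ CA) (hCS : 1 ≤ CS) (hCx : Cx = CA + 2)
    (hxe : x = gm n d) (hRe : R = r d) (hx0 : 0 < x) (hXx : Cx * x ≤ 1)
    (hRC : R ≤ CA * x) (hrL : r (L - 1) ≤ R + x ^ 4) (hv0 : 0 < v) (hv1 : v ≤ 1) (hk : 0 < k)
    (ha : 4 * v ^ 3 * a = k ^ 2) (hap : 0 < a) (haD : a ≤ D)
    (hRx : x / 2 ≤ a * R) (hCk : 1 ≤ Ck) (hK : 1 ≤ K) (hkK : k ≤ K)
    (hD : Ck + 2 * K * Ck ≤ D)
    (hkv1 : |vv n (dnR d L R r) - v| ≤ Ck * r (L - 1))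
    (hkv2 : |kk n (dnR d L R r) - k| ≤ Ck * √(r (L - 1)))
    (hk' : 0 < kk n (dnR d L R r)) (hk1' : kk n (dnR d L R r) ≤ K)
    (hS : ∀ (n L : ℕ) (R X v a : ℝ)
    (ρ ρ' : ℕ → ℝ), Fam b n L R ρ ρ → Fam b n L R ρ ρ' → 1 ≤ L → L ≤ n → 0 < X → X ≤ 1 → R ≤ X →
    gm n L ≤ X → 0 ≤ v → v ≤ 1 → 0 ≤ a → a ≤ D → |v - vv n ρ| ≤ D * √X →
    |4 * v ^ 3 * a - kk n ρ ^ 2| ≤ D * √X →
    ∑ l ∈ Finset.range L, ρ' l ^ 2 = ∑ l ∈ Finset.range L, ρ l ^ 2 →
    SKr b n (gm n) ρ' ≤ SKr b n (gm n) ρ + (Nw n L R v a ρ' - Nw n L R v a ρ) +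
      CS * (X ^ 3 * √X) * (1 / ((n : ℝ) + 1) * ∑ l ∈ Finset.range L, |ρ' l - ρ l|))
    (hρ0 : ρ 0 = 0) (hρ1 : ∀ l, l + 1 < L → ρ l ≤ ρ (l + 1))
    (hρ2 : ∀ l < L, 0 ≤ ρ l ∧ ρ l ≤ R)
    (hρ3 : ∑ l ∈ Finset.range L, ρ l ^ 2 = ((L : ℝ) - d) * R ^ 2)
    (hρ4 : ∀ u ∈ Icc 0 R, |Aw n L R ρ u - a * (R ^ 2 - u ^ 2)| ≤ CE * (x ^ 2 * √x)) :
    ∃ r', BPath b n r' ∧ SKr b n (gm n) r' + 9 / 80 * v ^ 12 / k ^ 6 * x ^ 5 ≤
        SKr b n (gm n) r + (1 + CS * Cx ^ 5 * √Cx + CA * CE ^ 2) * (x ^ 5 * √x) := by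
  have hr := hmin.1
  have hCx1 : 1 ≤ Cx := by rw [hCx]; linarith only [hCA]
  have hCx0 : 0 < Cx := by linarith only [hCx, hCA]
  have hx1 : x ≤ 1 := by
    have := mul_le_mul_of_nonneg_right hCx1 hx0.le
    linarith only [this, hXx]
  have hR0 : 0 ≤ R := hRe ▸ len_nonneg hr hdn
  have hRL : R ≤ r L := hRe ▸ len_mono hr hdL.le hLn
  have f1 : Fam b n L R (dnR d L R r) (dnR d L R r) := dn_fam hr hd1 hdL hLn hR0 hRL
  have f2 : Fam b n L R (dnR d L R r) (dnC L ρ r) := dn_famC hr hdL hLn hRL hρ0 hρ1 hρ2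
  obtain ⟨X, hX⟩ : ∃ X, X = Cx * x := ⟨_, rfl⟩
  have hX0 : 0 < X := by rw [hX]; positivity
  have hX1 : X ≤ 1 := by rw [hX]; exact hXx
  have hx4 : x ^ 4 ≤ x := by
    calc x ^ 4 ≤ x ^ 1 := pow_le_pow_of_le_one hx0.le hx1 (by norm_num)
      _ = x := pow_one x
  have hRX : R ≤ X := by
    rw [hX, hCx]
    linarith only [hRC, hx0]
  have hsX : r (L - 1) ≤ X := by
    rw [hX, hCx]
    linarith only [hx4, hrL, hRC, hx0]
  have hLX : gm n L ≤ X := by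
    have h1 := dn_gm (n := n) hL2
    rw [← hxe] at h1
    rw [hX, hCx]
    have : 0 ≤ CA * x := by positivity
    linarith only [this, h1]
  obtain ⟨g1, g2⟩ := dn_const hCk hK hX0 hX1 hsX hD hkv1 hkv2 hk hkK hk' hk1' ha
  have hseg := hS n L R X v a (dnR d L R r) (dnC L ρ r) f1 f2 (by omega) hLn hX0 hX1 hRX hLX hv0.le
    hv1 hap.le haD g1 g2 (by rw [dn_sq hdL.le, dn_sqC, hρ3])
  have t1 := dn_first hb hr hd1 hdL hLn hmin.2.1 (statD (by linarith only [hb]) hmin) (w := x ^ 4) (by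
    rw [← hRe]; exact hrL)
  rw [← hRe] at t1
  have t2 : Nw n L R v a (dnC L ρ r) ≤ R * (CE * (x ^ 2 * √x)) ^ 2 := by
    refine dn_model hR0 hv0.le hv1 fun u hu => ?_
    rw [dn_AwC]
    exact hρ4 u hu
  have t3 := dn_block hdL.le (n := n) (v := v) (a := a) r hR0 hv0 hap (hxe ▸ hx0) (by
    rw [← hxe]; exact hRx)
  have ha' : a = k ^ 2 / (4 * v ^ 3) := by
    rw [← ha]
    field_simp
  rw [← hxe] at t3
  have t3' : 9 / 80 * v ^ 12 / k ^ 6 * x ^ 5 ≤ Nw n L R v a (dnR d L R r) := by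
    rw [← dn_coef hv0 hk, ← ha']
    exact t3
  have t4 := dn_dist f1 f2 hLn
  refine ⟨dnC L ρ r, f2.path, ?_⟩
  exact dn_sum hx0 hx1 (by linarith only [hCA]) (by linarith only [hCS]) hCx0.le t1 hseg t2 t3'
    (t4.trans (mul_le_mul hLX hRX hR0 hX0.le)) hRC hX

/-- **Removing the constraint.** -/
theorem down {b : ℝ} (hb : 1 < b) : ∃ c C : ℝ, 0 < c ∧ 1 ≤ C ∧ ∀ (n d : ℕ) (r : ℕ → ℝ),
    1 ≤ d → d ≤ n → IsMinD b n d r → gm n d ≤ c → C ≤ gm n d ^ 40 * (n + 1) →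
      ∃ r', BPath b n r' ∧ SKr b n (gm n) r' + 9 / 80 * vv n r ^ 12 / kk n r ^ 6 * gm n d ^ 5 ≤
        SKr b n (gm n) r + C * (gm n d ^ 5 * √(gm n d)) := by
  have hb0 : 0 < b := by linarith
  obtain ⟨c0, K, hc0, hK, hbd⟩ := vk_bd b
  obtain ⟨cA, CA, hcA, hCA, hA⟩ := lawA hb
  obtain ⟨cB, CB, hcB, hCB, hB⟩ := lawB hb
  obtain ⟨cC, CC, hcC, hCC, hC⟩ := lawC hb
  obtain ⟨Ck, hCk, hkvc⟩ := kvc b
  -- the constants
  obtain ⟨D, hD⟩ : ∃ D : ℝ, D = 4 / c0 ^ 2 + K ^ 2 / c0 ^ 3 + CB / c0 ^ 3 + CC + 1 +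
    (Ck + 2 * K * Ck) := ⟨_, rfl⟩
  have d1 : 0 < 4 / c0 ^ 2 := by positivity
  have d2 : 0 < K ^ 2 / c0 ^ 3 := by positivity
  have d3 : 0 < CB / c0 ^ 3 := by positivity
  have d4 : 0 < Ck + 2 * K * Ck := by positivity
  have hD1 : 1 ≤ D := by rw [hD]; linarith only [d4, d3, d2, d1, hCC]
  obtain ⟨cE, CE, hcE, hCE, hE⟩ := comp hD1
  obtain ⟨Cx, hCx⟩ : ∃ Cx : ℝ, Cx = CA + 2 := ⟨_, rfl⟩
  have hCx0 : 0 < Cx := by rw [hCx]; linarith only [hCA]
  obtain ⟨CS, hCS, hS⟩ := seg hb0 D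
  refine ⟨min (min (min cA cB) (min cC cE)) (min (1 / Cx) ((c0 ^ 3 / CB) ^ 2)),
    max (max (max CA CB) (max CC CE)) (1 + CS * Cx ^ 5 * √Cx + CA * CE ^ 2), by (clear * - hcA hcB hcC hcE hCx0 hc0 hCB; positivity),
    le_max_of_le_left (le_max_of_le_left (le_max_of_le_left hCA)),
    fun n d r hd1 hdn hmin hx hCn => ?_⟩
  obtain ⟨x, hxe⟩ : ∃ x, x = gm n d := ⟨_, rfl⟩
  have hx0 : 0 < x := hxe ▸ grid_gm_pos hd1
  rw [← hxe] at hx hCn ⊢
  simp only [le_min_iff] at hx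
  simp only [max_le_iff] at hCn
  obtain ⟨⟨⟨xA, xB⟩, xC, xE⟩, xX, xK⟩ := hx
  obtain ⟨⟨⟨nA, nB⟩, nC, nE⟩, -⟩ := hCn
  have hXx : Cx * x ≤ 1 := by
    rw [le_div_iff₀ hCx0] at xX
    linarith only [xX]
  have hr := hmin.1
  obtain ⟨-, hRC, -, -⟩ := hA n d r hd1 hdn hmin (hxe ▸ xA) (hxe ▸ nA)
  obtain ⟨hlaw, -⟩ := hB n d r hd1 hdn hmin (hxe ▸ xB) (hxe ▸ nB)
  obtain ⟨L, hdL, hL2, hLn, hrL, hjump⟩ := hC n d r hd1 hdn hmin (hxe ▸ xC) (hxe ▸ nC)
  obtain ⟨hv0, hv1, hk0, hk1⟩ := hbd n r hr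
  rw [← hxe] at hRC hlaw hrL hjump
  obtain ⟨a, ha⟩ : ∃ a : ℝ, a = kk n r ^ 2 / (4 * vv n r ^ 3) := ⟨_, rfl⟩
  have hvp : 0 < vv n r := by linarith only [hv0, hc0]
  have hkp : 0 < kk n r := by linarith only [hk0, hc0]
  have hap : 0 < a := by rw [ha]; (clear * - hkp hvp; positivity)
  obtain ⟨p1, p2, p3, p4⟩ := dn_par hc0 hCB (D := D) (by rw [hD]; linarith only [d4, d3, d2, hCC]) (by rw [hD]; linarith only [d4, d3, d1, hCC])
    (by rw [hD]; linarith only [d4, d2, d1, hCC]) hx0 xK hv0 hv1 hk0 hk1 hlaw ha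
  have hR0 : 0 ≤ r d := len_nonneg hr hdn
  have hR0' : 0 < r d := by
    by_contra h
    push Not at h
    have : a * r d ≤ 0 := mul_nonpos_of_nonneg_of_nonpos hap.le h
    linarith only [this, p4, hx0]
  obtain ⟨ρ, hρ0, hρ1, hρ2, hρ3, hρ4⟩ := hE n d L (r d) a x hxe hd1 hdL hL2 hR0' p1 p2 xE nE p3 (by
    have h1 : 3 / 2 * x - CC * (x * √x) ≤ (L : ℝ) / ((n : ℝ) + 1) := hjump
    have h2 : CC * (x * √x) ≤ D * (x * √x) := by
      refine mul_le_mul_of_nonneg_right ?_ (by positivity)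
      rw [hD]
      linarith only [d4, d3, d2, d1]
    linarith only [h2, h1])
  have hRL : r d ≤ r L := len_mono hr hdL.le hLn
  have f1 := dn_path (R := r d) hr hd1 hLn hR0 hRL
  obtain ⟨kv1, kv2⟩ := hkvc n L (r (L - 1)) r (dnR d L (r d) r) hr f1 (by omega) hLn (fun l hl => by
    unfold dnR
    rw [if_neg (by omega), if_neg (by omega)]) le_rfl (by
      unfold dnR
      rw [if_neg (by omega), if_pos (by omega)]
      exact len_mono hr (by omega) (by omega)) (len_mono hr (by omega) hLn)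
  obtain ⟨-, -, hk0', hk1'⟩ := hbd n (dnR d L (r d) r) f1
  obtain ⟨r', h1, h2⟩ := dn_main hb hd1 hdn hmin hdL hL2 hLn hCA hCS hCx hxe rfl hx0 hXx hRC hrL hvp
    hv1 hkp (a := a) (by rw [ha]; field_simp) hap p2 p4 hCk hK hk1 (by rw [hD]; linarith only [d3, d2, d1, hCC]) kv1 kv2
    (by linarith only [hk0', hc0]) hk1' hS hρ0 hρ1 hρ2 hρ3 hρ4
  refine ⟨r', h1, h2.trans ?_⟩
  have t8 : (1 + CS * Cx ^ 5 * √Cx + CA * CE ^ 2) * (x ^ 5 * √x) ≤
      max (max (max CA CB) (max CC CE)) (1 + CS * Cx ^ 5 * √Cx + CA * CE ^ 2) * (x ^ 5 * √x) :=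
    mul_le_mul_of_nonneg_right (le_max_right _ _) (by positivity)
  linarith only [t8]

end Vale.Agent.P146.Sh
end

section

/-!
# P146, Sh: increasing the first exponent by one step, final form
-/

open MeasureTheory ProbabilityTheory Filter Topology Set

namespace Vale.Agent.P146.Sh

open Vale.Agent.P157.Par
open Vale.Agent.P146.Gap
open Vale.Agent.P146.Pw2
open Vale.Agent.P146.Lb
open Vale.Agent.P367.Cl

theorem up {b : ℝ} (hb : 1 < b) : ∃ c C : ℝ, 0 < c ∧ 1 ≤ C ∧ ∀ (n d : ℕ) (r : ℕ → ℝ),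
    1 ≤ d → d < n → IsMinD b n d r → gm n d ≤ c → C ≤ gm n d ^ 40 * (n + 1) →
      ∃ r', BPath b n r' ∧ (∀ l < d + 1, r' l = 0) ∧ SKr b n (gm n) r' ≤ SKr b n (gm n) r +
        1 / ((n : ℝ) + 1) * (9 / 16 * vv n r ^ 12 / kk n r ^ 6 * gm n d ^ 4 +
          C * (gm n d ^ 4 * √(gm n d))) :=
  up_of (lawB hb) (vk_bd b)

end Vale.Agent.P146.Sh
end

section

/-!
# P146, Sh: `(V_n(d) - V_n(0)) / x_d⁵` is almost decreasing in `d`
-/

open MeasureTheory ProbabilityTheory Filter Topology Set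

namespace Vale.Agent.P146.Sh

open Vale.Agent.P157.Par
open Vale.Agent.P146.Gap
open Vale.Agent.P146.Pw2
open Vale.Agent.P146.Lb
open Vale.Agent.P367.Cl

theorem iter {b : ℝ} (hb : 1 < b) : ∃ c C : ℝ, 0 < c ∧ 1 ≤ C ∧ ∀ (n d₁ d₂ : ℕ)
    (r₀ r₁ r₂ : ℕ → ℝ), 1 ≤ d₁ → d₁ ≤ d₂ → d₂ ≤ n → IsMinD b n 0 r₀ → IsMinD b n d₁ r₁ →
    IsMinD b n d₂ r₂ → gm n d₂ ≤ c → C ≤ gm n d₁ ^ 40 * (n + 1) →
      (SKr b n (gm n) r₂ - SKr b n (gm n) r₀) / gm n d₂ ^ 5 ≤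
        (SKr b n (gm n) r₁ - SKr b n (gm n) r₀) / gm n d₁ ^ 5 + C * √(gm n d₂) :=
  iter_of hb (down hb) (up hb)

end Vale.Agent.P146.Sh
end

section

/-!
# P146, Sh: the grid and the constrained Parisi values
-/

open MeasureTheory ProbabilityTheory Filter Topology Set

namespace Vale.Agent.P146.Sh

open Vale.Agent.P157.Par
open Vale.Agent.P146.Gap
open Vale.Agent.P146.Pw2
open Vale.Agent.P146.Lb
open Vale.Agent.P367.Cl

/-- `grid_path` with the explicit path. -/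
private theorem sg_grid_path (b : ℝ) (n : ℕ) {k : ℕ} {μ p : ℕ → ℝ} (hμ : Exponents k μ)
    (hp : Path k p) (hp1 : p k ≤ 1) : Path n (fun l => p (gJ n k μ l)) ∧ p (gJ n k μ n) ≤ 1 ∧
      SKpar b n (gm n) (fun l => p (gJ n k μ l)) ≤ SKpar b k μ p + b ^ 2 / (2 * (n + 1)) := by
  have hn : (0 : ℝ) < (n : ℝ) + 1 := by positivity
  have hp0 : ∀ l ≤ k, 0 ≤ p l := fun l hl => hp.1.trans (grid_path_mono hp (Nat.zero_le l) hl)
  refine ⟨⟨hp0 _ (gJ_le _ _ _ _), fun l _ =>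
    grid_path_mono hp (gJ_mono hμ (Nat.le_succ l)) (gJ_le _ _ _ _)⟩,
    (grid_path_mono hp (gJ_le _ _ _ _) le_rfl).trans hp1, ?_⟩
  have hJ : ∀ l, min k (gJ n k μ l) = gJ n k μ l := fun l => min_eq_right (gJ_le _ _ _ _)
  -- the sums
  have hs := grid_sum (n := n) (f := fun l => p l ^ 2) hμ (fun l hl =>
    pow_le_pow_left₀ (hp0 l hl.le) (hp.2 l hl) 2) k le_rfl
  have hs2 : ∑ l ∈ Finset.range (k + 1), (μ (l + 1) - μ l) * p (min k l) ^ 2 =
      ∑ l ∈ Finset.range (k + 1), (μ (l + 1) - μ l) * p l ^ 2 := by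
    refine Finset.sum_congr rfl fun l hl => ?_
    rw [min_eq_right (by have := Finset.mem_range.1 hl; omega)]
  simp only [hJ] at hs
  rw [hs2] at hs
  -- the cascades
  have hc := grid_casc (b := b) (n := n) hμ hp k le_rfl 2 lc adm_lc
  simp only [hJ] at hc
  have hv : 0 ≤ b ^ 2 * p k - b ^ 2 * p (gJ n k μ n) := by
    have := mul_le_mul_of_nonneg_left (grid_path_mono hp (gJ_le n k μ n) le_rfl) (sq_nonneg b)
    linarith
  have h2 : ∀ x, cascade (gm n) (fun l => b ^ 2 * p (gJ n k μ l)) (n + 1) lc x =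
      cascade (gm n) (fun l => b ^ 2 * p (gJ n k μ l)) n lc x +
        (b ^ 2 * p k - b ^ 2 * p (gJ n k μ n)) / 2 := by
    intro x
    rw [cascade_succ_def, grid_gm_top, gJ_top hμ, minb_lc_step hv,
      minb_cascade_const (fun l a _ => grid_gm_pos a) (fun l _ c => by
        rw [← grid_gm_top n]; exact grid_gm_mono (by omega)) (fun l _ =>
        mul_le_mul_of_nonneg_left (grid_path_mono hp (gJ_mono hμ (Nat.le_succ l)) (gJ_le _ _ _ _))
          (sq_nonneg b)) adm_lc]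
  have hL : ∀ (m r : ℕ → ℝ) (c : ℕ), (∀ l, 1 ≤ l → l ≤ c → 0 < m l) →
      Integrable (fun z => cascade m r c lc (√(r 0) * z)) (gaussianReal 0 1) := fun m r c h =>
    comp_int_lip (comp_casc_lip (F := lc) c lc (grid_adm_lip adm_lc) h) (r 0)
  have hspin : spinPart n (gm n) (fun l => b ^ 2 * p (gJ n k μ l)) ≤
      spinPart k μ (fun l => b ^ 2 * p l) + b ^ 2 / (2 * (n + 1)) := by
    have hl : spinPart n (gm n) (fun l => b ^ 2 * p (gJ n k μ l)) =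
        ∫ z, cascade (gm n) (fun l => b ^ 2 * p (gJ n k μ l)) n lc (√(b ^ 2 * p 0) * z)
          ∂(gaussianReal 0 1) - b ^ 2 * p (gJ n k μ n) / 2 := by
      unfold spinPart
      simp only [gJ_zero hμ]
      rfl
    have hr : spinPart k μ (fun l => b ^ 2 * p l) =
        ∫ z, cascade μ (fun l => b ^ 2 * p l) k lc (√(b ^ 2 * p 0) * z)
          ∂(gaussianReal 0 1) - b ^ 2 * p k / 2 := rfl
    have hi1 := hL (gm n) (fun l => b ^ 2 * p (gJ n k μ l)) n (fun l a _ => grid_gm_pos a)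
    simp only [gJ_zero hμ] at hi1
    have hi2 := hL μ (fun l => b ^ 2 * p l) k (fun l a c => by
      have h1 := hμ.2.2 0 (Nat.zero_le k)
      rw [hμ.1] at h1
      exact h1.trans_le (grid_exp_mono hμ a (by omega)))
    have hkey : ∀ x, cascade (gm n) (fun l => b ^ 2 * p (gJ n k μ l)) n lc x ≤
        cascade μ (fun l => b ^ 2 * p l) k lc x + (b ^ 2 / (2 * (n + 1)) -
          (b ^ 2 * p k - b ^ 2 * p (gJ n k μ n)) / 2) := by
      intro x
      have h3 := hc x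
      rw [h2 x] at h3
      have h4 : b ^ 2 * (p k - p 0) / (2 * ((n : ℝ) + 1)) ≤ b ^ 2 / (2 * (n + 1)) := by
        refine div_le_div_of_nonneg_right ?_ (by (clear * -; positivity))
        refine mul_le_of_le_one_right (sq_nonneg b) ?_
        linarith only [hp0 0 (Nat.zero_le k), hp1]
      linarith only [h4, h3]
    have hint := integral_mono hi1 (hi2.add (integrable_const
      (b ^ 2 / (2 * (n + 1)) - (b ^ 2 * p k - b ^ 2 * p (gJ n k μ n)) / 2)))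
      (fun z => hkey (√(b ^ 2 * p 0) * z))
    rw [integral_add' hi2 (integrable_const _)] at hint
    simp only [integral_const, probReal_univ, one_smul] at hint
    rw [hl, hr]
    linarith only [hint]
  unfold SKpar
  have h5 : b ^ 2 / 4 * (1 + ∑ l ∈ Finset.range (n + 1), (gm n (l + 1) - gm n l) *
      p (gJ n k μ l) ^ 2) ≤ b ^ 2 / 4 * (1 + ∑ l ∈ Finset.range (k + 1), (μ (l + 1) - μ l) *
      p l ^ 2) := mul_le_mul_of_nonneg_left (by linarith) (by positivity)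
  linarith

/-- The functional is bounded below. -/
private theorem sg_bdd {b : ℝ} (hb : 1 < b) : ∃ B : ℝ, ∀ (K : ℕ) (m q : ℕ → ℝ), Exponents K m →
    Path K q → q K ≤ 1 → B ≤ SKpar b K m q := by
  obtain ⟨C₁, hC₁, h1⟩ := Sx.fin_moment5 hb.le
  refine ⟨_, fun K m q hm hq hq1 => h1 1 le_rfl 1 one_pos le_rfl K m q hm hq hq1⟩

private theorem sg_bdd_V {b : ℝ} (hb : 1 < b) (x : ℝ) :
    BddBelow {y | ∃ (K : ℕ) (m q : ℕ → ℝ), Exponents K m ∧ Path K q ∧ q 0 = 0 ∧ q K ≤ 1 ∧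
      x ≤ m 1 ∧ y = SKpar b K m q} := by
  obtain ⟨B, hB⟩ := sg_bdd hb
  refine ⟨B, ?_⟩
  rintro y ⟨K, m, q, h1, h2, h3, h4, h5, rfl⟩
  exact hB K m q h1 h2 h4

private theorem sg_bdd_P {b : ℝ} (hb : 1 < b) :
    BddBelow {y | ∃ (K : ℕ) (m q : ℕ → ℝ), Exponents K m ∧ Path K q ∧ q K ≤ 1 ∧
      y = SKpar b K m q} := by
  obtain ⟨B, hB⟩ := sg_bdd hb
  refine ⟨B, ?_⟩
  rintro y ⟨K, m, q, h1, h2, h4, rfl⟩
  exact hB K m q h1 h2 h4

private theorem sg_exp0 : Exponents 0 (fun l => if l = 0 then 0 else 1) := by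
  refine ⟨if_pos rfl, ?_, ?_⟩
  · simp
  · intro l hl
    have : l = 0 := by omega
    subst this
    simp

private theorem sg_ne_V (b : ℝ) {x : ℝ} (hx : x ≤ 1) :
    {y | ∃ (K : ℕ) (m q : ℕ → ℝ), Exponents K m ∧ Path K q ∧ q 0 = 0 ∧ q K ≤ 1 ∧
      x ≤ m 1 ∧ y = SKpar b K m q}.Nonempty := by
  refine ⟨_, 0, fun l => if l = 0 then 0 else 1, fun _ => 0, sg_exp0,
    ⟨le_rfl, fun _ _ => le_rfl⟩, rfl, zero_le_one, ?_, rfl⟩
  simpa using hx

private theorem sg_ne_P (b : ℝ) :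
    {y | ∃ (K : ℕ) (m q : ℕ → ℝ), Exponents K m ∧ Path K q ∧ q K ≤ 1 ∧
      y = SKpar b K m q}.Nonempty := by
  refine ⟨_, 0, fun l => if l = 0 then 0 else 1, fun _ => 0, sg_exp0,
    ⟨le_rfl, fun _ _ => le_rfl⟩, zero_le_one, rfl⟩

theorem vx_le {b : ℝ} (hb : 1 < b) {n d : ℕ} (hd : 1 ≤ d) (hdn : d ≤ n) {r : ℕ → ℝ}
    (hr : BPath b n r) (h0 : ∀ l < d, r l = 0) : Vx b (gm n d) ≤ SKr b n (gm n) r := by
  have hb0 : 0 < b := by linarith
  obtain ⟨e, rfl⟩ : ∃ e, d = e + 1 := ⟨d - 1, by omega⟩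
  obtain ⟨K, rfl⟩ : ∃ K, n = e + K := ⟨n - e, by omega⟩
  set m' : ℕ → ℝ := fun j => if j = 0 then 0 else gm (e + K) (e + j) with hm'
  set r' : ℕ → ℝ := fun j => r (e + j) with hr'
  have hexp : Exponents K m' := by
    refine ⟨by simp [hm'], ?_, fun l hl => ?_⟩
    · have h1 : m' (K + 1) = gm (e + K) (e + (K + 1)) := by simp [hm']
      rw [h1]
      exact grid_gm_top (e + K)
    · have h1 : m' (l + 1) = gm (e + K) (e + (l + 1)) := by simp [hm']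
      rw [h1]
      by_cases hl0 : l = 0
      · subst hl0
        have h2 : m' 0 = 0 := by simp [hm']
        rw [h2]
        exact grid_gm_pos (by omega)
      · have h2 : m' l = gm (e + K) (e + l) := by simp [hm', hl0]
        rw [h2]
        exact (gm_exponents (e + K)).2.2 (e + l) (by omega)
  have hr0 : r' 0 = 0 := h0 e (by omega)
  have hpath : Path K r' := ⟨hr0.symm.le, fun l hl => hr.2.1.2 (e + l) (by omega)⟩
  have hend : r' K ≤ b ^ 2 := hr.2.2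
  -- the functional
  have hcas : cascade (gm (e + K)) r (e + K) lc = cascade m' r' K lc := by
    rw [minb_split, minb_flat (fun l h1 h2 => (grid_gm_pos h1).ne')
      (fun l hl => by rw [h0 l (by omega), h0 0 (by omega)])]
    refine minb_congr (fun l h1 h2 => ?_) (fun l hl => rfl) lc
    have : l ≠ 0 := by omega
    simp [hm', this]
  have hspin : spinPart K m' r' = spinPart (e + K) (gm (e + K)) r := by
    unfold spinPart
    have h1 : cascade m' r' K (fun x => Real.log (Real.cosh x)) =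
        cascade (gm (e + K)) r (e + K) (fun x => Real.log (Real.cosh x)) := hcas.symm
    rw [h1, hr0, h0 0 (by omega)]
  have hsum : ∑ l ∈ Finset.range (K + 1), (m' (l + 1) - m' l) * r' l ^ 2 =
      ∑ l ∈ Finset.range (e + K + 1), (gm (e + K) (l + 1) - gm (e + K) l) * r l ^ 2 := by
    have h1 : e + K + 1 = e + (K + 1) := by ring
    rw [h1, Finset.sum_range_add _ e (K + 1)]
    have h2 : ∑ l ∈ Finset.range e, (gm (e + K) (l + 1) - gm (e + K) l) * r l ^ 2 = 0 := by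
      refine Finset.sum_eq_zero fun l hl => ?_
      have := Finset.mem_range.1 hl
      rw [h0 l (by omega)]
      ring
    rw [h2, zero_add]
    refine Finset.sum_congr rfl fun l hl => ?_
    by_cases hl0 : l = 0
    · subst hl0
      have h3 : r (e + 0) = 0 := h0 e (by omega)
      rw [hr0, h3]
      ring
    · have h3 : m' l = gm (e + K) (e + l) := by simp [hm', hl0]
      have h4 : m' (l + 1) = gm (e + K) (e + (l + 1)) := by simp [hm']
      rw [h3, h4]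
      rfl
  have hSK : SKr b K m' r' = SKr b (e + K) (gm (e + K)) r := by
    unfold SKr
    rw [hspin, hsum]
  rw [← hSK, ← gap2_SKr_eq hb0]
  refine csInf_le (sg_bdd_V hb _) ⟨K, m', fun l => r' l / b ^ 2, hexp, ⟨?_, fun l hl => ?_⟩, ?_,
    ?_, ?_, rfl⟩
  · exact div_nonneg hpath.1 (by positivity)
  · exact div_le_div_of_nonneg_right (hpath.2 l hl) (by positivity)
  · simp only [hr0, zero_div]
  · simp only []
    rw [div_le_one (by positivity)]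
    exact hend
  · have h1 : m' 1 = gm (e + K) (e + 1) := by simp [hm']
    rw [h1]

theorem vx_ge {b : ℝ} (hb : 1 < b) {n d : ℕ} (hd : 1 ≤ d) (hdn : d ≤ n) {x : ℝ} (hx : 0 < x)
    (hx1 : x ≤ 1) (hdx : gm n (d - 1) < x) {r : ℕ → ℝ} (hr : IsMinD b n d r) :
    SKr b n (gm n) r ≤ Vx b x + 2 * b ^ 2 / (n + 1) := by
  have hb0 : 0 < b := by linarith
  have hn : (0 : ℝ) < (n : ℝ) + 1 := by positivity
  have key : SKr b n (gm n) r - 2 * b ^ 2 / (n + 1) ≤ Vx b x := by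
    refine le_csInf (sg_ne_V b hx1) ?_
    rintro y ⟨K, μ, p, hμ, hp, hp0, hp1, hxμ, rfl⟩
    obtain ⟨h1, h2, h3⟩ := sg_grid_path b n hμ hp hp1
    set q : ℕ → ℝ := fun l => p (gJ n K μ l) with hq
    have hq0 : ∀ l < d, q l = 0 := by
      intro l hl
      have h4 : gJ n K μ l = 0 := by
        by_contra hne
        have h5 : 1 ≤ gJ n K μ l := Nat.one_le_iff_ne_zero.2 hne
        have h6 : gm n l < μ 1 := by
          have h7 : gm n l ≤ gm n (d - 1) := grid_gm_mono (by omega)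
          linarith only [h7, hxμ, hdx]
        have h8 : 1 ≤ K := h5.trans (gJ_le n K μ l)
        have h9 := gJ_lt (n := n) hμ h8 h6
        omega
      simp only [hq, h4, hp0]
    have hB : BPath b n (fun l => b ^ 2 * q l) := by
      refine ⟨?_, ⟨?_, fun l hl => ?_⟩, ?_⟩
      · simp only [hq0 0 (by omega), mul_zero]
      · exact mul_nonneg (sq_nonneg b) h1.1
      · exact mul_le_mul_of_nonneg_left (h1.2 l hl) (sq_nonneg b)
      · have := mul_le_mul_of_nonneg_left h2 (sq_nonneg b)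
        rw [mul_one] at this
        exact this
    have h4 := hr.2.2 _ hB (fun l hl => by simp only [hq0 l hl, mul_zero])
    have h5 : SKr b n (gm n) (fun l => b ^ 2 * q l) = SKpar b n (gm n) q := by
      rw [← gap2_SKr_eq hb0]
      congr 1
      funext l
      field_simp
    rw [h5] at h4
    have h6 : b ^ 2 / (2 * ((n : ℝ) + 1)) ≤ 2 * b ^ 2 / (n + 1) := by
      rw [div_le_div_iff₀ (by positivity) (by positivity)]
      linarith only [mul_nonneg (sq_nonneg b) hn.le]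
    linarith only [h6, h4, h3]
  linarith

theorem p0_le {b : ℝ} (hb : 1 < b) {n : ℕ} {r : ℕ → ℝ} (hr : BPath b n r) :
    P0 b ≤ SKr b n (gm n) r := by
  have hb0 : 0 < b := by linarith
  rw [← gap2_SKr_eq hb0]
  refine csInf_le (sg_bdd_P hb) ⟨n, gm n, fun l => r l / b ^ 2, gm_exponents n,
    ⟨?_, fun l hl => ?_⟩, ?_, rfl⟩
  · exact div_nonneg hr.2.1.1 (by positivity)
  · exact div_le_div_of_nonneg_right (hr.2.1.2 l hl) (by positivity)
  · simp only []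
    rw [div_le_one (by positivity)]
    exact hr.2.2

theorem p0_ge {b : ℝ} (hb : 1 < b) {n : ℕ} {r : ℕ → ℝ} (hr : IsMinD b n 0 r) :
    SKr b n (gm n) r ≤ P0 b + 2 * b ^ 2 / (n + 1) := by
  have hb0 : 0 < b := by linarith
  have key : SKr b n (gm n) r - 2 * b ^ 2 / (n + 1) ≤ P0 b := by
    refine le_csInf (sg_ne_P b) ?_
    rintro y ⟨K, μ, p, hμ, hp, hp1, rfl⟩
    obtain ⟨r', hr', h1⟩ := grid_bpath hb0 n hμ hp hp1
    have h2 := hr.2.2 r' hr' (fun l hl => absurd hl (Nat.not_lt_zero l))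
    linarith
  linarith

/-- upper bound (`exp_ge5_par`) -/
theorem vx_up {b : ℝ} (hb : 1 < b) : ∃ C : ℝ, 1 ≤ C ∧ ∀ x : ℝ, 0 < x → x ≤ 1 →
    Vx b x ≤ P0 b + C * x ^ 5 := by
  obtain ⟨C, hC, h⟩ := exp_ge5_par hb.le
  refine ⟨C + 1, by linarith, fun x hx hx1 => ?_⟩
  have key : Vx b x - C * x ^ 5 ≤ P0 b := by
    refine le_csInf (sg_ne_P b) ?_
    rintro y ⟨K, m, q, hm, hq, hq1, rfl⟩
    have h1 : Vx b x ≤ SKpar b K m q + C * x ^ 5 := by
      refine le_of_forall_pos_le_add fun e he => ?_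
      obtain ⟨k', m', q', h1, h2, h3, h4, h5, h6⟩ := h x hx hx1 K m q hm hq hq1 e he
      exact (csInf_le (sg_bdd_V hb x) ⟨k', m', q', h1, h3, h4, h5, h2, rfl⟩).trans h6
    linarith
  have h2 : 0 ≤ x ^ 5 := by positivity
  linarith only [h2, key]

end Vale.Agent.P146.Sh
end

section

/-!
# P146, Sh: the limit of `(V(x) - V(0)) / x⁵`
-/

open MeasureTheory ProbabilityTheory Filter Topology Set

namespace Vale.Agent.P146.Sh

open Vale.Agent.P157.Par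
open Vale.Agent.P146.Gap
open Vale.Agent.P146.Pw2
open Vale.Agent.P146.Lb
open Vale.Agent.P367.Cl

/-- A bounded function which is almost decreasing has a limit at the origin. -/
theorem shlim_real {G : ℝ → ℝ} {c C K κ : ℝ} (hc : 0 < c) (hC : 0 ≤ C)
    (h1 : ∀ x₁ x₂, 0 < x₁ → x₁ < x₂ → x₂ < c → G x₂ ≤ G x₁ + C * √x₂)
    (h2 : ∀ x, 0 < x → x < c → G x ≤ K) (h3 : ∀ x, 0 < x → x < c → κ ≤ G x) :
    ∃ A : ℝ, κ ≤ A ∧ Tendsto G (𝓝[>] 0) (𝓝 A) := by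
  set S : Set ℝ := (fun x => G x - C * √x) '' Ioo 0 c with hS
  have hne : S.Nonempty := ⟨_, c / 2, ⟨by positivity, by linarith⟩, rfl⟩
  have hbd : BddAbove S := by
    refine ⟨K, ?_⟩
    rintro _ ⟨x, hx, rfl⟩
    have := h2 x hx.1 hx.2
    have h4 : 0 ≤ C * √x := by positivity
    simp only
    linarith
  have hup : ∀ x ∈ Ioo 0 c, G x ≤ sSup S + C * √x := by
    intro x hx
    have := le_csSup hbd ⟨x, hx, rfl⟩
    simp only at this
    linarith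
  have hlim : Tendsto G (𝓝[>] 0) (𝓝 (sSup S)) := by
    rw [tendsto_order]
    constructor
    · intro a ha
      obtain ⟨_, ⟨y, hy, rfl⟩, hay⟩ := exists_lt_of_lt_csSup hne ha
      have h5 : ∀ᶠ x in 𝓝[>] (0 : ℝ), x ∈ Ioo 0 y := Ioo_mem_nhdsGT hy.1
      filter_upwards [h5] with x hx
      have := h1 x y hx.1 hx.2 hy.2
      simp only at hay
      linarith
    · intro a ha
      have h6 : Tendsto (fun x : ℝ => sSup S + C * √x) (𝓝[>] 0) (𝓝 (sSup S)) := by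
        have h7 : Tendsto (fun x : ℝ => sSup S + C * √x) (𝓝 0) (𝓝 (sSup S + C * √0)) :=
          (Continuous.tendsto (by fun_prop) 0)
        rw [Real.sqrt_zero, mul_zero, add_zero] at h7
        exact h7.mono_left nhdsWithin_le_nhds
      have h8 : ∀ᶠ x in 𝓝[>] (0 : ℝ), x ∈ Ioo 0 c := Ioo_mem_nhdsGT hc
      filter_upwards [h6.eventually (gt_mem_nhds ha), h8] with x hx hx2
      exact (hup x hx2).trans_lt hx
  refine ⟨sSup S, ?_, hlim⟩
  refine ge_of_tendsto hlim ?_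
  have h8 : ∀ᶠ x in 𝓝[>] (0 : ℝ), x ∈ Ioo 0 c := Ioo_mem_nhdsGT hc
  filter_upwards [h8] with x hx
  exact h3 x hx.1 hx.2

/-- the level above `x` -/
noncomputable def shlimd (x : ℝ) (n : ℕ) : ℕ := ⌈x * ((n : ℝ) + 1)⌉₊

theorem shlim_ge (x : ℝ) (n : ℕ) : x ≤ gm n (shlimd x n) := by
  unfold gm shlimd
  rw [le_div_iff₀ (by positivity)]
  exact Nat.le_ceil _

theorem shlim_one {x : ℝ} (hx : 0 < x) (n : ℕ) : 1 ≤ shlimd x n := by
  unfold shlimd
  rw [Nat.one_le_ceil_iff]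
  positivity

theorem shlim_lt {x : ℝ} (hx : 0 < x) (n : ℕ) : gm n (shlimd x n - 1) < x := by
  have h1 := shlim_one hx n
  unfold gm
  rw [div_lt_iff₀ (by positivity), Nat.cast_sub h1, Nat.cast_one]
  have h2 := Nat.ceil_lt_add_one (a := x * ((n : ℝ) + 1)) (by positivity)
  unfold shlimd
  linarith

theorem shlim_mono {x y : ℝ} (h : x ≤ y) (n : ℕ) : shlimd x n ≤ shlimd y n := by
  unfold shlimd
  exact Nat.ceil_le_ceil (mul_le_mul_of_nonneg_right h (by positivity))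

theorem shlim_n1 : Tendsto (fun n : ℕ => (n : ℝ) + 1) atTop atTop :=
  tendsto_atTop_add_const_right _ _ tendsto_natCast_atTop_atTop

theorem shlim_td {x : ℝ} (hx : 0 < x) : Tendsto (fun n => gm n (shlimd x n)) atTop (𝓝 x) := by
  have h1 := (tendsto_nat_ceil_mul_div_atTop (R := ℝ) hx.le).comp shlim_n1
  exact h1

theorem shlim_le {x : ℝ} (hx : x < 1) : ∀ᶠ n : ℕ in atTop, shlimd x n ≤ n := by
  have h1 : Tendsto (fun n : ℕ => (1 - x) * ((n : ℝ) + 1)) atTop atTop :=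
    shlim_n1.const_mul_atTop (by linarith)
  filter_upwards [h1.eventually_ge_atTop 1] with n hn
  unfold shlimd
  rw [Nat.ceil_le]
  linarith

theorem shlim_big {x : ℝ} (hx : 0 < x) (C : ℝ) (k : ℕ) :
    ∀ᶠ n : ℕ in atTop, C ≤ gm n (shlimd x n) ^ k * ((n : ℝ) + 1) := by
  have h1 : Tendsto (fun n : ℕ => x ^ k * ((n : ℝ) + 1)) atTop atTop :=
    shlim_n1.const_mul_atTop (by positivity)
  filter_upwards [h1.eventually_ge_atTop C] with n hn
  refine hn.trans (mul_le_mul_of_nonneg_right ?_ (by positivity))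
  exact pow_le_pow_left₀ hx.le (shlim_ge x n) k

theorem shlim_bdd {b : ℝ} (hb : 1 < b) (x : ℝ) :
    BddBelow {y | ∃ (K : ℕ) (m q : ℕ → ℝ), Exponents K m ∧ Path K q ∧ q 0 = 0 ∧ q K ≤ 1 ∧
      x ≤ m 1 ∧ y = SKpar b K m q} := by
  refine (Ld.cor_bdd hb.le).mono ?_
  rintro y ⟨K, m, q, h1, h2, -, h3, -, rfl⟩
  exact ⟨K, m, q, h1, h2, h3, rfl⟩

theorem shlim_Vx {b : ℝ} (hb : 1 < b) {x y : ℝ} (hxy : x ≤ y) (hy : y ≤ 1) : Vx b x ≤ Vx b y := by
  refine csInf_le_csInf (shlim_bdd hb x) ?_ ?_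
  · refine ⟨_, 0, fun l => if l = 0 then 0 else 1, fun _ => 0, ⟨if_pos rfl, ?_, ?_⟩,
      ⟨le_rfl, fun _ _ => le_rfl⟩, rfl, zero_le_one, ?_, rfl⟩
    · simp
    · intro l hl
      have : l = 0 := by omega
      subst this
      simp
    · simpa using hy
  · rintro z ⟨K, m, q, h1, h2, h3, h4, h5, rfl⟩
    exact ⟨K, m, q, h1, h2, h3, h4, hxy.trans h5, rfl⟩

theorem lim_A_of {b : ℝ} (hb : 1 < b)
    (hiter : ∃ c C : ℝ, 0 < c ∧ 1 ≤ C ∧ ∀ (n d₁ d₂ : ℕ)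
      (r₀ r₁ r₂ : ℕ → ℝ), 1 ≤ d₁ → d₁ ≤ d₂ → d₂ ≤ n → IsMinD b n 0 r₀ → IsMinD b n d₁ r₁ →
      IsMinD b n d₂ r₂ → gm n d₂ ≤ c → C ≤ gm n d₁ ^ 40 * (n + 1) →
        (SKr b n (gm n) r₂ - SKr b n (gm n) r₀) / gm n d₂ ^ 5 ≤
          (SKr b n (gm n) r₁ - SKr b n (gm n) r₀) / gm n d₁ ^ 5 + C * √(gm n d₂))
    (hle : ∀ {n d : ℕ}, 1 ≤ d → d ≤ n → ∀ {r : ℕ → ℝ}, BPath b n r → (∀ l < d, r l = 0) →
      Vx b (gm n d) ≤ SKr b n (gm n) r)
    (hge : ∀ {n d : ℕ}, 1 ≤ d → d ≤ n → ∀ {x : ℝ}, 0 < x → x ≤ 1 → gm n (d - 1) < x →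
      ∀ {r : ℕ → ℝ}, IsMinD b n d r → SKr b n (gm n) r ≤ Vx b x + 2 * b ^ 2 / (n + 1))
    (hp0 : ∀ {n : ℕ} {r : ℕ → ℝ}, IsMinD b n 0 r →
      SKr b n (gm n) r ≤ P0 b + 2 * b ^ 2 / (n + 1))
    (hup : ∃ C : ℝ, 1 ≤ C ∧ ∀ x : ℝ, 0 < x → x ≤ 1 → Vx b x ≤ P0 b + C * x ^ 5) :
    ∃ A : ℝ, 0 < A ∧ Tendsto (fun x => (Vx b x - P0 b) / x ^ 5) (𝓝[>] 0) (𝓝 A) := by
  obtain ⟨c, C, hc, hC, hit⟩ := hiter
  obtain ⟨c₁, C₁, hc₁, hC₁, hl⟩ := l1 hb
  obtain ⟨K, hK, hu⟩ := hup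
  have hb0 : 0 < b := by linarith
  have hP : ∀ {n : ℕ} {r : ℕ → ℝ}, BPath b n r → P0 b ≤ SKr b n (gm n) r :=
    fun hr => Ld.cor_sInf_le hb.le hr
  have hinv : Tendsto (fun n : ℕ => 2 * b ^ 2 / ((n : ℝ) + 1)) atTop (𝓝 0) :=
    tendsto_const_nhds.div_atTop shlim_n1
  set c' := min (min c c₁) 1 with hc'
  have hc'0 : 0 < c' := by positivity
  have hex : ∃ A : ℝ, c₁ ≤ A ∧ Tendsto (fun x => (Vx b x - P0 b) / x ^ 5) (𝓝[>] 0) (𝓝 A) := by
    refine shlim_real (c := c') (C := C) (K := K) hc'0 (by linarith) ?_ ?_ ?_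
    · intro x₁ x₂ hx₁ hx hx₂
      have hx₂0 : 0 < x₂ := hx₁.trans hx
      have hxc : x₂ < c := hx₂.trans_le ((min_le_left _ _).trans (min_le_left _ _))
      have hx1 : x₂ < 1 := hx₂.trans_le (min_le_right _ _)
      have t1 := shlim_td hx₁
      have t2 := shlim_td hx₂0
      have hL : Tendsto (fun n : ℕ => (Vx b x₂ - (P0 b + 2 * b ^ 2 / ((n : ℝ) + 1))) /
          gm n (shlimd x₂ n) ^ 5) atTop (𝓝 ((Vx b x₂ - P0 b) / x₂ ^ 5)) := by
        have h1 : Tendsto (fun n : ℕ => Vx b x₂ - (P0 b + 2 * b ^ 2 / ((n : ℝ) + 1))) atTop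
            (𝓝 (Vx b x₂ - (P0 b + 0))) := (hinv.const_add (P0 b)).const_sub (Vx b x₂)
        rw [add_zero] at h1
        exact h1.div (t2.pow 5) (by positivity)
      have hR : Tendsto (fun n : ℕ => (Vx b x₁ + 2 * b ^ 2 / ((n : ℝ) + 1) - P0 b) /
          gm n (shlimd x₁ n) ^ 5 + C * √(gm n (shlimd x₂ n))) atTop
          (𝓝 ((Vx b x₁ - P0 b) / x₁ ^ 5 + C * √x₂)) := by
        have h1 : Tendsto (fun n : ℕ => Vx b x₁ + 2 * b ^ 2 / ((n : ℝ) + 1) - P0 b) atTop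
            (𝓝 (Vx b x₁ + 0 - P0 b)) := (hinv.const_add (Vx b x₁)).sub_const (P0 b)
        rw [add_zero] at h1
        exact (h1.div (t1.pow 5) (by positivity)).add ((t2.sqrt).const_mul C)
      refine le_of_tendsto_of_tendsto hL hR ?_
      filter_upwards [shlim_le hx1, shlim_big hx₁ C 40, t2.eventually (gt_mem_nhds hxc)]
        with n h1 h2 h3
      obtain ⟨r₀, hr₀⟩ := exists_minD (n := n) (d := 0) hb0 (Nat.zero_le _)
      have hd := shlim_mono hx.le n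
      obtain ⟨r₁, hr₁⟩ := exists_minD (n := n) (d := shlimd x₁ n) hb0 (hd.trans h1)
      obtain ⟨r₂, hr₂⟩ := exists_minD (n := n) (d := shlimd x₂ n) hb0 h1
      have h4 := hit n _ _ r₀ r₁ r₂ (shlim_one hx₁ n) hd h1 hr₀ hr₁ hr₂ h3.le h2
      have g1 : 0 < gm n (shlimd x₁ n) := hx₁.trans_le (shlim_ge _ _)
      have g2 : 0 < gm n (shlimd x₂ n) := hx₂0.trans_le (shlim_ge _ _)
      have g2' : gm n (shlimd x₂ n) ≤ 1 := by
        unfold gm
        rw [div_le_one (by positivity)]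
        have : ((shlimd x₂ n : ℕ) : ℝ) ≤ n := by exact_mod_cast h1
        linarith
      have e1 : Vx b x₂ ≤ SKr b n (gm n) r₂ :=
        (shlim_Vx hb (shlim_ge x₂ n) g2').trans (hle (shlim_one hx₂0 n) h1 hr₂.1 hr₂.2.1)
      have e2 := hge (shlim_one hx₁ n) (hd.trans h1) hx₁ (hx.trans hx1).le (shlim_lt hx₁ n) hr₁
      have e3 := hp0 hr₀
      have e4 := hP hr₀.1
      have e5 : (Vx b x₂ - (P0 b + 2 * b ^ 2 / ((n : ℝ) + 1))) / gm n (shlimd x₂ n) ^ 5 ≤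
          (SKr b n (gm n) r₂ - SKr b n (gm n) r₀) / gm n (shlimd x₂ n) ^ 5 := by
        refine div_le_div_of_nonneg_right ?_ (by positivity)
        linarith only [e3, e1]
      have e6 : (SKr b n (gm n) r₁ - SKr b n (gm n) r₀) / gm n (shlimd x₁ n) ^ 5 ≤
          (Vx b x₁ + 2 * b ^ 2 / ((n : ℝ) + 1) - P0 b) / gm n (shlimd x₁ n) ^ 5 := by
        refine div_le_div_of_nonneg_right ?_ (by positivity)
        linarith only [e4, e2]
      linarith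
    · intro x hx hxc
      have hx1 : x < 1 := hxc.trans_le (min_le_right _ _)
      rw [div_le_iff₀ (by positivity)]
      linarith [hu x hx hx1.le]
    · intro x hx hxc
      have hx1 : x < 1 := hxc.trans_le (min_le_right _ _)
      have hxc₁ : x < c₁ := hxc.trans_le ((min_le_left _ _).trans (min_le_right _ _))
      rw [le_div_iff₀ (by positivity)]
      have t := shlim_td hx
      have hL : Tendsto (fun n : ℕ => P0 b + c₁ * gm n (shlimd x n) ^ 5) atTop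
          (𝓝 (P0 b + c₁ * x ^ 5)) := ((t.pow 5).const_mul c₁).const_add _
      have hR : Tendsto (fun n : ℕ => Vx b x + 2 * b ^ 2 / ((n : ℝ) + 1)) atTop (𝓝 (Vx b x)) := by
        have := hinv.const_add (Vx b x)
        rwa [add_zero] at this
      have h5 : P0 b + c₁ * x ^ 5 ≤ Vx b x := by
        refine le_of_tendsto_of_tendsto hL hR ?_
        filter_upwards [shlim_le hx1, shlim_big hx C₁ 8, t.eventually (gt_mem_nhds hxc₁)]
          with n h1 h2 h3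
        obtain ⟨r', hr', hq⟩ := hl n _ (shlim_one hx n) h1 h3.le h2
        obtain ⟨r, hr⟩ := exists_minD (n := n) (d := shlimd x n) hb0 h1
        have h4 := hq (fun l => r l / b ^ 2) ⟨by
          have := hr.1.1
          simp only [this, zero_div, le_refl], fun l hl' => by
          exact div_le_div_of_nonneg_right (hr.1.2.1.2 l hl') (by positivity)⟩ (by
          rw [div_le_one (by positivity)]
          exact hr.1.2.2) (fun l hl' => by simp only [hr.2.1 l hl', zero_div])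
        rw [gap2_SKr_eq hb0] at h4
        have h6 := hge (shlim_one hx n) h1 hx hx1.le (shlim_lt hx n) hr
        have h7 := hP hr'
        linarith only [h7, h6, h4]
      linarith
  obtain ⟨A, hA, hlim⟩ := hex
  exact ⟨A, hc₁.trans_le hA, hlim⟩

theorem lim_A {b : ℝ} (hb : 1 < b) : ∃ A : ℝ, 0 < A ∧
    Tendsto (fun x => (Vx b x - P0 b) / x ^ 5) (𝓝[>] 0) (𝓝 A) :=
  lim_A_of hb (iter hb) (fun h1 h2 _ h3 h4 => vx_le hb h1 h2 h3 h4)
    (fun h1 h2 _ h3 h4 h5 _ h6 => vx_ge hb h1 h2 h3 h4 h5 h6) (fun h => p0_ge hb h) (vx_up hb)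

end Vale.Agent.P146.Sh
end

section

/-!
# P146, Sh: the sharp constant of the exponential moments
-/

open MeasureTheory ProbabilityTheory Filter Topology Set

namespace Vale.Agent.P146.Sh

open Vale.Agent.P157.Par
open Vale.Agent.P146.Gap
open Vale.Agent.P146.Pw2
open Vale.Agent.P146.Lb
open Vale.Agent.P367.Cl

/-- the Parisi value -/
theorem shfin_pv (β : ℝ) : Sx.pv β = Real.log 2 + P0 β := rfl

/-- the set of the constrained values is not empty -/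
theorem shfin_ne {β x : ℝ} (hx1 : x ≤ 1) :
    {y | ∃ (K : ℕ) (m q : ℕ → ℝ), Exponents K m ∧ Path K q ∧ q 0 = 0 ∧ q K ≤ 1 ∧ x ≤ m 1 ∧
      y = SKpar β K m q}.Nonempty := by
  refine ⟨_, 0, fun l => if l = 0 then 0 else 1, fun _ => 0, ⟨if_pos rfl, ?_, ?_⟩,
    ⟨le_rfl, fun _ _ => le_rfl⟩, rfl, zero_le_one, ?_, rfl⟩
  · simp
  · intro l hl
    have : l = 0 := by omega
    subst this
    simp
  · simpa using hx1

/-- Guerra's bound -/
theorem shfin_up {β : ℝ} (hβ : 0 < β) {n : ℕ} (hn : 1 ≤ n) {x : ℝ} (hx : 0 < x) (hx1 : x ≤ 1) :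
    Real.log (∫ g, Real.exp (x * freeEnergy n β g) ∂(disorder n)) ≤
      x * n * (Real.log 2 + Vx β x) := by
  have hn0 : (0 : ℝ) < n := by exact_mod_cast hn
  have h1 : Real.log (∫ g, Real.exp (x * freeEnergy n β g) ∂(disorder n)) / (x * n) -
      Real.log 2 ≤ Vx β x := by
    refine le_csInf (shfin_ne hx1) ?_
    rintro y ⟨K, m, q, hm, hq, hq0, hq1, hxm, rfl⟩
    have h := Ub.guerra hβ hn hm hq hq0 hq1 hx hxm
    rw [sub_le_iff_le_add, div_le_iff₀ (by positivity)]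
    linarith
  rw [sub_le_iff_le_add, div_le_iff₀ (by positivity)] at h1
  linarith

/-- the lower bound at a point of the grid -/
theorem shfin_dn {β : ℝ} (hβ : 1 < β) : ∃ C : ℝ, 0 ≤ C ∧ ∀ K d : ℕ, 1 ≤ d → d ≤ K →
    ∀ n : ℕ, (K + 1) ^ 18 ≤ n → n * (Real.log 2 + Vx β (gm K d)) ≤
      1 / gm K d * Real.log (∫ g, Real.exp (gm K d * freeEnergy n β g) ∂(disorder n)) +
        C * (n / √((K : ℝ) + 1)) := by
  obtain ⟨C, hC, h⟩ := Ub.Ld.rate_lower_d (β := β) (by linarith)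
  refine ⟨C, hC, fun K d hd1 hd n hn => ?_⟩
  have h1 := h K d (Vx β (gm K d)) hd1 hd (fun q hq hq1 hq0 => by
    rw [Ld.cor_me]
    have hb : 0 < β := by linarith
    have hr : BPath β K (fun l => β ^ 2 * q l) := by
      refine ⟨?_, ⟨?_, ?_⟩, ?_⟩
      · simp only
        rw [hq0 0 (by omega), mul_zero]
      · simp only
        have := hq.1
        positivity
      · intro l hl
        simp only
        have := hq.2 l hl
        gcongr
      · simp only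
        have h2 : 0 ≤ β ^ 2 := by positivity
        linarith only [mul_nonneg (sub_nonneg.2 hq1) (sub_nonneg.2 h2)]
    have h2 := vx_le hβ hd1 hd hr (fun l hl => by rw [hq0 l hl, mul_zero])
    rw [← gap2_SKr_eq hb] at h2
    have e : (fun l => β ^ 2 * q l / β ^ 2) = q := by
      funext l
      field_simp
    simp only [e] at h2
    exact h2) n hn
  rw [Ld.cor_me] at h1
  push_cast at h1
  exact h1

/-- points of the grid -/
theorem shfin_pt {x : ℝ} (hx : 0 < x) (hx1 : x ≤ 1 / 2) {δ M : ℝ} (hδ : 0 < δ) :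
    ∃ K d : ℕ, 1 ≤ d ∧ d ≤ K ∧ gm K d ≤ x ∧ 0 < gm K d ∧ x ^ 5 - δ ≤ gm K d ^ 5 ∧
      M ≤ √((K : ℝ) + 1) := by
  have t1 : Tendsto (fun K : ℕ => ((⌊x * ((K : ℝ) + 1)⌋₊ : ℕ) : ℝ) / ((K : ℝ) + 1)) atTop
      (𝓝 x) := by
    have h1 : Tendsto (fun K : ℕ => (K : ℝ) + 1) atTop atTop :=
      tendsto_atTop_add_const_right _ _ tendsto_natCast_atTop_atTop
    exact (tendsto_nat_floor_mul_div_atTop (R := ℝ) hx.le).comp h1
  have t2 := t1.pow 5
  have e1 : ∀ᶠ K : ℕ in atTop, x ^ 5 - δ ≤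
      (((⌊x * ((K : ℝ) + 1)⌋₊ : ℕ) : ℝ) / ((K : ℝ) + 1)) ^ 5 :=
    (t2.eventually (lt_mem_nhds (by linarith : x ^ 5 - δ < x ^ 5))).mono fun _ h => h.le
  have e2 : ∀ᶠ K : ℕ in atTop, M ≤ √((K : ℝ) + 1) := by
    have h1 : Tendsto (fun K : ℕ => √((K : ℝ) + 1)) atTop atTop :=
      Real.tendsto_sqrt_atTop.comp
        (tendsto_atTop_add_const_right _ _ tendsto_natCast_atTop_atTop)
    exact h1.eventually_ge_atTop M
  have e3 : ∀ᶠ K : ℕ in atTop, 1 / x ≤ (K : ℝ) :=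
    tendsto_natCast_atTop_atTop.eventually_ge_atTop _
  obtain ⟨K, h1, h2, h3⟩ := (e1.and (e2.and e3)).exists
  have hK0 : (0 : ℝ) ≤ K := Nat.cast_nonneg K
  have hK1 : (0 : ℝ) < (K : ℝ) + 1 := by linarith
  obtain ⟨d, hd⟩ : ∃ d : ℕ, d = ⌊x * ((K : ℝ) + 1)⌋₊ := ⟨_, rfl⟩
  rw [← hd] at h1
  have hxK : 1 ≤ x * K := by
    rw [div_le_iff₀ hx] at h3
    linarith only [h3]
  have hd1 : 1 ≤ d := by
    rw [hd]
    refine Nat.le_floor ?_
    push_cast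
    linarith only [hxK, hx]
  have hdx : (d : ℝ) ≤ x * ((K : ℝ) + 1) := by
    rw [hd]
    exact Nat.floor_le (by positivity)
  have hdK : d ≤ K := by
    have h4 : (1 : ℝ) ≤ K := by nlinarith
    have h5 : (d : ℝ) ≤ K := by nlinarith
    exact_mod_cast h5
  have hd0 : (0 : ℝ) < d := by exact_mod_cast hd1
  refine ⟨K, d, hd1, hdK, ?_, ?_, h1, h2⟩
  · unfold gm
    rw [div_le_iff₀ hK1]
    exact hdx
  · unfold gm
    (clear * - hd1; positivity)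

/-- **The sharp constant of the exponential moments.** -/
theorem sharp_moment {β : ℝ} (hβ : 1 < β) : ∃ A : ℝ, 0 < A ∧ ∀ ε : ℝ, 0 < ε → ∃ x₀ : ℝ, 0 < x₀ ∧
    ∀ x : ℝ, 0 < x → x ≤ x₀ → ∀ᶠ n : ℕ in atTop,
      |Real.log (∫ g, Real.exp (x * freeEnergy n β g) ∂(disorder n)) - x * (n * Sx.pv β) -
        A * n * x ^ 6| ≤ ε * n * x ^ 6 := by
  obtain ⟨A, hA, hlim⟩ := lim_A hβ
  obtain ⟨C, hC, hdn⟩ := shfin_dn hβ
  refine ⟨A, hA, fun ε hε => ?_⟩
  have h1 : ∀ᶠ x in 𝓝[>] (0 : ℝ), |(Vx β x - P0 β) / x ^ 5 - A| < ε / 4 := by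
    have := hlim.eventually (Metric.ball_mem_nhds A (by positivity : 0 < ε / 4))
    simpa [Real.dist_eq] using this
  obtain ⟨u, hu, h2⟩ := mem_nhdsGT_iff_exists_Ioo_subset.1 h1
  have hu0 : 0 < u := hu
  have hV : ∀ x, 0 < x → x < u → |Vx β x - P0 β - A * x ^ 5| ≤ ε / 4 * x ^ 5 := by
    intro x hx hxu
    have h3 : |(Vx β x - P0 β) / x ^ 5 - A| < ε / 4 := h2 ⟨hx, hxu⟩
    have hx5 : 0 < x ^ 5 := by positivity
    have e : Vx β x - P0 β - A * x ^ 5 = ((Vx β x - P0 β) / x ^ 5 - A) * x ^ 5 := by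
      field_simp
    rw [e, abs_mul, abs_of_pos hx5]
    exact mul_le_mul_of_nonneg_right h3.le hx5.le
  refine ⟨min (u / 2) (1 / 2), lt_min (by positivity) (by norm_num), fun x hx hxx => ?_⟩
  have hxu : x < u := by
    have := hxx.trans (min_le_left _ _)
    linarith
  have hx2 : x ≤ 1 / 2 := hxx.trans (min_le_right _ _)
  have hx5 : 0 < x ^ 5 := by positivity
  obtain ⟨K, d, hd1, hdK, hdx, hd0, hd5, hM⟩ := shfin_pt (δ := ε / (4 * A) * x ^ 5)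
    (M := 4 * C / (ε * x ^ 5)) hx hx2 (by positivity)
  filter_upwards [eventually_ge_atTop ((K + 1) ^ 18)] with n hn
  have hn1 : 1 ≤ n := le_trans (Nat.one_le_pow _ _ (by omega)) hn
  have hn0 : (0 : ℝ) < n := by exact_mod_cast hn1
  have hup := shfin_up (by linarith only [hd0, hdx, hx2, hβ] : 0 < β) hn1 hx (by linarith only [hd0, hdx, hx2])
  have hVx := abs_le.1 (hV x hx hxu)
  rw [shfin_pv, abs_le]
  constructor
  · -- the lower bound
    have h3 := hdn K d hd1 hdK n hn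
    obtain ⟨y, hy⟩ : ∃ y : ℝ, y = gm K d := ⟨_, rfl⟩
    rw [← hy] at h3 hdx hd0 hd5
    have hVy := (abs_le.1 (hV y hd0 (lt_of_le_of_lt hdx hxu))).1
    have hmono := Ld.cor_mono (μ := disorder n) (X := freeEnergy n β)
      (fun x => Sx.integrable_exp n β x) hd0 hdx
    have hy5 : y ^ 5 ≤ x ^ 5 := pow_le_pow_left₀ hd0.le hdx 5
    have hA5 : A * x ^ 5 - ε / 4 * x ^ 5 ≤ A * y ^ 5 := by
      have h4 := mul_le_mul_of_nonneg_left hd5 hA.le
      have e : A * (x ^ 5 - ε / (4 * A) * x ^ 5) = A * x ^ 5 - ε / 4 * x ^ 5 := by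
        field_simp
      linarith only [e, h4]
    have hε5 : ε / 4 * y ^ 5 ≤ ε / 4 * x ^ 5 := mul_le_mul_of_nonneg_left hy5 (by positivity)
    have hK0 : (0 : ℝ) < √((K : ℝ) + 1) := Real.sqrt_pos.2 (by positivity)
    have herr : C * (n / √((K : ℝ) + 1)) ≤ ε / 4 * x ^ 5 * n := by
      rw [div_le_iff₀ (by positivity)] at hM
      have h4 : C ≤ ε / 4 * x ^ 5 * √((K : ℝ) + 1) := by linarith only [hM]
      have h5 : C * (n / √((K : ℝ) + 1)) ≤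
          ε / 4 * x ^ 5 * √((K : ℝ) + 1) * (n / √((K : ℝ) + 1)) :=
        mul_le_mul_of_nonneg_right h4 (by positivity)
      refine h5.trans (le_of_eq ?_)
      field_simp
    have h6 : (n : ℝ) * (Real.log 2 + P0 β) + n * (A * x ^ 5) - n * (3 / 4 * ε * x ^ 5) ≤
        1 / x * Real.log (∫ g, Real.exp (x * freeEnergy n β g) ∂(disorder n)) := by
      have h7 : (n : ℝ) * (P0 β + A * x ^ 5 - ε / 2 * x ^ 5) ≤ n * Vx β y :=
        mul_le_mul_of_nonneg_left (by linarith only [hε5, hA5, hVy]) hn0.le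
      have h8 : (n : ℝ) * (Real.log 2 + Vx β y) = n * Real.log 2 + n * Vx β y := by ring
      rw [h8] at h3
      linarith only [h7, herr, hmono, h3]
    have h9 := mul_le_mul_of_nonneg_left h6 hx.le
    have e1 : x * (1 / x * Real.log (∫ g, Real.exp (x * freeEnergy n β g) ∂(disorder n))) =
        Real.log (∫ g, Real.exp (x * freeEnergy n β g) ∂(disorder n)) := by
      field_simp
    rw [e1] at h9
    have h10 : 0 ≤ ε * n * x ^ 6 := by positivity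
    have e2 : x * (n * (Real.log 2 + P0 β) + n * (A * x ^ 5) - n * (3 / 4 * ε * x ^ 5)) =
        x * (n * (Real.log 2 + P0 β)) + A * n * x ^ 6 - 3 / 4 * (ε * n * x ^ 6) := by ring
    rw [e2] at h9
    linarith only [h10, h9]
  · -- the upper bound
    have h3 : x * n * (Real.log 2 + Vx β x) ≤
        x * n * (Real.log 2 + (P0 β + A * x ^ 5 + ε / 4 * x ^ 5)) :=
      mul_le_mul_of_nonneg_left (by linarith) (by positivity)
    have h10 : 0 ≤ ε * n * x ^ 6 := by positivity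
    have e2 : x * n * (Real.log 2 + (P0 β + A * x ^ 5 + ε / 4 * x ^ 5)) =
        x * (n * (Real.log 2 + P0 β)) + A * n * x ^ 6 + 1 / 4 * (ε * n * x ^ 6) := by ring
    rw [e2] at h3
    linarith only [h10, h3, hup]

end Vale.Agent.P146.Sh
end

section

/-!
# P146, Sh: the sharp constant of the exponential moments, uniformly down to a power of `n`
-/

open MeasureTheory ProbabilityTheory Filter Topology Set

namespace Vale.Agent.P146.Sh

open Vale.Agent.P157.Par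
open Vale.Agent.P146.Gap
open Vale.Agent.P146.Pw2
open Vale.Agent.P146.Lb
open Vale.Agent.P367.Cl

/-- a point of the grid just below `x` -/
theorem shfu_pt {z x : ℝ} (hz : 2 ≤ z) (hx : 1 / z ^ 9 ≤ x) (hx2 : x ≤ 1 / 2) :
    ∃ K d : ℕ, 1 ≤ d ∧ d ≤ K ∧ ((K : ℝ) + 1) ≤ z ^ 100 ∧ z ^ 100 / 2 ≤ (K : ℝ) + 1 ∧
      x * (1 - 2 / z) ≤ gm K d ∧ gm K d ≤ x := by
  have hz0 : 0 < z := by linarith
  have hz1 : 1 ≤ z := by linarith
  have hx0 : 0 < x := lt_of_lt_of_le (by positivity) hx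
  obtain ⟨k, hk⟩ : ∃ k : ℕ, k = ⌊z ^ 100⌋₊ := ⟨_, rfl⟩
  have hZ2 : 2 ≤ z ^ 100 := hz.trans (le_self_pow₀ hz1 (by norm_num))
  have hk1 : (k : ℝ) ≤ z ^ 100 := by rw [hk]; exact Nat.floor_le (by positivity)
  have hk2 : z ^ 100 / 2 ≤ k := by
    have := Nat.lt_floor_add_one (z ^ 100)
    rw [← hk] at this
    linarith only [this, hZ2]
  have hk0 : 1 ≤ k := by
    have : (0 : ℝ) < k := by linarith
    exact_mod_cast this
  have hxk0 : z / 2 ≤ x * k := by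
    have h1 : 1 / z ^ 9 * (z ^ 100 / 2) ≤ x * k :=
      mul_le_mul hx hk2 (by positivity) hx0.le
    have h2 : 1 / z ^ 9 * (z ^ 100 / 2) = z ^ 91 / 2 := by field_simp
    have h3 : z ≤ z ^ 91 := le_self_pow₀ hz1 (by norm_num)
    rw [h2] at h1
    linarith only [h3, h1]
  have hxk : 1 ≤ x * k := by linarith only [hxk0, hz]
  obtain ⟨d, hd⟩ : ∃ d : ℕ, d = ⌊x * k⌋₊ := ⟨_, rfl⟩
  have hd1 : (d : ℝ) ≤ x * k := by rw [hd]; exact Nat.floor_le (by positivity)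
  have hd0 : 1 ≤ d := by rw [hd]; exact Nat.le_floor (by exact_mod_cast hxk)
  have hd2 : x * k - 1 ≤ d := by
    have h1 := Nat.lt_floor_add_one (x * k)
    rw [← hd] at h1
    linarith only [h1]
  have hk0' : (0 : ℝ) < k := by exact_mod_cast hk0
  have hdk : d < k := by
    have : (d : ℝ) < k := by (by_contra nlg; linarith only [nlg, mul_nonneg (sub_nonneg.2 hd1) (sub_nonneg.2 hd2), mul_nonneg (sub_nonneg.2 hd1) (sub_nonneg.2 hd1), mul_nonneg (sub_nonneg.2 hxk) (sub_nonneg.2 hd2), mul_nonneg (sub_nonneg.2 hxk) (sub_nonneg.2 hd1), mul_nonneg (sub_nonneg.2 hx2) (le_of_lt (sub_pos.2 hk0')), mul_nonneg (sub_nonneg.2 (not_lt.1 nlg)) (sub_nonneg.2 hd2), mul_nonneg (sub_nonneg.2 (not_lt.1 nlg)) (sub_nonneg.2 hd1)])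
    exact_mod_cast this
  have hK : ((k - 1 : ℕ) : ℝ) + 1 = k := by
    rw [Nat.cast_sub hk0]; simp
  refine ⟨k - 1, d, hd0, by omega, by rw [hK]; exact hk1, by rw [hK]; exact hk2, ?_, ?_⟩
  · unfold gm
    rw [hK, le_div_iff₀ hk0']
    have h1 : 1 ≤ 2 / z * (x * k) := by
      have h2 : 2 / z * (z / 2) ≤ 2 / z * (x * k) :=
        mul_le_mul_of_nonneg_left hxk0 (by positivity)
      have h3 : 2 / z * (z / 2) = 1 := by field_simp
      linarith only [h3, h2]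
    have h2 : x * (1 - 2 / z) * k = x * k - 2 / z * (x * k) := by ring
    rw [h2]
    linarith only [h1, hd2]
  · unfold gm
    rw [hK, div_le_iff₀ hk0']
    exact hd1

/-- **The sharp constant of the exponential moments, uniformly in `x ≥ n ^ (-1/200)`.** -/
theorem sharp_moment_u_of {β : ℝ} (hβ : 1 < β) {A : ℝ} (hA : 0 < A)
    (hlim : Tendsto (fun x => (Vx β x - P0 β) / x ^ 5) (𝓝[>] 0) (𝓝 A)) {ε : ℝ} (hε : 0 < ε) :
    ∃ x₀ : ℝ, 0 < x₀ ∧ ∃ N : ℕ, ∀ n ≥ N, ∀ x : ℝ, (n : ℝ) ^ (-(1 / 200) : ℝ) ≤ x → x ≤ x₀ →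
      |Real.log (∫ g, Real.exp (x * freeEnergy n β g) ∂(disorder n)) - x * (n * Sx.pv β) -
        A * n * x ^ 6| ≤ ε * n * x ^ 6 := by
  obtain ⟨C, hC, hdn⟩ := shfin_dn hβ
  have h1 : ∀ᶠ x in 𝓝[>] (0 : ℝ), |(Vx β x - P0 β) / x ^ 5 - A| < ε / 4 := by
    have := hlim.eventually (Metric.ball_mem_nhds A (by positivity : 0 < ε / 4))
    simpa [Real.dist_eq] using this
  obtain ⟨u, hu, h2⟩ := mem_nhdsGT_iff_exists_Ioo_subset.1 h1
  have hu0 : 0 < u := hu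
  have hV : ∀ x, 0 < x → x < u → |Vx β x - P0 β - A * x ^ 5| ≤ ε / 4 * x ^ 5 := by
    intro x hx hxu
    have h3 : |(Vx β x - P0 β) / x ^ 5 - A| < ε / 4 := h2 ⟨hx, hxu⟩
    have hx5 : 0 < x ^ 5 := by positivity
    have e : Vx β x - P0 β - A * x ^ 5 = ((Vx β x - P0 β) / x ^ 5 - A) * x ^ 5 := by
      field_simp
    rw [e, abs_mul, abs_of_pos hx5]
    exact mul_le_mul_of_nonneg_right h3.le hx5.le
  have ht : Tendsto (fun n : ℕ => (n : ℝ) ^ (1 / 1800 : ℝ)) atTop atTop :=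
    (tendsto_rpow_atTop (by norm_num)).comp tendsto_natCast_atTop_atTop
  obtain ⟨M, hM⟩ : ∃ M : ℝ, M = 2 + 40 * A / ε + 8 * C / ε := ⟨_, rfl⟩
  have hM1 : 0 ≤ 40 * A / ε := by positivity
  have hM2 : 0 ≤ 8 * C / ε := by positivity
  obtain ⟨N, hN⟩ := eventually_atTop.1 ((ht.eventually_ge_atTop M).and (eventually_ge_atTop 1))
  refine ⟨min (u / 2) (1 / 2), lt_min (by positivity) (by norm_num), N,
    fun n hn x hx hxx => ?_⟩
  obtain ⟨hzM, hn1⟩ := hN n hn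
  have hn0 : (0 : ℝ) < n := by exact_mod_cast (by omega : 0 < n)
  obtain ⟨z, hz⟩ : ∃ z : ℝ, z = (n : ℝ) ^ (1 / 1800 : ℝ) := ⟨_, rfl⟩
  rw [← hz] at hzM
  have hz2 : 2 ≤ z := by linarith only [hzM, hM2, hM1, hM]
  have hz1 : 1 ≤ z := by linarith only [hz2]
  have hz0 : 0 < z := by linarith only [hz2]
  have hzn : z ^ 1800 = n := by
    rw [hz, ← Real.rpow_natCast, ← Real.rpow_mul hn0.le]
    norm_num
  have hz9 : (n : ℝ) ^ (-(1 / 200) : ℝ) = 1 / z ^ 9 := by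
    have e : (1 / 1800 : ℝ) * ((9 : ℕ) : ℝ) = 1 / 200 := by norm_num
    rw [Real.rpow_neg hn0.le, hz, ← Real.rpow_natCast, ← Real.rpow_mul hn0.le, e,
      ← one_div ((n : ℝ) ^ (1 / 200 : ℝ))]
  rw [hz9] at hx
  have hxu : x < u := by
    have := hxx.trans (min_le_left _ _)
    linarith only [this, hu0]
  have hx2 : x ≤ 1 / 2 := hxx.trans (min_le_right _ _)
  have hx0 : 0 < x := lt_of_lt_of_le (by positivity) hx
  have hx5 : 0 < x ^ 5 := by positivity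
  have hup := shfin_up (by linarith only [hx0, hx2, hβ] : 0 < β) hn1 hx0 (by linarith only [hx0, hx2])
  have hVx := abs_le.1 (hV x hx0 hxu)
  rw [shfin_pv, abs_le]
  constructor
  · -- the lower bound
    obtain ⟨K, d, hd1, hdK, hK1, hK2, hdx5, hdx⟩ := shfu_pt hz2 hx hx2
    have hK0 : (0 : ℝ) < (K : ℝ) + 1 := by positivity
    have hpow : (K + 1) ^ 18 ≤ n := by
      have h1 : ((K : ℝ) + 1) ^ 18 ≤ (z ^ 100) ^ 18 := pow_le_pow_left₀ hK0.le hK1 18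
      have h2 : (z ^ 100) ^ 18 = n := by rw [← hzn, ← pow_mul]
      rw [h2] at h1
      exact_mod_cast h1
    have h3 := hdn K d hd1 hdK n hpow
    have hd0 : 0 < gm K d := by
      have : (0 : ℝ) < d := by exact_mod_cast hd1
      unfold gm
      (clear * - hd1; positivity)
    obtain ⟨y, hy⟩ : ∃ y : ℝ, y = gm K d := ⟨_, rfl⟩
    rw [← hy] at h3 hdx hd0 hdx5
    have hVy := (abs_le.1 (hV y hd0 (lt_of_le_of_lt hdx hxu))).1
    have hmono := Ld.cor_mono (μ := disorder n) (X := freeEnergy n β)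
      (fun x => Sx.integrable_exp n β x) hd0 hdx
    have hy5 : y ^ 5 ≤ x ^ 5 := pow_le_pow_left₀ hd0.le hdx 5
    have hz21 : 2 / z ≤ 1 := by
      rw [div_le_one hz0]
      exact hz2
    have hA5 : A * x ^ 5 - ε / 4 * x ^ 5 ≤ A * y ^ 5 := by
      have h4 : (x * (1 - 2 / z)) ^ 5 ≤ y ^ 5 :=
        pow_le_pow_left₀ (mul_nonneg hx0.le (by linarith only [hz21])) hdx5 5
      have h5 : 1 + ((5 : ℕ) : ℝ) * (-(2 / z)) ≤ (1 + -(2 / z)) ^ 5 :=
        one_add_mul_le_pow (by linarith only [hz21, hdx, hd0, hx2]) 5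
      have h6 : x ^ 5 * (1 - 10 / z) ≤ y ^ 5 := by
        refine le_trans ?_ h4
        rw [mul_pow]
        refine mul_le_mul_of_nonneg_left ?_ hx5.le
        have e1 : 1 + ((5 : ℕ) : ℝ) * (-(2 / z)) = 1 - 10 / z := by push_cast; ring
        have e2 : (1 + -(2 / z)) ^ 5 = (1 - 2 / z) ^ 5 := by ring
        rw [e1, e2] at h5
        exact h5
      have h7 : A * (10 / z) ≤ ε / 4 := by
        have h8 : 40 * A / ε ≤ z := by linarith only [hdx, hd0, hx2, hzM, hM2, hM]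
        rw [div_le_iff₀ hε] at h8
        rw [mul_div_assoc', div_le_iff₀ hz0]
        linarith only [h8]
      have h8 := mul_le_mul_of_nonneg_left h6 hA.le
      have h9 := mul_le_mul_of_nonneg_right h7 hx5.le
      have e : A * (x ^ 5 * (1 - 10 / z)) = A * x ^ 5 - A * (10 / z) * x ^ 5 := by ring
      rw [e] at h8
      linarith only [h9, h8]
    have hε5 : ε / 4 * y ^ 5 ≤ ε / 4 * x ^ 5 := mul_le_mul_of_nonneg_left hy5 (by positivity)
    have herr : C * (n / √((K : ℝ) + 1)) ≤ ε / 4 * x ^ 5 * n := by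
      have h2 : z ^ 50 / 2 ≤ √((K : ℝ) + 1) := by
        rw [Real.le_sqrt (by positivity) hK0.le]
        have h3 : (z ^ 50 / 2) ^ 2 = z ^ 100 / 4 := by ring
        have h4 : 0 < z ^ 100 := by positivity
        rw [h3]
        linarith only [hdx, hd0, hK0, hK2, hx2]
      have h3 : n / √((K : ℝ) + 1) ≤ n / (z ^ 50 / 2) :=
        div_le_div_of_nonneg_left hn0.le (by positivity) h2
      have h4 : C * (n / (z ^ 50 / 2)) ≤ ε / 4 * (1 / z ^ 9) ^ 5 * n := by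
        have h5 : ε / 4 * (1 / z ^ 9) ^ 5 * n = n / z ^ 50 * (ε / 4 * z ^ 5) := by
          field_simp
        have h6 : C * (n / (z ^ 50 / 2)) = n / z ^ 50 * (2 * C) := by
          field_simp
        rw [h5, h6]
        refine mul_le_mul_of_nonneg_left ?_ (by positivity)
        have h7 : z ≤ z ^ 5 := le_self_pow₀ hz1 (by norm_num)
        have h8 : 8 * C / ε ≤ z ^ 5 := by linarith only [h7, hdx, hd0, hx2, hzM, hM1, hM]
        rw [div_le_iff₀ hε] at h8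
        linarith only [h8]
      have h5 : ε / 4 * (1 / z ^ 9) ^ 5 * n ≤ ε / 4 * x ^ 5 * n := by
        have h6 : (1 / z ^ 9) ^ 5 ≤ x ^ 5 := pow_le_pow_left₀ (by positivity) hx 5
        gcongr
      exact (mul_le_mul_of_nonneg_left h3 hC).trans (h4.trans h5)
    have h6 : (n : ℝ) * (Real.log 2 + P0 β) + n * (A * x ^ 5) - n * (3 / 4 * ε * x ^ 5) ≤
        1 / x * Real.log (∫ g, Real.exp (x * freeEnergy n β g) ∂(disorder n)) := by
      have h7 : (n : ℝ) * (P0 β + A * x ^ 5 - ε / 2 * x ^ 5) ≤ n * Vx β y :=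
        mul_le_mul_of_nonneg_left (by linarith only [hε5, hA5, hVy]) hn0.le
      have h8 : (n : ℝ) * (Real.log 2 + Vx β y) = n * Real.log 2 + n * Vx β y := by ring
      rw [h8] at h3
      linarith only [h7, herr, hmono, h3]
    have h9 := mul_le_mul_of_nonneg_left h6 hx0.le
    have e1 : x * (1 / x * Real.log (∫ g, Real.exp (x * freeEnergy n β g) ∂(disorder n))) =
        Real.log (∫ g, Real.exp (x * freeEnergy n β g) ∂(disorder n)) := by
      field_simp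
    rw [e1] at h9
    have h10 : 0 ≤ ε * n * x ^ 6 := by positivity
    have e2 : x * (n * (Real.log 2 + P0 β) + n * (A * x ^ 5) - n * (3 / 4 * ε * x ^ 5)) =
        x * (n * (Real.log 2 + P0 β)) + A * n * x ^ 6 - 3 / 4 * (ε * n * x ^ 6) := by ring
    rw [e2] at h9
    linarith only [h10, h9]
  · -- the upper bound
    have h3 : x * n * (Real.log 2 + Vx β x) ≤
        x * n * (Real.log 2 + (P0 β + A * x ^ 5 + ε / 4 * x ^ 5)) :=
      mul_le_mul_of_nonneg_left (by linarith) (by positivity)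
    have h10 : 0 ≤ ε * n * x ^ 6 := by positivity
    have e2 : x * n * (Real.log 2 + (P0 β + A * x ^ 5 + ε / 4 * x ^ 5)) =
        x * (n * (Real.log 2 + P0 β)) + A * n * x ^ 6 + 1 / 4 * (ε * n * x ^ 6) := by ring
    rw [e2] at h3
    linarith only [h10, h3, hup]

/-- **The sharp constant of the exponential moments, uniformly in `x ≥ n ^ (-1/200)`.** -/
theorem sharp_moment_u {β : ℝ} (hβ : 1 < β) : ∃ A : ℝ, 0 < A ∧ ∀ ε : ℝ, 0 < ε → ∃ x₀ : ℝ,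
    0 < x₀ ∧ ∃ N : ℕ, ∀ n ≥ N, ∀ x : ℝ, (n : ℝ) ^ (-(1 / 200) : ℝ) ≤ x → x ≤ x₀ →
      |Real.log (∫ g, Real.exp (x * freeEnergy n β g) ∂(disorder n)) - x * (n * Sx.pv β) -
        A * n * x ^ 6| ≤ ε * n * x ^ 6 := by
  obtain ⟨A, hA, hlim⟩ := lim_A hβ
  exact ⟨A, hA, fun ε hε => sharp_moment_u_of hβ hA hlim hε⟩

end Vale.Agent.P146.Sh
end

section

/-!
# P146, Sh: the sharp upper tail of the free energy, uniformly for `n ^ (-1/50) ≤ s ≤ s₀`
-/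

open MeasureTheory ProbabilityTheory Filter Topology Set

namespace Vale.Agent.P146.Sh

theorem sharp_ldp_u_of {β A : ℝ} (hA : 0 < A)
    (H : ∀ ε : ℝ, 0 < ε → ∃ x₀ : ℝ, 0 < x₀ ∧ ∃ N : ℕ, ∀ n : ℕ, N ≤ n → ∀ x : ℝ,
      (n : ℝ) ^ (-(1 / 200) : ℝ) ≤ x → x ≤ x₀ →
      |Real.log (∫ g, Real.exp (x * freeEnergy n β g) ∂(disorder n)) - x * (n * Sx.pv β) -
        A * n * x ^ 6| ≤ ε * n * x ^ 6) :
    ∀ ε : ℝ, 0 < ε → ∃ s₀ : ℝ, 0 < s₀ ∧ ∃ N : ℕ, ∀ n : ℕ, N ≤ n → ∀ s : ℝ,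
      (n : ℝ) ^ (-(1 / 50) : ℝ) ≤ s → s ≤ s₀ →
      |Real.log ((disorder n).real {g | n * (Sx.pv β + s) ≤ freeEnergy n β g}) +
        5 / 6 * (6 * A) ^ (-(1 / 5) : ℝ) * n * s ^ (6 / 5 : ℝ)| ≤
          ε * n * s ^ (6 / 5 : ℝ) :=
  ldp_abs_u (μ := fun n => disorder n) (X := fun n g => freeEnergy n β g) (a := 1 / 200)
    (b := 1 / 50) (fun _ => Ub.measurable_free β) (fun n x => Sx.integrable_exp n β x) hA
    (by norm_num) (by norm_num) H

end Vale.Agent.P146.Sh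
end

section

/-!
# P146, Sh: the constant near the critical temperature: the two bounds
-/

open MeasureTheory ProbabilityTheory Filter Topology Set

namespace Vale.Agent.P146.Sh

open Vale.Agent.P157.Par
open Vale.Agent.P146.Gap
open Vale.Agent.P146.Pw2
open Vale.Agent.P146.Lb
open Vale.Agent.P367.Cl

/-- the coefficient of the step at the minimisers -/
def TcB (b C₀ : ℝ) : Prop := ∃ c C : ℝ, 0 < c ∧ 1 ≤ C ∧ ∀ (n d : ℕ) (r : ℕ → ℝ),
  1 ≤ d → d ≤ n → IsMinD b n d r → gm n d ≤ c → C ≤ gm n d ^ 40 * ((n : ℝ) + 1) →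
    |9 / 80 * vv n r ^ 12 / kk n r ^ 6 - 9 / 5120| ≤ C₀ * √(b ^ 2 - 1 + 4 * gm n d ^ 8)

theorem tc_gm0 (n d : ℕ) : 0 ≤ gm n d := by unfold gm; positivity

theorem tc_pre (hbd : ∃ c K : ℝ, 0 < c ∧ 1 ≤ K ∧ ∀ (n : ℕ) (r : ℕ → ℝ), BPath 2 n r →
      c ≤ vv n r ∧ vv n r ≤ 1 ∧ c ≤ kk n r ∧ kk n r ≤ K) :
    ∃ C₀ : ℝ, 1 ≤ C₀ ∧ ∀ b : ℝ, 1 < b → b ≤ 2 →
      (∃ c C : ℝ, 0 < c ∧ 1 ≤ C ∧ ∀ (n d : ℕ) (r : ℕ → ℝ),
        1 ≤ d → d ≤ n → IsMinD b n d r → gm n d ≤ c → C ≤ gm n d ^ 40 * (n + 1) →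
          c * gm n d ≤ r d ∧ r d ≤ C * gm n d ∧ 2 * C * gm n d ≤ r n ∧
          ∀ l, d ≤ l → l < n → ∀ t ∈ Icc 0 (r (l + 1) - r l),
            |Mb n (gm n) r l t - 1 / b ^ 2| ≤ gm n d ^ 8) → TcB b C₀ := by
  obtain ⟨c, K, hc, hK, hvk⟩ := hbd
  obtain ⟨C, hC, hkv⟩ := tc_vk
  have h0 : 0 ≤ C * (2000 + 6 * (K + 2) ^ 5) / c ^ 6 := by positivity
  refine ⟨C * (2000 + 6 * (K + 2) ^ 5) / c ^ 6 + 1, by linarith, fun b hb hb2 hA => ?_⟩
  obtain ⟨c₁, C₁, hc₁, hC₁, hl⟩ := hA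
  refine ⟨min c₁ (1 / 2), C₁, by positivity, hC₁, fun n d r hd hdn hr hg hbig => ?_⟩
  have hg0 := tc_gm0 n d
  have hn0 : (0 : ℝ) < (n : ℝ) + 1 := by positivity
  have hg2 : gm n d ≤ 1 / 2 := hg.trans (min_le_right _ _)
  have hdn' : d < n := by
    rcases hdn.lt_or_eq with h | h
    · exact h
    · exfalso
      subst h
      unfold gm at hg2 hbig
      rw [div_le_div_iff₀ hn0 (by norm_num)] at hg2
      have h1 : d = 1 := by
        have : (d : ℝ) ≤ 1 := by linarith only [hg2]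
        have : d ≤ 1 := by exact_mod_cast this
        omega
      subst h1
      norm_num at hbig
      linarith only [hbig, hC₁]
  obtain ⟨l, hl1⟩ : ∃ l, l + 1 = n := ⟨n - 1, by omega⟩
  have hB := hr.1
  have hmono : r l ≤ r (l + 1) := hB.2.1.2 l (by omega)
  obtain ⟨-, -, -, h4⟩ := hl n d r hd hdn hr (hg.trans (min_le_left _ _)) hbig
  have h5 := h4 l (by omega) (by omega) (r (l + 1) - r l) ⟨by linarith only [hmono], le_rfl⟩
  have htop := tc_top (by linarith only [hb] : 0 < b) hl1 hr h5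
  have hrn0 : 0 ≤ r n := by
    have hst := statD (by linarith only [hb] : 0 < b) hr n le_rfl
    have := spR_nonneg (gm_exponents n) hB.2.1 (le_refl n)
    rw [hst]
    positivity
  have hb22 : b ^ 2 ≤ 4 := by (by_contra nlg; linarith only [nlg, mul_nonneg (sub_nonneg.2 hb2) (sub_nonneg.2 hg2), mul_nonneg (sub_nonneg.2 hb2) (sub_nonneg.2 hg0), mul_nonneg (le_of_lt (sub_pos.2 hb)) (sub_nonneg.2 hb2), mul_nonneg (le_of_lt (sub_pos.2 (not_le.1 nlg))) (sub_nonneg.2 hb2), mul_pos (sub_pos.2 (not_le.1 nlg)) (sub_pos.2 hb)])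
  have hrn4 : r n ≤ 4 := hB.2.2.trans hb22
  have hB2 : BPath 2 n r := ⟨hB.1, hB.2.1, by norm_num; exact hrn4⟩
  obtain ⟨v1, v2, k1, k2⟩ := hvk n r hB2
  obtain ⟨a1, a2⟩ := hkv n r hB2 (by omega)
  refine (tc_alg hc hK hC v1 v2 k1 k2 hrn0 hrn4 a1 a2).trans ?_
  have h6 : √(r n) ≤ √(b ^ 2 - 1 + 4 * gm n d ^ 8) := by
    apply Real.sqrt_le_sqrt
    have h7 : b ^ 2 * gm n d ^ 8 ≤ 4 * gm n d ^ 8 :=
      mul_le_mul_of_nonneg_right hb22 (by positivity)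
    linarith only [h7, htop]
  refine mul_le_mul (by linarith only []) h6 (Real.sqrt_nonneg _) (by linarith only [h0])

theorem tc_inv (b : ℝ) : Tendsto (fun n : ℕ => 2 * b ^ 2 / ((n : ℝ) + 1)) atTop (𝓝 0) :=
  tendsto_const_nhds.div_atTop shlim_n1

theorem tc_cont (b C₀ C : ℝ) (s : ℝ) : Continuous fun x : ℝ =>
    s * (C₀ * √(b ^ 2 - 1 + 4 * x ^ 8)) + C * √x := by fun_prop

/-- the lower bound -/
theorem tc_low {b C₀ : ℝ} (hb : 1 < b) (hB : TcB b C₀)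
    (hdown : ∃ c C : ℝ, 0 < c ∧ 1 ≤ C ∧ ∀ (n d : ℕ) (r : ℕ → ℝ),
      1 ≤ d → d ≤ n → IsMinD b n d r → gm n d ≤ c → C ≤ gm n d ^ 40 * (n + 1) →
        ∃ r', BPath b n r' ∧ SKr b n (gm n) r' + 9 / 80 * vv n r ^ 12 / kk n r ^ 6 * gm n d ^ 5 ≤
          SKr b n (gm n) r + C * (gm n d ^ 5 * √(gm n d)))
    (hge : ∀ {n d : ℕ}, 1 ≤ d → d ≤ n → ∀ {x : ℝ}, 0 < x → x ≤ 1 → gm n (d - 1) < x →
      ∀ {r : ℕ → ℝ}, IsMinD b n d r → SKr b n (gm n) r ≤ Vx b x + 2 * b ^ 2 / (n + 1)) :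
    ∃ c C : ℝ, 0 < c ∧ 1 ≤ C ∧ ∀ x : ℝ, 0 < x → x < c →
      9 / 5120 + (-1 * (C₀ * √(b ^ 2 - 1 + 4 * x ^ 8)) + -C * √x) ≤ (Vx b x - P0 b) / x ^ 5 := by
  obtain ⟨c₁, C₁, hc₁, hC₁, h1⟩ := hB
  obtain ⟨c₂, C₂, hc₂, hC₂, h2⟩ := hdown
  have hb0 : 0 < b := by linarith
  refine ⟨min (min c₁ c₂) 1, C₂, by positivity, hC₂, fun x hx hxc => ?_⟩
  have hx1 : x < 1 := hxc.trans_le (min_le_right _ _)
  have hxc₁ : x < c₁ := hxc.trans_le ((min_le_left _ _).trans (min_le_left _ _))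
  have hxc₂ : x < c₂ := hxc.trans_le ((min_le_left _ _).trans (min_le_right _ _))
  rw [le_div_iff₀ (by positivity)]
  have t := shlim_td hx
  have hL : Tendsto (fun n : ℕ => P0 b + (9 / 5120 +
      (-1 * (C₀ * √(b ^ 2 - 1 + 4 * gm n (shlimd x n) ^ 8)) + -C₂ * √(gm n (shlimd x n)))) *
        gm n (shlimd x n) ^ 5) atTop (𝓝 (P0 b + (9 / 5120 +
      (-1 * (C₀ * √(b ^ 2 - 1 + 4 * x ^ 8)) + -C₂ * √x)) * x ^ 5)) := by
    have hc : Continuous fun y : ℝ => P0 b + (9 / 5120 +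
      (-1 * (C₀ * √(b ^ 2 - 1 + 4 * y ^ 8)) + -C₂ * √y)) * y ^ 5 := by fun_prop
    exact (hc.tendsto x).comp t
  have hR : Tendsto (fun n : ℕ => Vx b x + 2 * b ^ 2 / ((n : ℝ) + 1)) atTop (𝓝 (Vx b x)) := by
    have := (tc_inv b).const_add (Vx b x)
    rwa [add_zero] at this
  have key := le_of_tendsto_of_tendsto hL hR (by
    filter_upwards [shlim_le hx1, shlim_big hx C₁ 40, shlim_big hx C₂ 40,
      t.eventually (gt_mem_nhds hxc₁), t.eventually (gt_mem_nhds hxc₂)] with n a1 a2 a3 a4 a5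
    obtain ⟨r, hr⟩ := exists_minD (n := n) (d := shlimd x n) hb0 a1
    have b1 := h1 n _ r (shlim_one hx n) a1 hr a4.le a2
    obtain ⟨r', hr', b2⟩ := h2 n _ r (shlim_one hx n) a1 hr a5.le a3
    have b3 := hge (shlim_one hx n) a1 hx hx1.le (shlim_lt hx n) hr
    have b4 : P0 b ≤ SKr b n (gm n) r' := Ld.cor_sInf_le hb.le hr'
    obtain ⟨y, hy⟩ : ∃ y : ℝ, y = gm n (shlimd x n) := ⟨_, rfl⟩
    have hy0 : 0 ≤ y := by rw [hy]; exact tc_gm0 _ _
    rw [← hy] at b1 b2 ⊢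
    have hy5 : 0 ≤ y ^ 5 := by positivity
    have b5 := mul_le_mul_of_nonneg_right (abs_le.1 b1).1 hy5
    linarith only [b5, b2, b4, b3])
  linarith

/-- the upper bound -/
theorem tc_upp {b C₀ : ℝ} (hb : 1 < b) (hC₀ : 0 ≤ C₀) (hB : TcB b C₀)
    (hup : ∃ c C : ℝ, 0 < c ∧ 1 ≤ C ∧ ∀ (n d : ℕ) (r : ℕ → ℝ),
      1 ≤ d → d < n → IsMinD b n d r → gm n d ≤ c → C ≤ gm n d ^ 40 * (n + 1) →
        ∃ r', BPath b n r' ∧ (∀ l < d + 1, r' l = 0) ∧ SKr b n (gm n) r' ≤ SKr b n (gm n) r +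
          1 / ((n : ℝ) + 1) * (9 / 16 * vv n r ^ 12 / kk n r ^ 6 * gm n d ^ 4 +
            C * (gm n d ^ 4 * √(gm n d))))
    (hle : ∀ {n d : ℕ}, 1 ≤ d → d ≤ n → ∀ {r : ℕ → ℝ}, BPath b n r → (∀ l < d, r l = 0) →
      Vx b (gm n d) ≤ SKr b n (gm n) r)
    (hge : ∀ {n d : ℕ}, 1 ≤ d → d ≤ n → ∀ {x : ℝ}, 0 < x → x ≤ 1 → gm n (d - 1) < x →
      ∀ {r : ℕ → ℝ}, IsMinD b n d r → SKr b n (gm n) r ≤ Vx b x + 2 * b ^ 2 / (n + 1)) :
    ∃ c C : ℝ, 0 < c ∧ 1 ≤ C ∧ ∀ x : ℝ, 0 < x → x < c →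
      Vx b x ≤ Vx b (x / 2) + (9 / 5120 + (1 * (C₀ * √(b ^ 2 - 1 + 4 * x ^ 8)) + C * √x)) *
        (x ^ 5 - (x / 2) ^ 5) := by
  obtain ⟨c₁, C₁, hc₁, hC₁, h1⟩ := hB
  obtain ⟨c₂, C₂, hc₂, hC₂, h2⟩ := hup
  have hb0 : 0 < b := by linarith
  refine ⟨min (min c₁ c₂) 1, C₂, by positivity, hC₂, fun x hx hxc => ?_⟩
  have hx1 : x < 1 := hxc.trans_le (min_le_right _ _)
  have hxc₁ : x < c₁ := hxc.trans_le ((min_le_left _ _).trans (min_le_left _ _))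
  have hxc₂ : x < c₂ := hxc.trans_le ((min_le_left _ _).trans (min_le_right _ _))
  have hx2 : 0 < x / 2 := by positivity
  have hxx : x / 2 ≤ x := by linarith
  have t := shlim_td hx
  have t2 := shlim_td hx2
  have hR : Tendsto (fun n : ℕ => Vx b (x / 2) + 2 * b ^ 2 / ((n : ℝ) + 1) + (9 / 5120 +
      (1 * (C₀ * √(b ^ 2 - 1 + 4 * gm n (shlimd x n) ^ 8)) + C₂ * √(gm n (shlimd x n)))) *
        (gm n (shlimd x n) ^ 5 - gm n (shlimd (x / 2) n) ^ 5)) atTop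
      (𝓝 (Vx b (x / 2) + 0 + (9 / 5120 + (1 * (C₀ * √(b ^ 2 - 1 + 4 * x ^ 8)) + C₂ * √x)) *
        (x ^ 5 - (x / 2) ^ 5))) := by
    have hc : Continuous fun y : ℝ =>
      9 / 5120 + (1 * (C₀ * √(b ^ 2 - 1 + 4 * y ^ 8)) + C₂ * √y) := by fun_prop
    exact ((tc_inv b).const_add _).add (((hc.tendsto x).comp t).mul ((t.pow 5).sub (t2.pow 5)))
  have key := le_of_tendsto_of_tendsto (tendsto_const_nhds (x := Vx b x)) hR (by
    filter_upwards [shlim_le hx1, shlim_big hx2 C₁ 40, shlim_big hx2 C₂ 40,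
      t.eventually (gt_mem_nhds hxc₁), t.eventually (gt_mem_nhds hxc₂)] with n a1 a2 a3 a4 a5
    have hd := shlim_mono hxx n
    have hone := shlim_one hx2 n
    have hlt := shlim_lt hx2 n
    have hgex := shlim_ge x n
    obtain ⟨d₁, hd₁⟩ : ∃ d₁, d₁ = shlimd (x / 2) n := ⟨_, rfl⟩
    obtain ⟨d₂, hd₂⟩ : ∃ d₂, d₂ = shlimd x n := ⟨_, rfl⟩
    rw [← hd₁] at hd a2 a3 hone hlt ⊢
    rw [← hd₂] at hd a1 a4 a5 hgex ⊢
    have hex : ∀ d : ℕ, ∃ r, d ≤ n → IsMinD b n d r := fun d => by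
      by_cases h : d ≤ n
      · obtain ⟨r, hr⟩ := exists_minD (n := n) (d := d) hb0 h
        exact ⟨r, fun _ => hr⟩
      · exact ⟨fun _ => 0, fun h' => absurd h' h⟩
    choose R hRm using hex
    have hn0 : (0 : ℝ) < (n : ℝ) + 1 := by positivity
    obtain ⟨Y, hY⟩ : ∃ Y : ℝ, Y = gm n d₂ := ⟨_, rfl⟩
    rw [← hY]
    obtain ⟨E, hE⟩ : ∃ E : ℝ, E = 9 / 5120 + (1 * (C₀ * √(b ^ 2 - 1 + 4 * Y ^ 8)) + C₂ * √Y) :=
      ⟨_, rfl⟩
    rw [← hE]
    have hind : ∀ d, d₁ ≤ d → d ≤ d₂ → SKr b n (gm n) (R d) ≤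
        SKr b n (gm n) (R d₁) + E * (gm n d ^ 5 - gm n d₁ ^ 5) := by
      intro d h
      induction d, h using Nat.le_induction with
      | base => intro _; simp
      | succ d hd1 ih =>
        intro hd2
        have ih' := ih (by omega)
        have hm := hRm d (by omega)
        have hgd : gm n d ≤ Y := by
          rw [hY]
          unfold gm
          refine div_le_div_of_nonneg_right ?_ hn0.le
          exact_mod_cast (by omega : d ≤ d₂)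
        have hg1d : gm n d₁ ≤ gm n d := by
          unfold gm
          refine div_le_div_of_nonneg_right ?_ hn0.le
          exact_mod_cast hd1
        have hg0 := tc_gm0 n d
        have hg10 := tc_gm0 n d₁
        have h40 : gm n d₁ ^ 40 * ((n : ℝ) + 1) ≤ gm n d ^ 40 * ((n : ℝ) + 1) :=
          mul_le_mul_of_nonneg_right (pow_le_pow_left₀ hg10 hg1d 40) hn0.le
        have b1 := h1 n d (R d) (by omega) (by omega) hm
          (hgd.trans (by rw [hY]; exact a4.le)) (a2.trans h40)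
        obtain ⟨r', hr', hr0, b2⟩ := h2 n d (R d) (by omega) (by omega) hm
          (hgd.trans (by rw [hY]; exact a5.le)) (a3.trans h40)
        have b3 := (hRm (d + 1) (by omega)).2.2 r' hr' hr0
        have hy1 : gm n (d + 1) = gm n d + 1 / ((n : ℝ) + 1) := by
          unfold gm
          push_cast
          ring
        rw [hy1]
        obtain ⟨y, hy⟩ : ∃ y : ℝ, y = gm n d := ⟨_, rfl⟩
        obtain ⟨δ, hδ⟩ : ∃ δ : ℝ, δ = 1 / ((n : ℝ) + 1) := ⟨_, rfl⟩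
        rw [← hy] at b1 b2 hgd hg0 ih' ⊢
        rw [← hδ] at b2 ⊢
        have hδ0 : 0 ≤ δ := by rw [hδ]; positivity
        have hE0 : 0 ≤ E := by
          rw [hE]
          (clear * - hC₀ hC₂; positivity)
        have hY0 : 0 ≤ Y := hg0.trans hgd
        have hsq : √y ≤ √Y := Real.sqrt_le_sqrt hgd
        have hsq8 : √(b ^ 2 - 1 + 4 * y ^ 8) ≤ √(b ^ 2 - 1 + 4 * Y ^ 8) := by
          apply Real.sqrt_le_sqrt
          gcongr
        have b4 : 9 / 80 * vv n (R d) ^ 12 / kk n (R d) ^ 6 ≤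
            9 / 5120 + C₀ * √(b ^ 2 - 1 + 4 * Y ^ 8) := by
          have := (abs_le.1 b1).2
          have h5 := mul_le_mul_of_nonneg_left hsq8 hC₀
          linarith only [h5, this]
        have b5 : 9 / 16 * vv n (R d) ^ 12 / kk n (R d) ^ 6 * y ^ 4 + C₂ * (y ^ 4 * √y) ≤
            5 * y ^ 4 * E := by
          have e : 9 / 16 * vv n (R d) ^ 12 / kk n (R d) ^ 6 =
              5 * (9 / 80 * vv n (R d) ^ 12 / kk n (R d) ^ 6) := by ring
          rw [e, hE]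
          have hy4 : 0 ≤ y ^ 4 := by positivity
          have h5 := mul_le_mul_of_nonneg_left b4 (by (clear * -; positivity) : 0 ≤ 5 * y ^ 4)
          have h6 : C₂ * (y ^ 4 * √y) ≤ 5 * y ^ 4 * (C₂ * √Y) := by
            have h7 : C₂ * (y ^ 4 * √y) ≤ C₂ * (y ^ 4 * √Y) := by gcongr
            have h8 : 0 ≤ C₂ * (y ^ 4 * √Y) := by (clear * - hC₂; positivity)
            linarith only [h8, h7]
          linarith only [h6, h5]
        have b6 := mul_le_mul_of_nonneg_left b5 hδ0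
        have b7 : 5 * δ * y ^ 4 ≤ (y + δ) ^ 5 - y ^ 5 := by
          have e : (y + δ) ^ 5 - y ^ 5 - 5 * δ * y ^ 4 =
              10 * y ^ 3 * δ ^ 2 + 10 * y ^ 2 * δ ^ 3 + 5 * y * δ ^ 4 + δ ^ 5 := by ring
          have : 0 ≤ 10 * y ^ 3 * δ ^ 2 + 10 * y ^ 2 * δ ^ 3 + 5 * y * δ ^ 4 + δ ^ 5 := by
            (clear * - hg0 hδ0; positivity)
          linarith only [this]
        have b8 := mul_le_mul_of_nonneg_left b7 hE0
        have e2 : E * (5 * δ * y ^ 4) = δ * (5 * y ^ 4 * E) := by ring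
        rw [e2] at b8
        have e3 : E * ((y + δ) ^ 5 - gm n d₁ ^ 5) =
            E * ((y + δ) ^ 5 - y ^ 5) + E * (y ^ 5 - gm n d₁ ^ 5) := by ring
        rw [e3]
        linarith only [b8, b6, b2, ih', b3]
    have c1 := hind d₂ hd le_rfl
    have c2 := hge hone (hd.trans a1) hx2 (by linarith) hlt (hRm d₁ (hd.trans a1))
    have hY1 : gm n d₂ ≤ 1 := by
      unfold gm
      rw [div_le_one hn0]
      have : ((d₂ : ℕ) : ℝ) ≤ n := by exact_mod_cast a1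
      linarith
    have c3 : Vx b x ≤ SKr b n (gm n) (R d₂) :=
      (shlim_Vx hb hgex hY1).trans (hle (hone.trans hd) a1 (hRm d₂ a1).1 (hRm d₂ a1).2.1)
    rw [← hY] at c1
    linarith only [c3, c2, c1])
  rw [add_zero] at key
  exact key

/-- the limit -/
theorem tc_lim {b C₀ A : ℝ}
    (hlim : Tendsto (fun x => (Vx b x - P0 b) / x ^ 5) (𝓝[>] 0) (𝓝 A))
    (hlow : ∃ c C : ℝ, 0 < c ∧ 1 ≤ C ∧ ∀ x : ℝ, 0 < x → x < c →
      9 / 5120 + (-1 * (C₀ * √(b ^ 2 - 1 + 4 * x ^ 8)) + -C * √x) ≤ (Vx b x - P0 b) / x ^ 5)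
    (hupp : ∃ c C : ℝ, 0 < c ∧ 1 ≤ C ∧ ∀ x : ℝ, 0 < x → x < c →
      Vx b x ≤ Vx b (x / 2) + (9 / 5120 + (1 * (C₀ * √(b ^ 2 - 1 + 4 * x ^ 8)) + C * √x)) *
        (x ^ 5 - (x / 2) ^ 5)) :
    |A - 9 / 5120| ≤ C₀ * √(b ^ 2 - 1) := by
  have hfun : ∀ s C : ℝ, Tendsto (fun x : ℝ =>
      9 / 5120 + (s * (C₀ * √(b ^ 2 - 1 + 4 * x ^ 8)) + C * √x)) (𝓝[>] 0)
      (𝓝 (9 / 5120 + s * (C₀ * √(b ^ 2 - 1)))) := by
    intro s C
    have hc : Continuous fun x : ℝ =>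
      9 / 5120 + (s * (C₀ * √(b ^ 2 - 1 + 4 * x ^ 8)) + C * √x) := by fun_prop
    have h := (hc.tendsto 0).mono_left (nhdsWithin_le_nhds (s := Ioi 0))
    have e : 9 / 5120 + (s * (C₀ * √(b ^ 2 - 1 + 4 * (0 : ℝ) ^ 8)) + C * √0) =
        9 / 5120 + s * (C₀ * √(b ^ 2 - 1)) := by
      rw [Real.sqrt_zero]
      norm_num
    rw [e] at h
    exact h
  rw [abs_le]
  constructor
  · obtain ⟨c, C, hc, hC, h⟩ := hlow
    have h1 := le_of_tendsto_of_tendsto (hfun (-1) (-C)) hlim (by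
      filter_upwards [Ioo_mem_nhdsGT hc] with x hx
      exact h x hx.1 hx.2)
    linarith
  · obtain ⟨c, C, hc, hC, h⟩ := hupp
    have hhalf : Tendsto (fun x : ℝ => x / 2) (𝓝[>] 0) (𝓝[>] 0) := by
      refine tendsto_nhdsWithin_iff.2 ⟨?_, ?_⟩
      · have hc2 : Continuous fun x : ℝ => x / 2 := by fun_prop
        have := (hc2.tendsto 0).mono_left (nhdsWithin_le_nhds (s := Ioi 0))
        simpa using this
      · filter_upwards [self_mem_nhdsWithin] with x hx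
        have hx0 : (0 : ℝ) < x := hx
        exact half_pos hx0
    have h2 : Tendsto (fun x : ℝ => (Vx b (x / 2) - P0 b) / (x / 2) ^ 5) (𝓝[>] 0) (𝓝 A) :=
      hlim.comp hhalf
    have h3 := (h2.div_const 32).add ((hfun 1 C).mul_const (31 / 32))
    have h1 := le_of_tendsto_of_tendsto hlim h3 (by
      filter_upwards [Ioo_mem_nhdsGT hc] with x hx
      have h4 := h x hx.1 hx.2
      have hx0 : 0 < x := hx.1
      have hx5 : 0 < x ^ 5 := by positivity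
      rw [div_le_iff₀ hx5]
      have e1 : ((Vx b (x / 2) - P0 b) / (x / 2) ^ 5 / 32 +
          (9 / 5120 + (1 * (C₀ * √(b ^ 2 - 1 + 4 * x ^ 8)) + C * √x)) * (31 / 32)) * x ^ 5 =
          (Vx b (x / 2) - P0 b) + (9 / 5120 + (1 * (C₀ * √(b ^ 2 - 1 + 4 * x ^ 8)) + C * √x)) *
            (x ^ 5 - (x / 2) ^ 5) := by
        field_simp
        ring
      rw [e1]
      linarith only [h4])
    linarith

/-- the constant near the critical temperature, over the bricks -/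
theorem tc_of (hbd : ∃ c K : ℝ, 0 < c ∧ 1 ≤ K ∧ ∀ (n : ℕ) (r : ℕ → ℝ), BPath 2 n r →
      c ≤ vv n r ∧ vv n r ≤ 1 ∧ c ≤ kk n r ∧ kk n r ≤ K) :
    ∃ C₀ : ℝ, 1 ≤ C₀ ∧ ∀ b : ℝ, 1 < b → b ≤ 2 →
      (∃ c C : ℝ, 0 < c ∧ 1 ≤ C ∧ ∀ (n d : ℕ) (r : ℕ → ℝ),
        1 ≤ d → d ≤ n → IsMinD b n d r → gm n d ≤ c → C ≤ gm n d ^ 40 * (n + 1) →
          c * gm n d ≤ r d ∧ r d ≤ C * gm n d ∧ 2 * C * gm n d ≤ r n ∧
          ∀ l, d ≤ l → l < n → ∀ t ∈ Icc 0 (r (l + 1) - r l),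
            |Mb n (gm n) r l t - 1 / b ^ 2| ≤ gm n d ^ 8) →
      (∃ c C : ℝ, 0 < c ∧ 1 ≤ C ∧ ∀ (n d : ℕ) (r : ℕ → ℝ),
        1 ≤ d → d ≤ n → IsMinD b n d r → gm n d ≤ c → C ≤ gm n d ^ 40 * (n + 1) →
          ∃ r', BPath b n r' ∧ SKr b n (gm n) r' + 9 / 80 * vv n r ^ 12 / kk n r ^ 6 * gm n d ^ 5 ≤
            SKr b n (gm n) r + C * (gm n d ^ 5 * √(gm n d))) →
      (∃ c C : ℝ, 0 < c ∧ 1 ≤ C ∧ ∀ (n d : ℕ) (r : ℕ → ℝ),
        1 ≤ d → d < n → IsMinD b n d r → gm n d ≤ c → C ≤ gm n d ^ 40 * (n + 1) →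
          ∃ r', BPath b n r' ∧ (∀ l < d + 1, r' l = 0) ∧ SKr b n (gm n) r' ≤ SKr b n (gm n) r +
            1 / ((n : ℝ) + 1) * (9 / 16 * vv n r ^ 12 / kk n r ^ 6 * gm n d ^ 4 +
              C * (gm n d ^ 4 * √(gm n d)))) →
      (∀ {n d : ℕ}, 1 ≤ d → d ≤ n → ∀ {r : ℕ → ℝ}, BPath b n r → (∀ l < d, r l = 0) →
        Vx b (gm n d) ≤ SKr b n (gm n) r) →
      (∀ {n d : ℕ}, 1 ≤ d → d ≤ n → ∀ {x : ℝ}, 0 < x → x ≤ 1 → gm n (d - 1) < x →
        ∀ {r : ℕ → ℝ}, IsMinD b n d r → SKr b n (gm n) r ≤ Vx b x + 2 * b ^ 2 / (n + 1)) →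
      ∀ A : ℝ, Tendsto (fun x => (Vx b x - P0 b) / x ^ 5) (𝓝[>] 0) (𝓝 A) →
        |A - 9 / 5120| ≤ C₀ * √(b ^ 2 - 1) := by
  obtain ⟨C₀, hC₀, h⟩ := tc_pre hbd
  refine ⟨C₀, hC₀, fun b hb hb2 hA hdown hup hle hge A hlim => ?_⟩
  have hB := h b hb hb2 hA
  exact tc_lim hlim (tc_low hb hB hdown hge) (tc_upp hb (by linarith) hB hup hle hge)

/-- the constant as a function of the inverse temperature -/
theorem tc_Lam_of {C₀ : ℝ} (h1 : ∀ b : ℝ, 1 < b → ∃ A : ℝ, 0 < A ∧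
      Tendsto (fun x => (Vx b x - P0 b) / x ^ 5) (𝓝[>] 0) (𝓝 A))
    (h2 : ∀ b : ℝ, 1 < b → b ≤ 2 → ∀ A : ℝ,
      Tendsto (fun x => (Vx b x - P0 b) / x ^ 5) (𝓝[>] 0) (𝓝 A) →
        |A - 9 / 5120| ≤ C₀ * √(b ^ 2 - 1)) :
    ∃ Λ : ℝ → ℝ, Tendsto Λ (𝓝[>] 1) (𝓝 (9 / 5120)) ∧ ∀ b : ℝ, 1 < b → 0 < Λ b ∧
      Tendsto (fun x => (Vx b x - P0 b) / x ^ 5) (𝓝[>] 0) (𝓝 (Λ b)) := by
  have h : ∀ b : ℝ, ∃ A : ℝ, 1 < b → 0 < A ∧
      Tendsto (fun x => (Vx b x - P0 b) / x ^ 5) (𝓝[>] 0) (𝓝 A) := fun b => by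
    by_cases hb : 1 < b
    · obtain ⟨A, hA⟩ := h1 b hb
      exact ⟨A, fun _ => hA⟩
    · exact ⟨0, fun h => absurd h hb⟩
  choose Λ hΛ using h
  refine ⟨Λ, ?_, hΛ⟩
  rw [tendsto_iff_dist_tendsto_zero]
  have hc : Continuous fun b : ℝ => C₀ * √(b ^ 2 - 1) := by fun_prop
  have ht : Tendsto (fun b : ℝ => C₀ * √(b ^ 2 - 1)) (𝓝[>] 1) (𝓝 0) := by
    have h := (hc.tendsto 1).mono_left (nhdsWithin_le_nhds (s := Ioi 1))
    have e : C₀ * √((1 : ℝ) ^ 2 - 1) = 0 := by norm_num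
    rwa [e] at h
  refine squeeze_zero' (Eventually.of_forall fun _ => dist_nonneg) ?_ ht
  filter_upwards [Ioo_mem_nhdsGT (show (1 : ℝ) < 2 by norm_num)] with b hb
  rw [Real.dist_eq]
  exact h2 b hb.1 hb.2.le (Λ b) (hΛ b hb.1).2

end Vale.Agent.P146.Sh
end

section

/-!
# P146, Sh: the constant near the critical temperature
-/

open MeasureTheory ProbabilityTheory Filter Topology Set

namespace Vale.Agent.P146.Sh

open Vale.Agent.P157.Par
open Vale.Agent.P146.Gap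
open Vale.Agent.P146.Pw2
open Vale.Agent.P146.Lb
open Vale.Agent.P367.Cl

/-- The constant of `V(x) - V(0) ≈ A x⁵`, with its limit at the critical temperature. -/
theorem lim_Lam : ∃ Λ : ℝ → ℝ, Tendsto Λ (𝓝[>] 1) (𝓝 (9 / 5120)) ∧ ∀ b : ℝ, 1 < b → 0 < Λ b ∧
    Tendsto (fun x => (Vx b x - P0 b) / x ^ 5) (𝓝[>] 0) (𝓝 (Λ b)) := by
  obtain ⟨C₀, -, h⟩ := tc_of (vk_bd 2)
  exact tc_Lam_of (C₀ := C₀) (fun b hb => lim_A hb) fun b hb hb2 A hA =>
    h b hb hb2 (lawA hb) (down hb) (up hb) (fun hd hdn _ hr h0 => vx_le hb hd hdn hr h0)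
      (fun hd hdn _ hx hx1 hdx _ hr => vx_ge hb hd hdn hx hx1 hdx hr) A hA

end Vale.Agent.P146.Sh
end
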